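import Mathlib

/-!
P322: shared definitions. Bits are `Bool` (`true` for `1`, `false` for `-1`).
-/

namespace Vale.Agent.P322

/-- Transition probability of `n` independent binary symmetric channels with crossover `ε`. -/
noncomputable def kernel {n : ℕ} (ε : ℝ) (x y : Fin n → Bool) : ℝ :=
  ∏ i, if x i = y i then 1 - ε else ε

/-- The probability that `f X = b` and `Y = y`, for uniform `X`. -/
noncomputable def jointProb {n : ℕ} (ε : ℝ) (f : (Fin n → Bool) → Bool) (b : Bool)
    (y : Fin n → Bool) : ℝ :=
  (1 / 2 ^ n) * ∑ x, if f x = b then kernel ε x y else 0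

/-- The mutual information `I(f X ; Y)` in bits. -/
noncomputable def mutualInfo {n : ℕ} (ε : ℝ) (f : (Fin n → Bool) → Bool) : ℝ :=
  ∑ b, ∑ y, jointProb ε f b y * Real.logb 2
    (jointProb ε f b y / ((∑ y', jointProb ε f b y') * ∑ b', jointProb ε f b' y))

/-- The probability that `f X = true` given `Y = y`. -/
noncomputable def posterior {n : ℕ} (ε : ℝ) (f : (Fin n → Bool) → Bool)
    (y : Fin n → Bool) : ℝ :=
  ∑ x, if f x then kernel ε x y else 0

/-- The probability that `f X = true`. -/
noncomputable def trueProb {n : ℕ} (f : (Fin n → Bool) → Bool) : ℝ :=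
  (1 / 2 ^ n) * ∑ x, if f x then 1 else 0

/-- The conditional entropy `H(f X | Y)` in nats. -/
noncomputable def condEntropy {n : ℕ} (ε : ℝ) (f : (Fin n → Bool) → Bool) : ℝ :=
  (1 / 2 ^ n) * ∑ y, Real.binEntropy (posterior ε f y)

end Vale.Agent.P322
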