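import Mathlib
import Vale.Agent.P322.Defs

/-!
P322: `I(f X ; Y) log 2 = h(trueProb f) - H(f X | Y)`, and the recursion on the dimension.
-/

open Finset Real

namespace Vale.Agent.P322

variable {n : ℕ} {ε : ℝ}

lemma sum_cube_succ (g : (Fin (n + 1) → Bool) → ℝ) :
    ∑ y, g y = ∑ y : Fin n → Bool, (g (Fin.cons true y) + g (Fin.cons false y)) := by
  rw [← (Fin.consEquiv fun _ : Fin (n + 1) => Bool).sum_comp, Fintype.sum_prod_type,
    Fintype.sum_bool, ← Finset.sum_add_distrib]
  rfl

lemma kernel_comm (x y : Fin n → Bool) : kernel ε x y = kernel ε y x := by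
  simp only [kernel, eq_comm]

lemma kernel_nonneg (h0 : 0 ≤ ε) (h1 : ε ≤ 1) (x y : Fin n → Bool) : 0 ≤ kernel ε x y :=
  Finset.prod_nonneg fun i _ => by split <;> linarith

lemma sum_kernel (x : Fin n → Bool) : ∑ y, kernel ε x y = 1 := by
  simp only [kernel]
  rw [← Fintype.piFinset_univ, Finset.sum_prod_piFinset Finset.univ
    (fun i b => if x i = b then 1 - ε else ε)]
  apply Finset.prod_eq_one
  intro i _
  rw [Fintype.sum_bool]
  cases x i <;> simp

lemma sum_kernel_left (y : Fin n → Bool) : ∑ x, kernel ε x y = 1 := by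
  simp_rw [kernel_comm _ y]
  exact sum_kernel y

lemma posterior_not (f : (Fin n → Bool) → Bool) (y : Fin n → Bool) :
    (∑ x, if f x = false then kernel ε x y else 0) = 1 - posterior ε f y := by
  rw [eq_sub_iff_add_eq, posterior, ← Finset.sum_add_distrib, ← sum_kernel_left (ε := ε) y]
  refine Finset.sum_congr rfl fun x _ => ?_
  cases f x <;> simp

lemma posterior_mem (h0 : 0 ≤ ε) (h1 : ε ≤ 1) (f : (Fin n → Bool) → Bool)
    (y : Fin n → Bool) : posterior ε f y ∈ Set.Icc (0 : ℝ) 1 := by
  constructor
  · exact Finset.sum_nonneg fun x _ => by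
      split
      · exact kernel_nonneg h0 h1 x y
      · rfl
  · have h := posterior_not (ε := ε) f y
    have : 0 ≤ ∑ x, if f x = false then kernel ε x y else 0 := Finset.sum_nonneg fun x _ => by
      split
      · exact kernel_nonneg h0 h1 x y
      · rfl
    linarith

lemma trueProb_mem (f : (Fin n → Bool) → Bool) : trueProb f ∈ Set.Icc (0 : ℝ) 1 := by
  have hpos : (0 : ℝ) < 2 ^ n := by positivity
  constructor
  · exact mul_nonneg (by positivity) (Finset.sum_nonneg fun x _ => by split <;> norm_num)
  · have : (∑ x, if f x then (1 : ℝ) else 0) ≤ ∑ _x : Fin n → Bool, (1 : ℝ) :=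
      Finset.sum_le_sum fun x _ => by split <;> norm_num
    simp only [Finset.sum_const, Finset.card_univ, Fintype.card_fun, Fintype.card_bool,
      Fintype.card_fin, nsmul_eq_mul, mul_one, Nat.cast_pow, Nat.cast_ofNat] at this
    rw [trueProb, one_div, inv_mul_le_iff₀ hpos, mul_one]
    exact this

/-- The posteriors average to the output mean. -/
lemma sum_posterior (f : (Fin n → Bool) → Bool) :
    (1 / 2 ^ n : ℝ) * ∑ y, posterior ε f y = trueProb f := by
  simp only [posterior, trueProb]
  rw [Finset.sum_comm]
  congr 1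
  refine Finset.sum_congr rfl fun x _ => ?_
  by_cases hx : f x <;> simp [hx, sum_kernel]

private lemma mul_logb_div {N a c : ℝ} (hN : 0 < N) (hc : a ≠ 0 → c ≠ 0) :
    a / N * logb 2 (a / N / (c * (1 / N))) * log 2 = (a * log a - a * log c) / N := by
  rcases eq_or_ne a 0 with rfl | ha
  · simp
  have h2 : log 2 ≠ 0 := by positivity
  have : a / N / (c * (1 / N)) = a / c := by field_simp
  rw [this, logb, log_div ha (hc ha)]
  field_simp

/-- Mutual information as an entropy difference. -/
lemma mutualInfo_mul_log_two (h0 : 0 ≤ ε) (h1 : ε ≤ 1) (f : (Fin n → Bool) → Bool) :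
    mutualInfo ε f * log 2 = binEntropy (trueProb f) - condEntropy ε f := by
  have hN : (0 : ℝ) < 2 ^ n := by positivity
  have hjT : ∀ y, jointProb ε f true y = posterior ε f y / 2 ^ n := fun y => by
    simp only [jointProb, posterior]; ring
  have hjF : ∀ y, jointProb ε f false y = (1 - posterior ε f y) / 2 ^ n := fun y => by
    simp only [jointProb, ← posterior_not]; ring
  have hmem := fun y => posterior_mem h0 h1 f y
  have hsT : ∑ y, jointProb ε f true y = trueProb f := by
    simp only [hjT, ← Finset.sum_div, ← sum_posterior (ε := ε) f]; ring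
  have hsF : ∑ y, jointProb ε f false y = 1 - trueProb f := by
    simp only [hjF, ← Finset.sum_div, Finset.sum_sub_distrib, ← sum_posterior (ε := ε) f]
    simp
    field_simp
  have hy : ∀ y, ∑ b, jointProb ε f b y = 1 / 2 ^ n := fun y => by
    rw [Fintype.sum_bool, hjT, hjF]; ring
  have hT : ∀ y, posterior ε f y ≠ 0 → trueProb f ≠ 0 := fun y hne h => by
    rw [← hsT] at h
    have := (Finset.sum_eq_zero_iff_of_nonneg fun z _ => by
      rw [hjT]; exact div_nonneg (hmem z).1 hN.le).1 h y (Finset.mem_univ y)
    rw [hjT, div_eq_zero_iff] at this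
    exact hne (this.resolve_right hN.ne')
  have hF : ∀ y, 1 - posterior ε f y ≠ 0 → 1 - trueProb f ≠ 0 := fun y hne h => by
    rw [← hsF] at h
    have := (Finset.sum_eq_zero_iff_of_nonneg fun z _ => by
      rw [hjF]; exact div_nonneg (sub_nonneg.2 (hmem z).2) hN.le).1 h y (Finset.mem_univ y)
    rw [hjF, div_eq_zero_iff] at this
    exact hne (this.resolve_right hN.ne')
  have hp := sum_posterior (ε := ε) f
  set μ := trueProb f
  unfold mutualInfo condEntropy
  simp only [Fintype.sum_bool]
  rw [hsT, hsF, add_mul, Finset.sum_mul, Finset.sum_mul, ← Finset.sum_add_distrib]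
  have hterm : ∀ y, jointProb ε f true y * logb 2
        (jointProb ε f true y / (μ * (jointProb ε f true y + jointProb ε f false y))) * log 2 +
      jointProb ε f false y * logb 2
        (jointProb ε f false y / ((1 - μ) * (jointProb ε f true y + jointProb ε f false y))) * log 2
      = (-(binEntropy (posterior ε f y)) - posterior ε f y * log μ -
          (1 - posterior ε f y) * log (1 - μ)) / 2 ^ n := fun y => by
    have h := hy y
    rw [Fintype.sum_bool] at h
    rw [h, hjT, hjF, mul_logb_div hN (hT y), mul_logb_div hN (hF y),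
      binEntropy_eq_negMulLog_add_negMulLog_one_sub, negMulLog_def]
    ring
  simp only [hterm, ← Finset.sum_div, Finset.sum_sub_distrib, Finset.sum_neg_distrib,
    ← Finset.sum_mul]
  rw [binEntropy_eq_negMulLog_add_negMulLog_one_sub, negMulLog_def]
  have hc : (Finset.univ : Finset (Fin n → Bool)).card = 2 ^ n := by simp
  rw [Finset.sum_const, hc, nsmul_one]
  rw [← hp]
  field_simp
  push_cast
  ring

lemma kernel_cons (a b : Bool) (x y : Fin n → Bool) :
    kernel ε (Fin.cons a x) (Fin.cons b y) = (if a = b then 1 - ε else ε) * kernel ε x y := by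
  simp [kernel, Fin.prod_univ_succ]

lemma posterior_cons (f : (Fin (n + 1) → Bool) → Bool) (b : Bool) (y : Fin n → Bool) :
    posterior ε f (Fin.cons b y) =
      (if b then 1 - ε else ε) * posterior ε (fun x => f (Fin.cons true x)) y +
      (if b then ε else 1 - ε) * posterior ε (fun x => f (Fin.cons false x)) y := by
  simp only [posterior]
  rw [sum_cube_succ, Finset.mul_sum, Finset.mul_sum, ← Finset.sum_add_distrib]
  refine Finset.sum_congr rfl fun x _ => ?_
  simp only [kernel_cons]
  by_cases h1 : f (Fin.cons true x) <;> by_cases h2 : f (Fin.cons false x) <;>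
    cases b <;> simp [h1, h2]

lemma trueProb_cons (f : (Fin (n + 1) → Bool) → Bool) :
    trueProb f =
      (trueProb (fun x => f (Fin.cons true x)) + trueProb (fun x => f (Fin.cons false x))) / 2 := by
  simp only [trueProb]
  rw [sum_cube_succ, Finset.sum_add_distrib, pow_succ]
  ring

/-- The conditional entropy as an average over the two halves. -/
lemma condEntropy_cons (f : (Fin (n + 1) → Bool) → Bool) :
    condEntropy ε f = (1 / 2 ^ n) * ∑ y : Fin n → Bool,
      (binEntropy ((1 - ε) * posterior ε (fun x => f (Fin.cons true x)) y +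
          ε * posterior ε (fun x => f (Fin.cons false x)) y) +
       binEntropy (ε * posterior ε (fun x => f (Fin.cons true x)) y +
          (1 - ε) * posterior ε (fun x => f (Fin.cons false x)) y)) / 2 := by
  simp only [condEntropy]
  rw [sum_cube_succ, ← Finset.sum_div, pow_succ]
  simp only [posterior_cons, if_true, Bool.false_eq_true, if_false]
  ring

end Vale.Agent.P322
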