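import Mathlib

/-!
P322: certified decimal bounds for the logarithms and entropies used by the certificates.
-/

open Real

namespace Vale.Agent.P322

lemma log_bracket {a x : ℝ} (k : ℤ) (n : ℕ) (ha : a = (2 : ℝ) ^ k * ((1 + x) / (1 - x)))
    (hx0 : 0 ≤ x) (hx1 : x < 1) :
    k * log 2 + 2 * ∑ i ∈ Finset.range n, x ^ (2 * i + 1) / (2 * i + 1) ≤ log a ∧
      log a ≤ k * log 2 + 2 * ((∑ i ∈ Finset.range n, x ^ (2 * i + 1) / (2 * i + 1)) +
        x ^ (2 * n + 1) / (1 - x ^ 2)) := by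
  have h1 := sum_range_le_log_div hx0 hx1 n
  have h2 := log_div_le_sum_range_add hx0 hx1 n
  rw [ha, log_mul (by positivity) (div_pos (by linarith) (by linarith)).ne', log_zpow]
  constructor <;> linarith

lemma log_1_1000 : (-6907756 / 1000000 : ℝ) ≤ log (1 / 1000 : ℝ) ∧ log (1 / 1000 : ℝ) ≤ (-6907755 / 1000000 : ℝ) := by
  obtain ⟨h1, h2⟩ := log_bracket (a := (1 / 1000 : ℝ)) (x := (3 / 253 : ℝ)) (-10) 9 (by norm_num) (by norm_num)
    (by norm_num)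
  norm_num [Finset.sum_range_succ] at h1 h2
  constructor <;> linarith [log_two_gt_d9, log_two_lt_d9]

lemma log_1_200 : (-5298318 / 1000000 : ℝ) ≤ log (1 / 200 : ℝ) ∧ log (1 / 200 : ℝ) ≤ (-5298317 / 1000000 : ℝ) := by
  obtain ⟨h1, h2⟩ := log_bracket (a := (1 / 200 : ℝ)) (x := (7 / 57 : ℝ)) (-8) 9 (by norm_num) (by norm_num)
    (by norm_num)
  norm_num [Finset.sum_range_succ] at h1 h2
  constructor <;> linarith [log_two_gt_d9, log_two_lt_d9]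

lemma log_3_200 : (-4199706 / 1000000 : ℝ) ≤ log (3 / 200 : ℝ) ∧ log (3 / 200 : ℝ) ≤ (-4199705 / 1000000 : ℝ) := by
  obtain ⟨h1, h2⟩ := log_bracket (a := (3 / 200 : ℝ)) (x := (23 / 73 : ℝ)) (-7) 9 (by norm_num) (by norm_num)
    (by norm_num)
  norm_num [Finset.sum_range_succ] at h1 h2
  constructor <;> linarith [log_two_gt_d9, log_two_lt_d9]

lemma log_1597_100000 : (-4137044 / 1000000 : ℝ) ≤ log (1597 / 100000 : ℝ) ∧ log (1597 / 100000 : ℝ) ≤ (-4137043 / 1000000 : ℝ) := by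
  obtain ⟨h1, h2⟩ := log_bracket (a := (1597 / 100000 : ℝ)) (x := (69 / 6319 : ℝ)) (-6) 9 (by norm_num) (by norm_num)
    (by norm_num)
  norm_num [Finset.sum_range_succ] at h1 h2
  constructor <;> linarith [log_two_gt_d9, log_two_lt_d9]

lemma log_7_400 : (-4045555 / 1000000 : ℝ) ≤ log (7 / 400 : ℝ) ∧ log (7 / 400 : ℝ) ≤ (-4045554 / 1000000 : ℝ) := by
  obtain ⟨h1, h2⟩ := log_bracket (a := (7 / 400 : ℝ)) (x := (3 / 53 : ℝ)) (-6) 9 (by norm_num) (by norm_num)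
    (by norm_num)
  norm_num [Finset.sum_range_succ] at h1 h2
  constructor <;> linarith [log_two_gt_d9, log_two_lt_d9]

lemma log_397_20000 : (-3919552 / 1000000 : ℝ) ≤ log (397 / 20000 : ℝ) ∧ log (397 / 20000 : ℝ) ≤ (-3919551 / 1000000 : ℝ) := by
  obtain ⟨h1, h2⟩ := log_bracket (a := (397 / 20000 : ℝ)) (x := (169 / 1419 : ℝ)) (-6) 9 (by norm_num) (by norm_num)
    (by norm_num)
  norm_num [Finset.sum_range_succ] at h1 h2
  constructor <;> linarith [log_two_gt_d9, log_two_lt_d9]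

lemma log_9_400 : (-3794240 / 1000000 : ℝ) ≤ log (9 / 400 : ℝ) ∧ log (9 / 400 : ℝ) ≤ (-3794239 / 1000000 : ℝ) := by
  obtain ⟨h1, h2⟩ := log_bracket (a := (9 / 400 : ℝ)) (x := (11 / 61 : ℝ)) (-6) 9 (by norm_num) (by norm_num)
    (by norm_num)
  norm_num [Finset.sum_range_succ] at h1 h2
  constructor <;> linarith [log_two_gt_d9, log_two_lt_d9]

lemma log_7_200 : (-3352408 / 1000000 : ℝ) ≤ log (7 / 200 : ℝ) ∧ log (7 / 200 : ℝ) ≤ (-3352407 / 1000000 : ℝ) := by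
  obtain ⟨h1, h2⟩ := log_bracket (a := (7 / 200 : ℝ)) (x := (3 / 53 : ℝ)) (-5) 9 (by norm_num) (by norm_num)
    (by norm_num)
  norm_num [Finset.sum_range_succ] at h1 h2
  constructor <;> linarith [log_two_gt_d9, log_two_lt_d9]

lemma log_9_200 : (-3101093 / 1000000 : ℝ) ≤ log (9 / 200 : ℝ) ∧ log (9 / 200 : ℝ) ≤ (-3101092 / 1000000 : ℝ) := by
  obtain ⟨h1, h2⟩ := log_bracket (a := (9 / 200 : ℝ)) (x := (11 / 61 : ℝ)) (-5) 9 (by norm_num) (by norm_num)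
    (by norm_num)
  norm_num [Finset.sum_range_succ] at h1 h2
  constructor <;> linarith [log_two_gt_d9, log_two_lt_d9]

lemma log_3_50 : (-2813411 / 1000000 : ℝ) ≤ log (3 / 50 : ℝ) ∧ log (3 / 50 : ℝ) ≤ (-2813410 / 1000000 : ℝ) := by
  obtain ⟨h1, h2⟩ := log_bracket (a := (3 / 50 : ℝ)) (x := (23 / 73 : ℝ)) (-5) 9 (by norm_num) (by norm_num)
    (by norm_num)
  norm_num [Finset.sum_range_succ] at h1 h2
  constructor <;> linarith [log_two_gt_d9, log_two_lt_d9]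

lemma log_1_10 : (-2302586 / 1000000 : ℝ) ≤ log (1 / 10 : ℝ) ∧ log (1 / 10 : ℝ) ≤ (-2302585 / 1000000 : ℝ) := by
  obtain ⟨h1, h2⟩ := log_bracket (a := (1 / 10 : ℝ)) (x := (3 / 13 : ℝ)) (-4) 9 (by norm_num) (by norm_num)
    (by norm_num)
  norm_num [Finset.sum_range_succ] at h1 h2
  constructor <;> linarith [log_two_gt_d9, log_two_lt_d9]

lemma log_3_25 : (-2120264 / 1000000 : ℝ) ≤ log (3 / 25 : ℝ) ∧ log (3 / 25 : ℝ) ≤ (-2120263 / 1000000 : ℝ) := by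
  obtain ⟨h1, h2⟩ := log_bracket (a := (3 / 25 : ℝ)) (x := (23 / 73 : ℝ)) (-4) 9 (by norm_num) (by norm_num)
    (by norm_num)
  norm_num [Finset.sum_range_succ] at h1 h2
  constructor <;> linarith [log_two_gt_d9, log_two_lt_d9]

lemma log_1_8 : (-2079442 / 1000000 : ℝ) ≤ log (1 / 8 : ℝ) ∧ log (1 / 8 : ℝ) ≤ (-2079441 / 1000000 : ℝ) := by
  obtain ⟨h1, h2⟩ := log_bracket (a := (1 / 8 : ℝ)) (x := (0 : ℝ)) (-3) 9 (by norm_num) (by norm_num)
    (by norm_num)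
  norm_num [Finset.sum_range_succ] at h1 h2
  constructor <;> linarith [log_two_gt_d9, log_two_lt_d9]

lemma log_109_800 : (-1993264 / 1000000 : ℝ) ≤ log (109 / 800 : ℝ) ∧ log (109 / 800 : ℝ) ≤ (-1993263 / 1000000 : ℝ) := by
  obtain ⟨h1, h2⟩ := log_bracket (a := (109 / 800 : ℝ)) (x := (9 / 209 : ℝ)) (-3) 9 (by norm_num) (by norm_num)
    (by norm_num)
  norm_num [Finset.sum_range_succ] at h1 h2
  constructor <;> linarith [log_two_gt_d9, log_two_lt_d9]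

lemma log_1_5 : (-1609438 / 1000000 : ℝ) ≤ log (1 / 5 : ℝ) ∧ log (1 / 5 : ℝ) ≤ (-1609437 / 1000000 : ℝ) := by
  obtain ⟨h1, h2⟩ := log_bracket (a := (1 / 5 : ℝ)) (x := (3 / 13 : ℝ)) (-3) 9 (by norm_num) (by norm_num)
    (by norm_num)
  norm_num [Finset.sum_range_succ] at h1 h2
  constructor <;> linarith [log_two_gt_d9, log_two_lt_d9]

lemma log_9_40 : (-1491655 / 1000000 : ℝ) ≤ log (9 / 40 : ℝ) ∧ log (9 / 40 : ℝ) ≤ (-1491654 / 1000000 : ℝ) := by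
  obtain ⟨h1, h2⟩ := log_bracket (a := (9 / 40 : ℝ)) (x := (2 / 7 : ℝ)) (-3) 9 (by norm_num) (by norm_num)
    (by norm_num)
  norm_num [Finset.sum_range_succ] at h1 h2
  constructor <;> linarith [log_two_gt_d9, log_two_lt_d9]

lemma log_1_4 : (-1386295 / 1000000 : ℝ) ≤ log (1 / 4 : ℝ) ∧ log (1 / 4 : ℝ) ≤ (-1386294 / 1000000 : ℝ) := by
  obtain ⟨h1, h2⟩ := log_bracket (a := (1 / 4 : ℝ)) (x := (0 : ℝ)) (-2) 9 (by norm_num) (by norm_num)
    (by norm_num)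
  norm_num [Finset.sum_range_succ] at h1 h2
  constructor <;> linarith [log_two_gt_d9, log_two_lt_d9]

lemma log_103_400 : (-1356736 / 1000000 : ℝ) ≤ log (103 / 400 : ℝ) ∧ log (103 / 400 : ℝ) ≤ (-1356735 / 1000000 : ℝ) := by
  obtain ⟨h1, h2⟩ := log_bracket (a := (103 / 400 : ℝ)) (x := (3 / 203 : ℝ)) (-2) 9 (by norm_num) (by norm_num)
    (by norm_num)
  norm_num [Finset.sum_range_succ] at h1 h2
  constructor <;> linarith [log_two_gt_d9, log_two_lt_d9]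

lemma log_11_40 : (-1290985 / 1000000 : ℝ) ≤ log (11 / 40 : ℝ) ∧ log (11 / 40 : ℝ) ≤ (-1290984 / 1000000 : ℝ) := by
  obtain ⟨h1, h2⟩ := log_bracket (a := (11 / 40 : ℝ)) (x := (1 / 21 : ℝ)) (-2) 9 (by norm_num) (by norm_num)
    (by norm_num)
  norm_num [Finset.sum_range_succ] at h1 h2
  constructor <;> linarith [log_two_gt_d9, log_two_lt_d9]

lemma log_2_5 : (-916291 / 1000000 : ℝ) ≤ log (2 / 5 : ℝ) ∧ log (2 / 5 : ℝ) ≤ (-916290 / 1000000 : ℝ) := by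
  obtain ⟨h1, h2⟩ := log_bracket (a := (2 / 5 : ℝ)) (x := (3 / 13 : ℝ)) (-2) 9 (by norm_num) (by norm_num)
    (by norm_num)
  norm_num [Finset.sum_range_succ] at h1 h2
  constructor <;> linarith [log_two_gt_d9, log_two_lt_d9]

lemma log_11_25 : (-820981 / 1000000 : ℝ) ≤ log (11 / 25 : ℝ) ∧ log (11 / 25 : ℝ) ≤ (-820980 / 1000000 : ℝ) := by
  obtain ⟨h1, h2⟩ := log_bracket (a := (11 / 25 : ℝ)) (x := (19 / 69 : ℝ)) (-2) 9 (by norm_num) (by norm_num)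
    (by norm_num)
  norm_num [Finset.sum_range_succ] at h1 h2
  constructor <;> linarith [log_two_gt_d9, log_two_lt_d9]

lemma log_9_20 : (-798508 / 1000000 : ℝ) ≤ log (9 / 20 : ℝ) ∧ log (9 / 20 : ℝ) ≤ (-798507 / 1000000 : ℝ) := by
  obtain ⟨h1, h2⟩ := log_bracket (a := (9 / 20 : ℝ)) (x := (2 / 7 : ℝ)) (-2) 9 (by norm_num) (by norm_num)
    (by norm_num)
  norm_num [Finset.sum_range_succ] at h1 h2
  constructor <;> linarith [log_two_gt_d9, log_two_lt_d9]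

lemma log_191_400 : (-739192 / 1000000 : ℝ) ≤ log (191 / 400 : ℝ) ∧ log (191 / 400 : ℝ) ≤ (-739191 / 1000000 : ℝ) := by
  obtain ⟨h1, h2⟩ := log_bracket (a := (191 / 400 : ℝ)) (x := (91 / 291 : ℝ)) (-2) 9 (by norm_num) (by norm_num)
    (by norm_num)
  norm_num [Finset.sum_range_succ] at h1 h2
  constructor <;> linarith [log_two_gt_d9, log_two_lt_d9]

lemma log_193_400 : (-728775 / 1000000 : ℝ) ≤ log (193 / 400 : ℝ) ∧ log (193 / 400 : ℝ) ≤ (-728774 / 1000000 : ℝ) := by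
  obtain ⟨h1, h2⟩ := log_bracket (a := (193 / 400 : ℝ)) (x := (93 / 293 : ℝ)) (-2) 9 (by norm_num) (by norm_num)
    (by norm_num)
  norm_num [Finset.sum_range_succ] at h1 h2
  constructor <;> linarith [log_two_gt_d9, log_two_lt_d9]

lemma log_207_400 : (-658746 / 1000000 : ℝ) ≤ log (207 / 400 : ℝ) ∧ log (207 / 400 : ℝ) ≤ (-658745 / 1000000 : ℝ) := by
  obtain ⟨h1, h2⟩ := log_bracket (a := (207 / 400 : ℝ)) (x := (7 / 407 : ℝ)) (-1) 9 (by norm_num) (by norm_num)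
    (by norm_num)
  norm_num [Finset.sum_range_succ] at h1 h2
  constructor <;> linarith [log_two_gt_d9, log_two_lt_d9]

lemma log_209_400 : (-649131 / 1000000 : ℝ) ≤ log (209 / 400 : ℝ) ∧ log (209 / 400 : ℝ) ≤ (-649130 / 1000000 : ℝ) := by
  obtain ⟨h1, h2⟩ := log_bracket (a := (209 / 400 : ℝ)) (x := (9 / 409 : ℝ)) (-1) 9 (by norm_num) (by norm_num)
    (by norm_num)
  norm_num [Finset.sum_range_succ] at h1 h2
  constructor <;> linarith [log_two_gt_d9, log_two_lt_d9]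

lemma log_11_20 : (-597838 / 1000000 : ℝ) ≤ log (11 / 20 : ℝ) ∧ log (11 / 20 : ℝ) ≤ (-597836 / 1000000 : ℝ) := by
  obtain ⟨h1, h2⟩ := log_bracket (a := (11 / 20 : ℝ)) (x := (1 / 21 : ℝ)) (-1) 9 (by norm_num) (by norm_num)
    (by norm_num)
  norm_num [Finset.sum_range_succ] at h1 h2
  constructor <;> linarith [log_two_gt_d9, log_two_lt_d9]

lemma log_14_25 : (-579819 / 1000000 : ℝ) ≤ log (14 / 25 : ℝ) ∧ log (14 / 25 : ℝ) ≤ (-579818 / 1000000 : ℝ) := by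
  obtain ⟨h1, h2⟩ := log_bracket (a := (14 / 25 : ℝ)) (x := (3 / 53 : ℝ)) (-1) 9 (by norm_num) (by norm_num)
    (by norm_num)
  norm_num [Finset.sum_range_succ] at h1 h2
  constructor <;> linarith [log_two_gt_d9, log_two_lt_d9]

lemma log_3_5 : (-510826 / 1000000 : ℝ) ≤ log (3 / 5 : ℝ) ∧ log (3 / 5 : ℝ) ≤ (-510825 / 1000000 : ℝ) := by
  obtain ⟨h1, h2⟩ := log_bracket (a := (3 / 5 : ℝ)) (x := (1 / 11 : ℝ)) (-1) 9 (by norm_num) (by norm_num)
    (by norm_num)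
  norm_num [Finset.sum_range_succ] at h1 h2
  constructor <;> linarith [log_two_gt_d9, log_two_lt_d9]

lemma log_29_40 : (-321584 / 1000000 : ℝ) ≤ log (29 / 40 : ℝ) ∧ log (29 / 40 : ℝ) ≤ (-321583 / 1000000 : ℝ) := by
  obtain ⟨h1, h2⟩ := log_bracket (a := (29 / 40 : ℝ)) (x := (9 / 49 : ℝ)) (-1) 9 (by norm_num) (by norm_num)
    (by norm_num)
  norm_num [Finset.sum_range_succ] at h1 h2
  constructor <;> linarith [log_two_gt_d9, log_two_lt_d9]

lemma log_297_400 : (-297733 / 1000000 : ℝ) ≤ log (297 / 400 : ℝ) ∧ log (297 / 400 : ℝ) ≤ (-297732 / 1000000 : ℝ) := by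
  obtain ⟨h1, h2⟩ := log_bracket (a := (297 / 400 : ℝ)) (x := (97 / 497 : ℝ)) (-1) 9 (by norm_num) (by norm_num)
    (by norm_num)
  norm_num [Finset.sum_range_succ] at h1 h2
  constructor <;> linarith [log_two_gt_d9, log_two_lt_d9]

lemma log_3_4 : (-287683 / 1000000 : ℝ) ≤ log (3 / 4 : ℝ) ∧ log (3 / 4 : ℝ) ≤ (-287682 / 1000000 : ℝ) := by
  obtain ⟨h1, h2⟩ := log_bracket (a := (3 / 4 : ℝ)) (x := (1 / 5 : ℝ)) (-1) 9 (by norm_num) (by norm_num)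
    (by norm_num)
  norm_num [Finset.sum_range_succ] at h1 h2
  constructor <;> linarith [log_two_gt_d9, log_two_lt_d9]

lemma log_31_40 : (-254893 / 1000000 : ℝ) ≤ log (31 / 40 : ℝ) ∧ log (31 / 40 : ℝ) ≤ (-254892 / 1000000 : ℝ) := by
  obtain ⟨h1, h2⟩ := log_bracket (a := (31 / 40 : ℝ)) (x := (11 / 51 : ℝ)) (-1) 9 (by norm_num) (by norm_num)
    (by norm_num)
  norm_num [Finset.sum_range_succ] at h1 h2
  constructor <;> linarith [log_two_gt_d9, log_two_lt_d9]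

lemma log_4_5 : (-223144 / 1000000 : ℝ) ≤ log (4 / 5 : ℝ) ∧ log (4 / 5 : ℝ) ≤ (-223143 / 1000000 : ℝ) := by
  obtain ⟨h1, h2⟩ := log_bracket (a := (4 / 5 : ℝ)) (x := (3 / 13 : ℝ)) (-1) 9 (by norm_num) (by norm_num)
    (by norm_num)
  norm_num [Finset.sum_range_succ] at h1 h2
  constructor <;> linarith [log_two_gt_d9, log_two_lt_d9]

lemma log_691_800 : (-146472 / 1000000 : ℝ) ≤ log (691 / 800 : ℝ) ∧ log (691 / 800 : ℝ) ≤ (-146471 / 1000000 : ℝ) := by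
  obtain ⟨h1, h2⟩ := log_bracket (a := (691 / 800 : ℝ)) (x := (291 / 1091 : ℝ)) (-1) 9 (by norm_num) (by norm_num)
    (by norm_num)
  norm_num [Finset.sum_range_succ] at h1 h2
  constructor <;> linarith [log_two_gt_d9, log_two_lt_d9]

lemma log_7_8 : (-133532 / 1000000 : ℝ) ≤ log (7 / 8 : ℝ) ∧ log (7 / 8 : ℝ) ≤ (-133531 / 1000000 : ℝ) := by
  obtain ⟨h1, h2⟩ := log_bracket (a := (7 / 8 : ℝ)) (x := (3 / 11 : ℝ)) (-1) 9 (by norm_num) (by norm_num)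
    (by norm_num)
  norm_num [Finset.sum_range_succ] at h1 h2
  constructor <;> linarith [log_two_gt_d9, log_two_lt_d9]

lemma log_22_25 : (-127834 / 1000000 : ℝ) ≤ log (22 / 25 : ℝ) ∧ log (22 / 25 : ℝ) ≤ (-127833 / 1000000 : ℝ) := by
  obtain ⟨h1, h2⟩ := log_bracket (a := (22 / 25 : ℝ)) (x := (19 / 69 : ℝ)) (-1) 9 (by norm_num) (by norm_num)
    (by norm_num)
  norm_num [Finset.sum_range_succ] at h1 h2
  constructor <;> linarith [log_two_gt_d9, log_two_lt_d9]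

lemma log_9_10 : (-105361 / 1000000 : ℝ) ≤ log (9 / 10 : ℝ) ∧ log (9 / 10 : ℝ) ≤ (-105360 / 1000000 : ℝ) := by
  obtain ⟨h1, h2⟩ := log_bracket (a := (9 / 10 : ℝ)) (x := (2 / 7 : ℝ)) (-1) 9 (by norm_num) (by norm_num)
    (by norm_num)
  norm_num [Finset.sum_range_succ] at h1 h2
  constructor <;> linarith [log_two_gt_d9, log_two_lt_d9]

lemma log_47_50 : (-61876 / 1000000 : ℝ) ≤ log (47 / 50 : ℝ) ∧ log (47 / 50 : ℝ) ≤ (-61875 / 1000000 : ℝ) := by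
  obtain ⟨h1, h2⟩ := log_bracket (a := (47 / 50 : ℝ)) (x := (11 / 36 : ℝ)) (-1) 9 (by norm_num) (by norm_num)
    (by norm_num)
  norm_num [Finset.sum_range_succ] at h1 h2
  constructor <;> linarith [log_two_gt_d9, log_two_lt_d9]

lemma log_191_200 : (-46044 / 1000000 : ℝ) ≤ log (191 / 200 : ℝ) ∧ log (191 / 200 : ℝ) ≤ (-46043 / 1000000 : ℝ) := by
  obtain ⟨h1, h2⟩ := log_bracket (a := (191 / 200 : ℝ)) (x := (91 / 291 : ℝ)) (-1) 9 (by norm_num) (by norm_num)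
    (by norm_num)
  norm_num [Finset.sum_range_succ] at h1 h2
  constructor <;> linarith [log_two_gt_d9, log_two_lt_d9]

lemma log_193_200 : (-35628 / 1000000 : ℝ) ≤ log (193 / 200 : ℝ) ∧ log (193 / 200 : ℝ) ≤ (-35627 / 1000000 : ℝ) := by
  obtain ⟨h1, h2⟩ := log_bracket (a := (193 / 200 : ℝ)) (x := (93 / 293 : ℝ)) (-1) 9 (by norm_num) (by norm_num)
    (by norm_num)
  norm_num [Finset.sum_range_succ] at h1 h2
  constructor <;> linarith [log_two_gt_d9, log_two_lt_d9]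

lemma log_391_400 : (-22758 / 1000000 : ℝ) ≤ log (391 / 400 : ℝ) ∧ log (391 / 400 : ℝ) ≤ (-22756 / 1000000 : ℝ) := by
  obtain ⟨h1, h2⟩ := log_bracket (a := (391 / 400 : ℝ)) (x := (191 / 591 : ℝ)) (-1) 9 (by norm_num) (by norm_num)
    (by norm_num)
  norm_num [Finset.sum_range_succ] at h1 h2
  constructor <;> linarith [log_two_gt_d9, log_two_lt_d9]

lemma log_19603_20000 : (-20050 / 1000000 : ℝ) ≤ log (19603 / 20000 : ℝ) ∧ log (19603 / 20000 : ℝ) ≤ (-20049 / 1000000 : ℝ) := by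
  obtain ⟨h1, h2⟩ := log_bracket (a := (19603 / 20000 : ℝ)) (x := (9603 / 29603 : ℝ)) (-1) 9 (by norm_num) (by norm_num)
    (by norm_num)
  norm_num [Finset.sum_range_succ] at h1 h2
  constructor <;> linarith [log_two_gt_d9, log_two_lt_d9]

lemma log_393_400 : (-17655 / 1000000 : ℝ) ≤ log (393 / 400 : ℝ) ∧ log (393 / 400 : ℝ) ≤ (-17654 / 1000000 : ℝ) := by
  obtain ⟨h1, h2⟩ := log_bracket (a := (393 / 400 : ℝ)) (x := (193 / 593 : ℝ)) (-1) 9 (by norm_num) (by norm_num)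
    (by norm_num)
  norm_num [Finset.sum_range_succ] at h1 h2
  constructor <;> linarith [log_two_gt_d9, log_two_lt_d9]

lemma log_98403_100000 : (-16099 / 1000000 : ℝ) ≤ log (98403 / 100000 : ℝ) ∧ log (98403 / 100000 : ℝ) ≤ (-16098 / 1000000 : ℝ) := by
  obtain ⟨h1, h2⟩ := log_bracket (a := (98403 / 100000 : ℝ)) (x := (48403 / 148403 : ℝ)) (-1) 9 (by norm_num) (by norm_num)
    (by norm_num)
  norm_num [Finset.sum_range_succ] at h1 h2
  constructor <;> linarith [log_two_gt_d9, log_two_lt_d9]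

lemma log_197_200 : (-15114 / 1000000 : ℝ) ≤ log (197 / 200 : ℝ) ∧ log (197 / 200 : ℝ) ≤ (-15113 / 1000000 : ℝ) := by
  obtain ⟨h1, h2⟩ := log_bracket (a := (197 / 200 : ℝ)) (x := (97 / 297 : ℝ)) (-1) 9 (by norm_num) (by norm_num)
    (by norm_num)
  norm_num [Finset.sum_range_succ] at h1 h2
  constructor <;> linarith [log_two_gt_d9, log_two_lt_d9]

lemma log_199_200 : (-5013 / 1000000 : ℝ) ≤ log (199 / 200 : ℝ) ∧ log (199 / 200 : ℝ) ≤ (-5012 / 1000000 : ℝ) := by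
  obtain ⟨h1, h2⟩ := log_bracket (a := (199 / 200 : ℝ)) (x := (99 / 299 : ℝ)) (-1) 9 (by norm_num) (by norm_num)
    (by norm_num)
  norm_num [Finset.sum_range_succ] at h1 h2
  constructor <;> linarith [log_two_gt_d9, log_two_lt_d9]

lemma log_999_1000 : (-1001 / 1000000 : ℝ) ≤ log (999 / 1000 : ℝ) ∧ log (999 / 1000 : ℝ) ≤ (-1000 / 1000000 : ℝ) := by
  obtain ⟨h1, h2⟩ := log_bracket (a := (999 / 1000 : ℝ)) (x := (499 / 1499 : ℝ)) (-1) 9 (by norm_num) (by norm_num)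
    (by norm_num)
  norm_num [Finset.sum_range_succ] at h1 h2
  constructor <;> linarith [log_two_gt_d9, log_two_lt_d9]

lemma ent_1_1000 : (7906 / 1000000 : ℝ) ≤ binEntropy (1 / 1000 : ℝ) ∧ binEntropy (1 / 1000 : ℝ) ≤ (7908 / 1000000 : ℝ) := by
  obtain ⟨a1, a2⟩ := log_1_1000
  obtain ⟨b1, b2⟩ := log_999_1000
  rw [binEntropy_eq_negMulLog_add_negMulLog_one_sub]
  norm_num [negMulLog]
  constructor <;> linarith

lemma ent_1_200 : (31478 / 1000000 : ℝ) ≤ binEntropy (1 / 200 : ℝ) ∧ binEntropy (1 / 200 : ℝ) ≤ (31480 / 1000000 : ℝ) := by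
  obtain ⟨a1, a2⟩ := log_1_200
  obtain ⟨b1, b2⟩ := log_199_200
  rw [binEntropy_eq_negMulLog_add_negMulLog_one_sub]
  norm_num [negMulLog]
  constructor <;> linarith

lemma ent_3_200 : (77881 / 1000000 : ℝ) ≤ binEntropy (3 / 200 : ℝ) ∧ binEntropy (3 / 200 : ℝ) ≤ (77883 / 1000000 : ℝ) := by
  obtain ⟨a1, a2⟩ := log_3_200
  obtain ⟨b1, b2⟩ := log_197_200
  rw [binEntropy_eq_negMulLog_add_negMulLog_one_sub]
  norm_num [negMulLog]
  constructor <;> linarith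

lemma ent_1597_100000 : (81909 / 1000000 : ℝ) ≤ binEntropy (1597 / 100000 : ℝ) ∧ binEntropy (1597 / 100000 : ℝ) ≤ (81911 / 1000000 : ℝ) := by
  obtain ⟨a1, a2⟩ := log_1597_100000
  obtain ⟨b1, b2⟩ := log_98403_100000
  rw [binEntropy_eq_negMulLog_add_negMulLog_one_sub]
  norm_num [negMulLog]
  constructor <;> linarith

lemma ent_7_400 : (88142 / 1000000 : ℝ) ≤ binEntropy (7 / 400 : ℝ) ∧ binEntropy (7 / 400 : ℝ) ≤ (88144 / 1000000 : ℝ) := by
  obtain ⟨a1, a2⟩ := log_7_400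
  obtain ⟨b1, b2⟩ := log_393_400
  rw [binEntropy_eq_negMulLog_add_negMulLog_one_sub]
  norm_num [negMulLog]
  constructor <;> linarith

lemma ent_397_20000 : (97454 / 1000000 : ℝ) ≤ binEntropy (397 / 20000 : ℝ) ∧ binEntropy (397 / 20000 : ℝ) ≤ (97456 / 1000000 : ℝ) := by
  obtain ⟨a1, a2⟩ := log_397_20000
  obtain ⟨b1, b2⟩ := log_19603_20000
  rw [binEntropy_eq_negMulLog_add_negMulLog_one_sub]
  norm_num [negMulLog]
  constructor <;> linarith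

lemma ent_9_400 : (107614 / 1000000 : ℝ) ≤ binEntropy (9 / 400 : ℝ) ∧ binEntropy (9 / 400 : ℝ) ≤ (107617 / 1000000 : ℝ) := by
  obtain ⟨a1, a2⟩ := log_9_400
  obtain ⟨b1, b2⟩ := log_391_400
  rw [binEntropy_eq_negMulLog_add_negMulLog_one_sub]
  norm_num [negMulLog]
  constructor <;> linarith

lemma ent_7_200 : (151714 / 1000000 : ℝ) ≤ binEntropy (7 / 200 : ℝ) ∧ binEntropy (7 / 200 : ℝ) ≤ (151716 / 1000000 : ℝ) := by
  obtain ⟨a1, a2⟩ := log_7_200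
  obtain ⟨b1, b2⟩ := log_193_200
  rw [binEntropy_eq_negMulLog_add_negMulLog_one_sub]
  norm_num [negMulLog]
  constructor <;> linarith

lemma ent_9_200 : (183520 / 1000000 : ℝ) ≤ binEntropy (9 / 200 : ℝ) ∧ binEntropy (9 / 200 : ℝ) ≤ (183522 / 1000000 : ℝ) := by
  obtain ⟨a1, a2⟩ := log_9_200
  obtain ⟨b1, b2⟩ := log_191_200
  rw [binEntropy_eq_negMulLog_add_negMulLog_one_sub]
  norm_num [negMulLog]
  constructor <;> linarith

lemma ent_3_50 : (226967 / 1000000 : ℝ) ≤ binEntropy (3 / 50 : ℝ) ∧ binEntropy (3 / 50 : ℝ) ≤ (226969 / 1000000 : ℝ) := by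
  obtain ⟨a1, a2⟩ := log_3_50
  obtain ⟨b1, b2⟩ := log_47_50
  rw [binEntropy_eq_negMulLog_add_negMulLog_one_sub]
  norm_num [negMulLog]
  constructor <;> linarith

lemma ent_1_10 : (325082 / 1000000 : ℝ) ≤ binEntropy (1 / 10 : ℝ) ∧ binEntropy (1 / 10 : ℝ) ≤ (325084 / 1000000 : ℝ) := by
  obtain ⟨a1, a2⟩ := log_1_10
  obtain ⟨b1, b2⟩ := log_9_10
  rw [binEntropy_eq_negMulLog_add_negMulLog_one_sub]
  norm_num [negMulLog]
  constructor <;> linarith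

lemma ent_3_25 : (366924 / 1000000 : ℝ) ≤ binEntropy (3 / 25 : ℝ) ∧ binEntropy (3 / 25 : ℝ) ≤ (366926 / 1000000 : ℝ) := by
  obtain ⟨a1, a2⟩ := log_3_25
  obtain ⟨b1, b2⟩ := log_22_25
  rw [binEntropy_eq_negMulLog_add_negMulLog_one_sub]
  norm_num [negMulLog]
  constructor <;> linarith

lemma ent_1_8 : (376769 / 1000000 : ℝ) ≤ binEntropy (1 / 8 : ℝ) ∧ binEntropy (1 / 8 : ℝ) ≤ (376771 / 1000000 : ℝ) := by
  obtain ⟨a1, a2⟩ := log_1_8
  obtain ⟨b1, b2⟩ := log_7_8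
  rw [binEntropy_eq_negMulLog_add_negMulLog_one_sub]
  norm_num [negMulLog]
  constructor <;> linarith

lemma ent_109_800 : (398096 / 1000000 : ℝ) ≤ binEntropy (109 / 800 : ℝ) ∧ binEntropy (109 / 800 : ℝ) ≤ (398098 / 1000000 : ℝ) := by
  obtain ⟨a1, a2⟩ := log_109_800
  obtain ⟨b1, b2⟩ := log_691_800
  rw [binEntropy_eq_negMulLog_add_negMulLog_one_sub]
  norm_num [negMulLog]
  constructor <;> linarith

lemma ent_1_5 : (500401 / 1000000 : ℝ) ≤ binEntropy (1 / 5 : ℝ) ∧ binEntropy (1 / 5 : ℝ) ≤ (500403 / 1000000 : ℝ) := by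
  obtain ⟨a1, a2⟩ := log_1_5
  obtain ⟨b1, b2⟩ := log_4_5
  rw [binEntropy_eq_negMulLog_add_negMulLog_one_sub]
  norm_num [negMulLog]
  constructor <;> linarith

lemma ent_9_40 : (533163 / 1000000 : ℝ) ≤ binEntropy (9 / 40 : ℝ) ∧ binEntropy (9 / 40 : ℝ) ≤ (533165 / 1000000 : ℝ) := by
  obtain ⟨a1, a2⟩ := log_9_40
  obtain ⟨b1, b2⟩ := log_31_40
  rw [binEntropy_eq_negMulLog_add_negMulLog_one_sub]
  norm_num [negMulLog]
  constructor <;> linarith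

lemma ent_1_4 : (562335 / 1000000 : ℝ) ≤ binEntropy (1 / 4 : ℝ) ∧ binEntropy (1 / 4 : ℝ) ≤ (562336 / 1000000 : ℝ) := by
  obtain ⟨a1, a2⟩ := log_1_4
  obtain ⟨b1, b2⟩ := log_3_4
  rw [binEntropy_eq_negMulLog_add_negMulLog_one_sub]
  norm_num [negMulLog]
  constructor <;> linarith

lemma ent_103_400 : (570425 / 1000000 : ℝ) ≤ binEntropy (103 / 400 : ℝ) ∧ binEntropy (103 / 400 : ℝ) ≤ (570427 / 1000000 : ℝ) := by
  obtain ⟨a1, a2⟩ := log_103_400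
  obtain ⟨b1, b2⟩ := log_297_400
  rw [binEntropy_eq_negMulLog_add_negMulLog_one_sub]
  norm_num [negMulLog]
  constructor <;> linarith

lemma ent_11_40 : (588168 / 1000000 : ℝ) ≤ binEntropy (11 / 40 : ℝ) ∧ binEntropy (11 / 40 : ℝ) ≤ (588170 / 1000000 : ℝ) := by
  obtain ⟨a1, a2⟩ := log_11_40
  obtain ⟨b1, b2⟩ := log_29_40
  rw [binEntropy_eq_negMulLog_add_negMulLog_one_sub]
  norm_num [negMulLog]
  constructor <;> linarith

lemma ent_2_5 : (673011 / 1000000 : ℝ) ≤ binEntropy (2 / 5 : ℝ) ∧ binEntropy (2 / 5 : ℝ) ≤ (673012 / 1000000 : ℝ) := by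
  obtain ⟨a1, a2⟩ := log_2_5
  obtain ⟨b1, b2⟩ := log_3_5
  rw [binEntropy_eq_negMulLog_add_negMulLog_one_sub]
  norm_num [negMulLog]
  constructor <;> linarith

lemma ent_11_25 : (685929 / 1000000 : ℝ) ≤ binEntropy (11 / 25 : ℝ) ∧ binEntropy (11 / 25 : ℝ) ≤ (685931 / 1000000 : ℝ) := by
  obtain ⟨a1, a2⟩ := log_11_25
  obtain ⟨b1, b2⟩ := log_14_25
  rw [binEntropy_eq_negMulLog_add_negMulLog_one_sub]
  norm_num [negMulLog]
  constructor <;> linarith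

lemma ent_9_20 : (688137 / 1000000 : ℝ) ≤ binEntropy (9 / 20 : ℝ) ∧ binEntropy (9 / 20 : ℝ) ≤ (688140 / 1000000 : ℝ) := by
  obtain ⟨a1, a2⟩ := log_9_20
  obtain ⟨b1, b2⟩ := log_11_20
  rw [binEntropy_eq_negMulLog_add_negMulLog_one_sub]
  norm_num [negMulLog]
  constructor <;> linarith

lemma ent_191_400 : (692134 / 1000000 : ℝ) ≤ binEntropy (191 / 400 : ℝ) ∧ binEntropy (191 / 400 : ℝ) ≤ (692136 / 1000000 : ℝ) := by
  obtain ⟨a1, a2⟩ := log_191_400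
  obtain ⟨b1, b2⟩ := log_209_400
  rw [binEntropy_eq_negMulLog_add_negMulLog_one_sub]
  norm_num [negMulLog]
  constructor <;> linarith

lemma ent_193_400 : (692533 / 1000000 : ℝ) ≤ binEntropy (193 / 400 : ℝ) ∧ binEntropy (193 / 400 : ℝ) ≤ (692535 / 1000000 : ℝ) := by
  obtain ⟨a1, a2⟩ := log_193_400
  obtain ⟨b1, b2⟩ := log_207_400
  rw [binEntropy_eq_negMulLog_add_negMulLog_one_sub]
  norm_num [negMulLog]
  constructor <;> linarith

end Vale.Agent.P322
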