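import Mathlib
import Vale.Agent.P322.Defs

/-!
P322: the entropy deficit `phi`, the two-point functionals and their polar decomposition.
-/

open Real Set

namespace Vale.Agent.P322

/-- `log 2` minus the entropy of a bit with mean `r`. -/
noncomputable def phi (r : ℝ) : ℝ := log 2 - binEntropy ((1 - r) / 2)

/-- The inverse hyperbolic tangent, written with logarithms. -/
noncomputable def ath (r : ℝ) : ℝ := (log (1 + r) - log (1 - r)) / 2

/-- The entropy of the two mixed values. -/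
noncomputable def mixEnt (ε u v : ℝ) : ℝ :=
  (binEntropy ((1 - ε) * u + ε * v) + binEntropy (ε * u + (1 - ε) * v)) / 2

/-- The average of the two entropies. -/
noncomputable def avgEnt (u v : ℝ) : ℝ := (binEntropy u + binEntropy v) / 2

/-- The concavity gap of the binary entropy at two points. -/
noncomputable def gapEnt (u v : ℝ) : ℝ := binEntropy ((u + v) / 2) - avgEnt u v

/-- A linear lower bound for the entropy after a channel, on symmetric pairs. -/
def Cert (ε θ k : ℝ) : Prop :=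
  ∀ d ∈ Icc (0 : ℝ) (1 / 2), θ * binEntropy d + k * (1 - 2 * d) ≤
    binEntropy (ε + (1 - 2 * ε) * d)

lemma binEntropy_eq_phi (p : ℝ) : binEntropy p = log 2 - phi (1 - 2 * p) := by
  simp [phi]

lemma phi_neg (r : ℝ) : phi (-r) = phi r := by
  rw [phi, phi, ← binEntropy_one_sub ((1 - r) / 2)]
  ring_nf

@[simp] lemma phi_zero : phi 0 = 0 := by simp [phi]

@[simp] lemma phi_one : phi 1 = log 2 := by simp [phi]

@[fun_prop] lemma continuous_phi : Continuous phi := by unfold phi; fun_prop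

lemma hasDerivAt_phi {r : ℝ} (h : r ∈ Ioo (-1 : ℝ) 1) : HasDerivAt phi (ath r) r := by
  obtain ⟨h1, h2⟩ := h
  have hp : HasDerivAt (fun r : ℝ => (1 - r) / 2) (-1 / 2) r :=
    ((hasDerivAt_id r).const_sub 1).div_const 2
  have hb := hasDerivAt_binEntropy (p := (1 - r) / 2) (by linarith) (by linarith)
  refine ((hb.comp r hp).const_sub (log 2)).congr_deriv ?_
  have e1 : 1 - (1 - r) / 2 = (1 + r) / 2 := by ring
  rw [e1, log_div (by linarith) (by norm_num), log_div (by linarith) (by norm_num), ath]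
  ring

lemma hasDerivAt_ath {r : ℝ} (h : r ∈ Ioo (-1 : ℝ) 1) :
    HasDerivAt ath (1 / (1 - r ^ 2)) r := by
  obtain ⟨h1, h2⟩ := h
  have a := ((hasDerivAt_id r).const_add 1).log (by simp; linarith)
  have b := ((hasDerivAt_id r).const_sub 1).log (by simp; linarith)
  refine ((a.sub b).div_const 2).congr_deriv ?_
  have : (1 : ℝ) - r ^ 2 ≠ 0 := by nlinarith
  have : (1 : ℝ) + r ≠ 0 := by linarith
  have : (1 : ℝ) - r ≠ 0 := by linarith
  simp only [id_eq]
  field_simp
  ring

@[simp] lemma ath_zero : ath 0 = 0 := by simp [ath]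

lemma ath_nonneg {r : ℝ} (h0 : 0 ≤ r) (h1 : r < 1) : 0 ≤ ath r := by
  unfold ath
  have := log_le_log (by linarith : (0 : ℝ) < 1 - r) (by linarith : 1 - r ≤ 1 + r)
  linarith

/-- `ath` is star-shaped on `[0, 1)`. -/
lemma ath_mul_le {l r : ℝ} (l0 : 0 ≤ l) (l1 : l ≤ 1) (h0 : 0 ≤ r) (h1 : r < 1) :
    ath (l * r) ≤ l * ath r := by
  have key : MonotoneOn (fun x => l * ath x - ath (l * x)) (Icc 0 r) := by
    have hd : ∀ x ∈ Icc 0 r, HasDerivAt (fun x => l * ath x - ath (l * x))
        (l * (1 / (1 - x ^ 2)) - 1 / (1 - (l * x) ^ 2) * l) x := fun x hx => by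
      have hlx : l * x ≤ x := mul_le_of_le_one_left hx.1 l1
      exact ((hasDerivAt_ath ⟨by linarith [hx.1], by linarith [hx.2]⟩).const_mul l).sub
        ((hasDerivAt_ath ⟨by nlinarith [hx.1], by linarith [hx.2]⟩).comp x
          (by simpa using (hasDerivAt_id x).const_mul l))
    refine monotoneOn_of_hasDerivWithinAt_nonneg (convex_Icc 0 r)
      (fun x hx => (hd x hx).continuousAt.continuousWithinAt)
      (fun x hx => (hd x (interior_subset hx)).hasDerivWithinAt) fun x hx => ?_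
    have hx := interior_subset hx
    have hsq : (l * x) ^ 2 ≤ x ^ 2 :=
      pow_le_pow_left₀ (mul_nonneg l0 hx.1) (mul_le_of_le_one_left hx.1 l1) 2
    have hpos : 0 < 1 - x ^ 2 := by nlinarith [hx.1, hx.2]
    have := one_div_le_one_div_of_le hpos (by linarith : 1 - x ^ 2 ≤ 1 - (l * x) ^ 2)
    nlinarith
  have := key ⟨le_rfl, h0⟩ ⟨h0, le_rfl⟩ h0
  simp at this
  linarith

/-- `phi r / r ^ 2` is monotone. -/
lemma phi_mul_le {l r : ℝ} (l0 : 0 ≤ l) (l1 : l ≤ 1) (h0 : 0 ≤ r) (h1 : r ≤ 1) :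
    phi (l * r) ≤ l ^ 2 * phi r := by
  rcases eq_or_lt_of_le l1 with rfl | l1'
  · simp
  have key : MonotoneOn (fun x => l ^ 2 * phi x - phi (l * x)) (Icc 0 1) := by
    have hd : ∀ x ∈ Ioo (0 : ℝ) 1, HasDerivAt (fun x => l ^ 2 * phi x - phi (l * x))
        (l ^ 2 * ath x - ath (l * x) * l) x := fun x hx => by
      exact ((hasDerivAt_phi ⟨by linarith [hx.1], hx.2⟩).const_mul (l ^ 2)).sub
        ((hasDerivAt_phi ⟨by nlinarith [hx.1], by nlinarith [hx.1, hx.2]⟩).comp x
          (by simpa using (hasDerivAt_id x).const_mul l))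
    refine monotoneOn_of_hasDerivWithinAt_nonneg (convex_Icc 0 1)
      (by fun_prop) (fun x hx => (hd x (by simpa using hx)).hasDerivWithinAt) fun x hx => ?_
    rw [interior_Icc] at hx
    have := mul_le_mul_of_nonneg_left (ath_mul_le l0 l1 hx.1.le hx.2) l0
    nlinarith
  have := key ⟨le_rfl, zero_le_one⟩ ⟨h0, h1⟩ h0
  simp at this
  linarith

lemma phi_nonneg {r : ℝ} : 0 ≤ phi r := by
  have := binEntropy_le_log_two (p := (1 - r) / 2)
  unfold phi
  linarith

lemma four_mul_le_binEntropy {p : ℝ} (h0 : 0 ≤ p) (h1 : p ≤ 1) :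
    4 * p * (1 - p) * log 2 ≤ binEntropy p := by
  have hb : |1 - 2 * p| ≤ 1 := abs_le.2 ⟨by linarith, by linarith⟩
  have h := phi_mul_le (abs_nonneg (1 - 2 * p)) hb zero_le_one le_rfl
  rw [mul_one, phi_one, sq_abs] at h
  have he : phi |1 - 2 * p| = phi (1 - 2 * p) := by
    rcases abs_choice (1 - 2 * p) with e | e <;> rw [e]
    exact phi_neg _
  rw [binEntropy_eq_phi]
  linarith

lemma pair_negMulLog (m r : ℝ) :
    negMulLog (m * (1 + r)) + negMulLog (m * (1 - r)) = 2 * negMulLog m - 2 * m * phi r := by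
  have e1 : (1 + r) = 2 * ((1 + r) / 2) := by ring
  have e2 : (1 - r) = 2 * ((1 - r) / 2) := by ring
  have e3 : 1 - (1 - r) / 2 = (1 + r) / 2 := by ring
  have h2 : negMulLog 2 = -(2 * log 2) := by simp [negMulLog]
  rw [negMulLog_mul, negMulLog_mul, phi, binEntropy_eq_negMulLog_add_negMulLog_one_sub, e3,
    show negMulLog (1 + r) = negMulLog (2 * ((1 + r) / 2)) by rw [← e1],
    show negMulLog (1 - r) = negMulLog (2 * ((1 - r) / 2)) by rw [← e2],
    negMulLog_mul, negMulLog_mul, h2]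
  ring

lemma avgEnt_polar {m r s u v : ℝ} (hu : u = m * (1 + r)) (hv : v = m * (1 - r))
    (hs : m * r = (1 - m) * s) :
    avgEnt u v = binEntropy m - m * phi r - (1 - m) * phi s := by
  have hu' : 1 - u = (1 - m) * (1 - s) := by rw [hu]; linarith
  have hv' : 1 - v = (1 - m) * (1 + s) := by rw [hv]; linarith
  simp only [avgEnt, binEntropy_eq_negMulLog_add_negMulLog_one_sub]
  have a := pair_negMulLog m r
  have b := pair_negMulLog (1 - m) s
  rw [← hu, ← hv] at a
  rw [← hu', ← hv'] at b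
  linarith

lemma mixEnt_comm (ε u v : ℝ) : mixEnt ε u v = mixEnt ε v u := by
  unfold mixEnt; ring_nf

lemma avgEnt_comm (u v : ℝ) : avgEnt u v = avgEnt v u := by unfold avgEnt; ring

/-- Polar decomposition of a pair of values in `[0, 1]`. -/
lemma exists_split {u v : ℝ} (hu : u ∈ Icc (0 : ℝ) 1) (hv : v ∈ Icc (0 : ℝ) 1) :
    ∃ r s : ℝ, r ∈ Icc (0 : ℝ) 1 ∧ s ∈ Icc (0 : ℝ) 1 ∧
      |u - v| = 2 * ((u + v) / 2 * r) ∧ (u + v) / 2 * r = (1 - (u + v) / 2) * s ∧
      avgEnt u v =
        binEntropy ((u + v) / 2) - (u + v) / 2 * phi r - (1 - (u + v) / 2) * phi s ∧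
      ∀ ε, mixEnt ε u v = binEntropy ((u + v) / 2) - (u + v) / 2 * phi ((1 - 2 * ε) * r) -
        (1 - (u + v) / 2) * phi ((1 - 2 * ε) * s) := by
  wlog huv : v ≤ u generalizing u v
  · obtain ⟨r, s, hr, hs, h1, h2, h3, h4⟩ := this hv hu (le_of_not_ge huv)
    refine ⟨r, s, hr, hs, ?_, ?_, ?_, fun ε => ?_⟩
    · rw [abs_sub_comm, add_comm u v]; exact h1
    · rw [add_comm u v]; exact h2
    · rw [avgEnt_comm, add_comm u v]; exact h3
    · rw [mixEnt_comm, add_comm u v]; exact h4 ε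
  obtain ⟨hu0, hu1⟩ := hu
  obtain ⟨hv0, hv1⟩ := hv
  set m := (u + v) / 2 with hm
  set e := (u - v) / 2 with he
  have hr : m * (e / m) = e := by
    rcases eq_or_ne m 0 with h | h
    · rw [h, zero_mul]; linarith
    · exact mul_div_cancel₀ e h
  have hs : (1 - m) * (e / (1 - m)) = e := by
    rcases eq_or_ne (1 - m) 0 with h | h
    · rw [h, zero_mul]; linarith
    · exact mul_div_cancel₀ e h
  refine ⟨e / m, e / (1 - m), ⟨?_, ?_⟩, ⟨?_, ?_⟩, ?_, ?_, ?_, fun ε => ?_⟩
  · exact div_nonneg (by linarith) (by linarith)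
  · exact div_le_one_of_le₀ (by linarith) (by linarith)
  · exact div_nonneg (by linarith) (by linarith)
  · exact div_le_one_of_le₀ (by linarith) (by linarith)
  · rw [hr, abs_of_nonneg (by linarith)]; linarith
  · rw [hr, hs]
  · refine avgEnt_polar ?_ ?_ ?_
    · rw [mul_add, mul_one, hr]; linarith
    · rw [mul_sub, mul_one, hr]; linarith
    · rw [hr, hs]
  · have := avgEnt_polar (m := m) (r := (1 - 2 * ε) * (e / m)) (s := (1 - 2 * ε) * (e / (1 - m)))
      (u := (1 - ε) * u + ε * v) (v := ε * u + (1 - ε) * v) ?_ ?_ ?_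
    · simpa [mixEnt, avgEnt] using this
    · have : m * (1 + (1 - 2 * ε) * (e / m)) = m + (1 - 2 * ε) * e := by linear_combination (1 - 2 * ε) * hr
      rw [this, hm, he]; ring
    · have : m * (1 - (1 - 2 * ε) * (e / m)) = m - (1 - 2 * ε) * e := by linear_combination -(1 - 2 * ε) * hr
      rw [this, hm, he]; ring
    · linear_combination (1 - 2 * ε) * hr - (1 - 2 * ε) * hs

end Vale.Agent.P322
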