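import Mathlib
import Vale.Agent.P322.Basic

/-!
P322: the scalar induction inequality reduces to two one-variable functions, both concave after
normalisation.
-/

open Real Set

namespace Vale.Agent.P322

/-- The normalised lower bound for the conditional entropy, as a function of the output mean. -/
noncomputable def shape (c μ : ℝ) : ℝ := (1 - c) * (4 * μ * (1 - μ)) + c * (binEntropy μ / log 2)

/-- The induction inequality for a centred pair. -/
noncomputable def endMid (c θ k d : ℝ) : ℝ := θ * shape c ((1 + d) / 2) + k * d - 1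

/-- The induction inequality for a pair touching the boundary. -/
noncomputable def endEdge (c θ k d : ℝ) : ℝ := θ * shape c d / 2 + k * d - shape c (d / 2)

lemma shape_one_sub (c μ : ℝ) : shape c (1 - μ) = shape c μ := by
  simp only [shape, binEntropy_one_sub]; ring

@[simp] lemma shape_half (c : ℝ) : shape c (1 / 2) = 1 := by
  simp [shape, show (1 : ℝ) - 2⁻¹ = 2⁻¹ by norm_num]
  field_simp
  ring

@[simp] lemma shape_zero (c : ℝ) : shape c 0 = 0 := by simp [shape]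

lemma continuous_shape (c : ℝ) : Continuous (shape c) := by unfold shape; fun_prop

/-- The first derivative of `shape`. -/
noncomputable def shapeDeriv (c μ : ℝ) : ℝ :=
  (1 - c) * (4 * (1 - 2 * μ)) + c / log 2 * (log (1 - μ) - log μ)

/-- The second derivative of `shape`. -/
noncomputable def shapeDeriv2 (c μ : ℝ) : ℝ := -8 * (1 - c) - c / log 2 * (1 / (μ * (1 - μ)))

lemma hasDerivAt_shape {c μ : ℝ} (h0 : 0 < μ) (h1 : μ < 1) :
    HasDerivAt (shape c) (shapeDeriv c μ) μ := by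
  have a := (((hasDerivAt_id μ).const_mul 4).mul ((hasDerivAt_id μ).const_sub 1)).const_mul (1 - c)
  have b := ((hasDerivAt_binEntropy h0.ne' h1.ne).div_const (log 2)).const_mul c
  refine (a.add b).congr_deriv ?_
  simp only [shapeDeriv, id_eq]
  ring

lemma hasDerivAt_shapeDeriv {c μ : ℝ} (h0 : 0 < μ) (h1 : μ < 1) :
    HasDerivAt (shapeDeriv c) (shapeDeriv2 c μ) μ := by
  have a := (((((hasDerivAt_id μ).const_mul 2).const_sub 1).const_mul 4).const_mul (1 - c))
  have b := ((((hasDerivAt_id μ).const_sub 1).log (by simp; linarith)).sub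
    (hasDerivAt_log h0.ne')).const_mul (c / log 2)
  refine (a.add b).congr_deriv ?_
  have : (1 : ℝ) - μ ≠ 0 := by linarith
  simp only [shapeDeriv2, id_eq]
  field_simp
  ring

lemma ratio_antitone {e u u' : ℝ} (he : 0 ≤ e) (hu' : 0 < u') (hle : u' ≤ u)
    (hu : u + e ^ 2 ≤ 1 / 4) (hD : 0 < u' ^ 2 + 4 * e ^ 2 * u' - e ^ 2 + 4 * e ^ 4)
    (hD' : 0 < u ^ 2 + 4 * e ^ 2 * u - e ^ 2 + 4 * e ^ 4) :
    (u + e ^ 2) * u / (u ^ 2 + 4 * e ^ 2 * u - e ^ 2 + 4 * e ^ 4) ≤
      (u' + e ^ 2) * u' / (u' ^ 2 + 4 * e ^ 2 * u' - e ^ 2 + 4 * e ^ 4) := by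
  rw [div_le_div_iff₀ hD' hD]
  have hK : 4 * e ^ 2 * u ≤ e ^ 2 * (1 - 4 * e ^ 2) := by
    nlinarith [mul_le_mul_of_nonneg_left hu (sq_nonneg e)]
  have h1 : 0 ≤ e ^ 2 * (1 - 4 * e ^ 2) := le_trans (by nlinarith [sq_nonneg e]) hK
  have h2 : 0 ≤ e ^ 2 * (1 - 4 * e ^ 2) * (u + u' + e ^ 2) - 3 * e ^ 2 * u * u' := by
    nlinarith [mul_le_mul_of_nonneg_right hK hu'.le, mul_nonneg h1 (sq_nonneg e),
      mul_nonneg h1 (le_trans hu'.le hle), mul_nonneg (mul_nonneg (sq_nonneg e) hu'.le)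
        (le_trans hu'.le hle)]
  nlinarith [mul_nonneg (sub_nonneg.2 hle) h2]

/-- The second derivative changes sign only from plus to minus. -/
lemma deriv2_sign {c θ e t t' : ℝ} (hc : 0 ≤ c) (hc1 : c ≤ 1) (hθ : 0 ≤ θ) (hθ1 : θ ≤ 1)
    (he : 0 ≤ e) (ht : 0 ≤ t) (htt : t ≤ t') (ht' : t' + e < 1 / 2)
    (hneg : θ * (shapeDeriv2 c (1 / 2 + t - e) + shapeDeriv2 c (1 / 2 + t + e)) / 2 -
      shapeDeriv2 c (1 / 2 + t) < 0) :
    θ * (shapeDeriv2 c (1 / 2 + t' - e) + shapeDeriv2 c (1 / 2 + t' + e)) / 2 -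
      shapeDeriv2 c (1 / 2 + t') < 0 := by
  have key : ∀ s, 0 ≤ s → s + e < 1 / 2 →
      (1 / 4 - s ^ 2) * (θ * (shapeDeriv2 c (1 / 2 + s - e) + shapeDeriv2 c (1 / 2 + s + e)) / 2 -
        shapeDeriv2 c (1 / 2 + s)) =
      8 * (1 - c) * (1 - θ) * (1 / 4 - s ^ 2) + c / log 2 * (1 - θ *
        ((1 / 4 - s ^ 2 - e ^ 2 + e ^ 2) * (1 / 4 - s ^ 2 - e ^ 2) /
          ((1 / 4 - s ^ 2 - e ^ 2) ^ 2 + 4 * e ^ 2 * (1 / 4 - s ^ 2 - e ^ 2) - e ^ 2 +
            4 * e ^ 4))) := by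
    intro s hs hse
    have p1 : 0 < 1 / 4 - (s - e) ^ 2 := by nlinarith
    have p2 : 0 < 1 / 4 - (s + e) ^ 2 := by nlinarith
    have p3 : 0 < 1 / 4 - s ^ 2 := by nlinarith
    have ep : (1 / 4 - s ^ 2 - e ^ 2) ^ 2 + 4 * e ^ 2 * (1 / 4 - s ^ 2 - e ^ 2) - e ^ 2 +
        4 * e ^ 4 = (1 / 4 - (s - e) ^ 2) * (1 / 4 - (s + e) ^ 2) := by ring
    simp only [shapeDeriv2]
    rw [ep, show (1 / 2 + s - e) * (1 - (1 / 2 + s - e)) = 1 / 4 - (s - e) ^ 2 by ring,
      show (1 / 2 + s + e) * (1 - (1 / 2 + s + e)) = 1 / 4 - (s + e) ^ 2 by ring,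
      show (1 / 2 + s) * (1 - (1 / 2 + s)) = 1 / 4 - s ^ 2 by ring]
    generalize c / log 2 = C
    have s1 : 1 / (1 / 4 - (s - e) ^ 2) + 1 / (1 / 4 - (s + e) ^ 2) =
        2 * (1 / 4 - s ^ 2 - e ^ 2) / ((1 / 4 - (s - e) ^ 2) * (1 / 4 - (s + e) ^ 2)) := by
      rw [div_add_div _ _ p1.ne' p2.ne']; ring
    have s2 : (1 / 4 - s ^ 2) * (1 / (1 / 4 - s ^ 2)) = 1 := mul_one_div_cancel p3.ne'
    linear_combination -(θ * C * (1 / 4 - s ^ 2) / 2) * s1 + C * s2
  have hX : 0 < 1 / 4 - t' ^ 2 := by nlinarith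
  have hXX : 1 / 4 - t' ^ 2 ≤ 1 / 4 - t ^ 2 := by nlinarith
  have hDpos : ∀ s, 0 ≤ s → s + e < 1 / 2 →
      0 < (1 / 4 - s ^ 2 - e ^ 2) ^ 2 + 4 * e ^ 2 * (1 / 4 - s ^ 2 - e ^ 2) - e ^ 2 +
        4 * e ^ 4 := fun s hs hse => by
    have p1 : 0 < 1 / 4 - (s - e) ^ 2 := by nlinarith
    have p2 : 0 < 1 / 4 - (s + e) ^ 2 := by nlinarith
    nlinarith [mul_pos p1 p2]
  have hT := ratio_antitone he (u := 1 / 4 - t ^ 2 - e ^ 2) (u' := 1 / 4 - t' ^ 2 - e ^ 2)
    (by nlinarith) (by linarith) (by nlinarith) (hDpos t' (ht.trans htt) ht')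
    (hDpos t ht (by linarith))
  have hL : 0 ≤ c / log 2 := by positivity
  have a := key t ht (by linarith)
  have b := key t' (ht.trans htt) ht'
  have m1 : (1 / 4 - t ^ 2) * (θ * (shapeDeriv2 c (1 / 2 + t - e) +
      shapeDeriv2 c (1 / 2 + t + e)) / 2 - shapeDeriv2 c (1 / 2 + t)) < 0 :=
    mul_neg_of_pos_of_neg (by linarith) hneg
  have m2 := mul_le_mul_of_nonneg_left hXX
    (by nlinarith : 0 ≤ 8 * (1 - c) * (1 - θ))
  have m3 := mul_le_mul_of_nonneg_left (mul_le_mul_of_nonneg_left hT hθ) hL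
  by_contra hcon
  have := mul_nonneg hX.le (not_lt.1 hcon)
  linarith

/-- The induction inequality for all pairs at distance `d` follows from the two extreme pairs. -/
theorem reduce_ends {c θ k a b : ℝ} (hc : 0 ≤ c) (hc1 : c ≤ 1) (hθ : 0 ≤ θ) (hθ1 : θ ≤ 1)
    (ha : a ∈ Icc (0 : ℝ) 1) (hb : b ∈ Icc (0 : ℝ) 1)
    (h0 : 0 ≤ endMid c θ k |a - b|) (h1 : 0 ≤ endEdge c θ k |a - b|) :
    shape c ((a + b) / 2) ≤ θ * ((shape c a + shape c b) / 2) + k * |a - b| := by
  wlog hab : b ≤ a generalizing a b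
  · have := this hb ha (by rwa [abs_sub_comm]) (by rwa [abs_sub_comm]) (le_of_not_ge hab)
    rw [abs_sub_comm, add_comm a b, add_comm (shape c a)]
    exact this
  wlog hm : 1 / 2 ≤ (a + b) / 2 generalizing a b
  · have := @this (1 - b) (1 - a) ⟨by linarith [hb.2], by linarith [hb.1]⟩
      ⟨by linarith [ha.2], by linarith [ha.1]⟩ (by rwa [show 1 - b - (1 - a) = a - b by ring])
      (by rwa [show 1 - b - (1 - a) = a - b by ring]) (by linarith) (by linarith)
    rw [show 1 - b - (1 - a) = a - b by ring,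
      show (1 - b + (1 - a)) / 2 = 1 - (a + b) / 2 by ring, shape_one_sub, shape_one_sub,
      shape_one_sub] at this
    linarith
  obtain ⟨hb0, -⟩ := hb
  obtain ⟨-, ha1⟩ := ha
  have habs : |a - b| = a - b := abs_of_nonneg (by linarith)
  rw [habs] at h0 h1 ⊢
  set e := (a - b) / 2 with he
  set T := 1 / 2 - e with hT
  let ψ : ℝ → ℝ := fun t =>
    θ * ((shape c (1 / 2 + t - e) + shape c (1 / 2 + t + e)) / 2) + k * (a - b) -
      shape c (1 / 2 + t)
  let ψ' : ℝ → ℝ := fun t =>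
    θ * (shapeDeriv c (1 / 2 + t - e) + shapeDeriv c (1 / 2 + t + e)) / 2 -
      shapeDeriv c (1 / 2 + t)
  have hψ0 : ψ 0 = endMid c θ k (a - b) := by
    simp only [ψ, endMid, add_zero]
    rw [show 1 / 2 - e = 1 - (1 + (a - b)) / 2 by rw [he]; ring, shape_one_sub,
      show 1 / 2 + e = (1 + (a - b)) / 2 by rw [he]; ring, shape_half]
    ring
  have hψT : ψ T = endEdge c θ k (a - b) := by
    simp only [ψ, endEdge, hT]
    rw [show 1 / 2 + (1 / 2 - e) - e = 1 - (a - b) by rw [he]; ring,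
      show 1 / 2 + (1 / 2 - e) + e = 1 - 0 by ring,
      show 1 / 2 + (1 / 2 - e) = 1 - (a - b) / 2 by rw [he]; ring,
      shape_one_sub, shape_one_sub, shape_one_sub, shape_zero]
    ring
  have hcont : Continuous ψ := by
    have := continuous_shape c
    fun_prop
  have hd : ∀ t, 0 ≤ t → t < T → HasDerivAt ψ (ψ' t) t := fun t t0 tT => by
    have A := hasDerivAt_shape (c := c) (μ := 1 / 2 + t - e) (by linarith) (by linarith)
    have B := hasDerivAt_shape (c := c) (μ := 1 / 2 + t + e) (by linarith) (by linarith)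
    have C := hasDerivAt_shape (c := c) (μ := 1 / 2 + t) (by linarith) (by linarith)
    have := (((((A.comp t (((hasDerivAt_id t).const_add (1 / 2)).sub_const e)).add
      (B.comp t (((hasDerivAt_id t).const_add (1 / 2)).add_const e))).div_const 2).const_mul
        θ).add_const (k * (a - b))).sub (C.comp t ((hasDerivAt_id t).const_add (1 / 2)))
    refine this.congr_deriv ?_
    simp only [ψ', mul_one]
    ring
  have hd2 : ∀ t, 0 ≤ t → t < T → HasDerivAt ψ'
      (θ * (shapeDeriv2 c (1 / 2 + t - e) + shapeDeriv2 c (1 / 2 + t + e)) / 2 -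
        shapeDeriv2 c (1 / 2 + t)) t := fun t t0 tT => by
    have A := hasDerivAt_shapeDeriv (c := c) (μ := 1 / 2 + t - e) (by linarith) (by linarith)
    have B := hasDerivAt_shapeDeriv (c := c) (μ := 1 / 2 + t + e) (by linarith) (by linarith)
    have C := hasDerivAt_shapeDeriv (c := c) (μ := 1 / 2 + t) (by linarith) (by linarith)
    have := ((((A.comp t (((hasDerivAt_id t).const_add (1 / 2)).sub_const e)).add
      (B.comp t (((hasDerivAt_id t).const_add (1 / 2)).add_const e))).const_mul θ).div_const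
        2).sub (C.comp t ((hasDerivAt_id t).const_add (1 / 2)))
    refine this.congr_deriv ?_
    simp only [mul_one]
  suffices h : ∀ t ∈ Icc (0 : ℝ) T, 0 ≤ ψ t by
    have := h ((a + b) / 2 - 1 / 2) ⟨by linarith, by linarith⟩
    simp only [ψ, he] at this
    ring_nf at this ⊢
    linarith
  intro t ⟨t0, tT⟩
  by_cases hpos : ∀ x ∈ Ioo 0 t, 0 ≤ ψ' x
  · have := monotoneOn_of_hasDerivWithinAt_nonneg (convex_Icc 0 t) hcont.continuousOn
      (fun x hx => by
        rw [interior_Icc] at hx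
        exact (hd x hx.1.le (hx.2.trans_le tT)).hasDerivWithinAt)
      (fun x hx => hpos x (by simpa using hx)) ⟨le_rfl, t0⟩ ⟨t0, le_rfl⟩ t0
    linarith
  · push Not at hpos
    obtain ⟨x, ⟨x0, xt⟩, hx⟩ := hpos
    have hz : ψ' 0 = 0 := by
      simp only [ψ', shapeDeriv, add_zero]
      rw [show 1 - (1 / 2 - e) = 1 / 2 + e by ring, show 1 - (1 / 2 + e) = 1 / 2 - e by ring,
        show 1 - 1 / (2 : ℝ) = 1 / 2 by norm_num]
      ring
    obtain ⟨ξ, hξ, hξd⟩ := exists_hasDerivAt_eq_slope ψ'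
      (fun s => θ * (shapeDeriv2 c (1 / 2 + s - e) + shapeDeriv2 c (1 / 2 + s + e)) / 2 -
        shapeDeriv2 c (1 / 2 + s)) x0
      (fun s hs => (hd2 s hs.1 (by linarith [hs.2])).continuousAt.continuousWithinAt)
      (fun s hs => hd2 s hs.1.le (by linarith [hs.2]))
    have hneg : θ * (shapeDeriv2 c (1 / 2 + ξ - e) + shapeDeriv2 c (1 / 2 + ξ + e)) / 2 -
        shapeDeriv2 c (1 / 2 + ξ) < 0 := by
      rw [hξd, hz, sub_zero, sub_zero]
      exact div_neg_of_neg_of_pos hx x0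
    have hdec : ∀ y ∈ Ioo x T, ψ' y < 0 := fun y hy => by
      have := antitoneOn_of_hasDerivWithinAt_nonpos (f := ψ') (convex_Icc x y)
        (fun s hs => (hd2 s (by linarith [hs.1]) (by linarith [hs.2, hy.2])).continuousAt
          |>.continuousWithinAt)
        (fun s hs => by
          rw [interior_Icc] at hs
          exact (hd2 s (by linarith [hs.1]) (by linarith [hs.2, hy.2])).hasDerivWithinAt)
        (fun s hs => by
          rw [interior_Icc] at hs
          exact (deriv2_sign hc hc1 hθ hθ1 (by linarith) hξ.1.le (by linarith [hs.1, hξ.2])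
            (by linarith [hs.2, hy.2]) hneg).le)
        ⟨le_rfl, hy.1.le⟩ ⟨hy.1.le, le_rfl⟩ hy.1.le
      linarith
    have := antitoneOn_of_hasDerivWithinAt_nonpos (convex_Icc x T) hcont.continuousOn
      (fun s hs => by
        rw [interior_Icc] at hs
        exact (hd s (by linarith [hs.1]) hs.2).hasDerivWithinAt)
      (fun s hs => (hdec s (by simpa using hs)).le) ⟨xt.le, tT⟩ ⟨xt.le.trans tT, le_rfl⟩ tT
    linarith

end Vale.Agent.P322
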