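import Mathlib
import Vale.Agent.P322.Basic

/-!
P322: two explicit families of certificates.
-/

open Real Set

namespace Vale.Agent.P322

lemma half_sq_le_phi {r : ℝ} (h0 : 0 ≤ r) (h1 : r ≤ 1) : r ^ 2 / 2 ≤ phi r := by
  have hath : ∀ x : ℝ, 0 ≤ x → x < 1 → x ≤ ath x := fun x x0 x1 => by
    have hd : ∀ s ∈ Icc 0 x, HasDerivAt (fun s => ath s - s) (1 / (1 - s ^ 2) - 1) s :=
      fun s hs => (hasDerivAt_ath ⟨by linarith [hs.1], by linarith [hs.2]⟩).sub (hasDerivAt_id s)
    have := monotoneOn_of_hasDerivWithinAt_nonneg (convex_Icc 0 x)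
      (fun s hs => (hd s hs).continuousAt.continuousWithinAt)
      (fun s hs => (hd s (interior_subset hs)).hasDerivWithinAt) (fun s hs => by
        have hs := interior_subset hs
        have : 0 < 1 - s ^ 2 := by nlinarith [hs.1, hs.2]
        have := one_le_one_div this (by nlinarith)
        linarith) ⟨le_rfl, x0⟩ ⟨x0, le_rfl⟩ x0
    simp at this
    linarith
  have := monotoneOn_of_hasDerivWithinAt_nonneg (f := fun s => phi s - s ^ 2 / 2)
    (f' := fun s => ath s - s) (convex_Icc 0 1) (by fun_prop) (fun s hs => by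
      rw [interior_Icc] at hs
      exact (((hasDerivAt_phi ⟨by linarith [hs.1], hs.2⟩).sub
        ((hasDerivAt_pow 2 s).div_const 2)).congr_deriv (by ring)).hasDerivWithinAt)
    (fun s hs => by
      rw [interior_Icc] at hs
      linarith [hath s hs.1.le hs.2]) ⟨le_rfl, zero_le_one⟩ ⟨h0, h1⟩ h0
  simp at this
  linarith

lemma cert_quad {ε θ k : ℝ} (he : 0 ≤ ε) (he1 : ε ≤ 1 / 2) (hθ : (1 - 2 * ε) ^ 2 ≤ θ)
    (hθ1 : θ ≤ 1) (hk2 : k ^ 2 ≤ 2 * log 2 * (1 - θ) * (θ - (1 - 2 * ε) ^ 2)) :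
    Cert ε θ k := by
  intro d ⟨d0, d1⟩
  have hr0 : 0 ≤ 1 - 2 * d := by linarith
  have hr1 : 1 - 2 * d ≤ 1 := by linarith
  have e : 1 - 2 * (ε + (1 - 2 * ε) * d) = (1 - 2 * ε) * (1 - 2 * d) := by ring
  rw [binEntropy_eq_phi d, binEntropy_eq_phi (ε + _), e]
  have hl := phi_mul_le (l := 1 - 2 * ε) (by linarith) (by linarith) hr0 hr1
  have hq := half_sq_le_phi hr0 hr1
  set r := 1 - 2 * d
  have hA : 0 ≤ (1 - θ) * log 2 := mul_nonneg (by linarith) (log_nonneg (by norm_num))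
  have hB : 0 ≤ (θ - (1 - 2 * ε) ^ 2) * r ^ 2 / 2 := by
    have : 0 ≤ θ - (1 - 2 * ε) ^ 2 := by linarith
    positivity
  have key : k * r ≤ (1 - θ) * log 2 + (θ - (1 - 2 * ε) ^ 2) * r ^ 2 / 2 := by
    refine (abs_le.1 (abs_le_of_sq_le_sq ?_ (by linarith))).2
    nlinarith [mul_le_mul_of_nonneg_right hk2 (sq_nonneg r),
      sq_nonneg ((1 - θ) * log 2 - (θ - (1 - 2 * ε) ^ 2) * r ^ 2 / 2)]
  nlinarith [mul_le_mul_of_nonneg_left hq (by linarith : 0 ≤ θ - (1 - 2 * ε) ^ 2)]

/-- The slope in the entropy of the tangent certificate at `d`. -/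
noncomputable def tanTheta (ε d : ℝ) : ℝ :=
  log ((ε + (1 - 2 * ε) * d) * (1 - (ε + (1 - 2 * ε) * d))) / log (d * (1 - d))

/-- The linear coefficient of the tangent certificate at `d`. -/
noncomputable def tanSlope (ε d : ℝ) : ℝ :=
  (binEntropy (ε + (1 - 2 * ε) * d) - tanTheta ε d * binEntropy d) / (1 - 2 * d)

lemma mix_prod (ε d : ℝ) : (ε + (1 - 2 * ε) * d) * (1 - (ε + (1 - 2 * ε) * d)) =
    ε * (1 - ε) + (1 - 2 * ε) ^ 2 * (d * (1 - d)) := by ring

lemma tanTheta_mem {ε d : ℝ} (he : 0 ≤ ε) (he1 : ε ≤ 1 / 2) (h0 : 0 < d) (h1 : d < 1 / 2) :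
    tanTheta ε d ∈ Icc (0 : ℝ) 1 := by
  have hX : 0 < d * (1 - d) := mul_pos h0 (by linarith)
  have hX1 : d * (1 - d) < 1 / 4 := by nlinarith [sq_pos_of_pos (by linarith : 0 < 1 / 2 - d)]
  have hee : 0 ≤ ε * (1 - ε) := mul_nonneg he (by linarith)
  have hY : d * (1 - d) ≤ ε * (1 - ε) + (1 - 2 * ε) ^ 2 * (d * (1 - d)) := by
    nlinarith [mul_nonneg hee (by linarith : 0 ≤ 1 - 4 * (d * (1 - d)))]
  have hY1 : ε * (1 - ε) + (1 - 2 * ε) ^ 2 * (d * (1 - d)) ≤ 1 := by
    nlinarith [mul_le_mul_of_nonneg_left hX1.le (sq_nonneg (1 - 2 * ε))]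
  have hden : log (d * (1 - d)) < 0 := log_neg hX (by linarith)
  rw [tanTheta, mix_prod]
  refine ⟨div_nonneg_of_nonpos (log_nonpos (by linarith) hY1) hden.le, ?_⟩
  rw [div_le_one_of_neg hden]
  exact log_le_log hX hY

/-- The tangent at a convex point is a certificate. -/
lemma cert_tangent {ε d : ℝ} (he : 0 < ε) (he1 : ε < 1 / 2) (h0 : 0 < d) (h1 : d < 1 / 2)
    (hcv : (1 - 2 * ε) ^ 2 * (d * (1 - d)) ≤
      tanTheta ε d * ((ε + (1 - 2 * ε) * d) * (1 - (ε + (1 - 2 * ε) * d)))) :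
    Cert ε (tanTheta ε d) (tanSlope ε d) := by
  obtain ⟨hθ, hθ1⟩ := tanTheta_mem he.le he1.le h0 h1
  set θ := tanTheta ε d with hθdef
  set k := tanSlope ε d with hkdef
  set g : ℝ → ℝ := fun s =>
    binEntropy (ε + (1 - 2 * ε) * s) - θ * binEntropy s - k * (1 - 2 * s) with hg
  let g' : ℝ → ℝ := fun s =>
    (1 - 2 * ε) * (log (1 - (ε + (1 - 2 * ε) * s)) - log (ε + (1 - 2 * ε) * s)) -
      θ * (log (1 - s) - log s) + 2 * k
  let g'' : ℝ → ℝ := fun s =>
    -((1 - 2 * ε) ^ 2 / ((ε + (1 - 2 * ε) * s) * (1 - (ε + (1 - 2 * ε) * s)))) +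
      θ / (s * (1 - s))
  have hmem : ∀ s, 0 ≤ s → s ≤ 1 / 2 →
      0 < ε + (1 - 2 * ε) * s ∧ ε + (1 - 2 * ε) * s < 1 := fun s s0 s1 => by
    constructor <;> nlinarith
  have hd : ∀ s, 0 < s → s ≤ 1 / 2 → HasDerivAt g (g' s) s := fun s s0 s1 => by
    obtain ⟨a0, a1⟩ := hmem s s0.le s1
    have := (((hasDerivAt_binEntropy a0.ne' a1.ne).comp s
      (((hasDerivAt_id s).const_mul (1 - 2 * ε)).const_add ε)).sub
      ((hasDerivAt_binEntropy s0.ne' (by linarith : s ≠ 1)).const_mul θ)).sub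
      ((((hasDerivAt_id s).const_mul 2).const_sub 1).const_mul k)
    refine this.congr_deriv ?_
    simp only [g', mul_one]
    ring
  have hd2 : ∀ s, 0 < s → s ≤ 1 / 2 → HasDerivAt g' (g'' s) s := fun s s0 s1 => by
    obtain ⟨a0, a1⟩ := hmem s s0.le s1
    have b0 : 1 - (ε + (1 - 2 * ε) * s) ≠ 0 := by linarith
    have c0 : 1 - s ≠ 0 := by linarith
    have A := (((hasDerivAt_id s).const_mul (1 - 2 * ε)).const_add ε)
    have := ((((A.const_sub 1).log b0).sub (A.log a0.ne')).const_mul (1 - 2 * ε)).sub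
      (((((hasDerivAt_id s).const_sub 1).log c0).sub (hasDerivAt_log s0.ne')).const_mul θ)
    refine (this.add_const (2 * k)).congr_deriv ?_
    simp only [g'', id_eq, mul_one]
    have a0' := a0.ne'
    generalize hw : ε + (1 - 2 * ε) * s = w at *
    field_simp
    ring
  have hgd : g d = 0 := by
    have : 1 - 2 * d ≠ 0 := by linarith
    simp only [hg, hkdef, tanSlope, ← hθdef]
    field_simp
    ring
  have hg'd : g' d = 0 := by
    obtain ⟨a0, a1⟩ := hmem d h0.le h1.le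
    have hden : log (d * (1 - d)) ≠ 0 :=
      (log_neg (mul_pos h0 (by linarith)) (by nlinarith)).ne
    have hth : θ * log (d * (1 - d)) =
        log ((ε + (1 - 2 * ε) * d) * (1 - (ε + (1 - 2 * ε) * d))) := by
      rw [hθdef, tanTheta]; exact div_mul_cancel₀ _ hden
    rw [log_mul h0.ne' (by linarith), log_mul a0.ne' (by linarith)] at hth
    have hk : k * (1 - 2 * d) = binEntropy (ε + (1 - 2 * ε) * d) - θ * binEntropy d := by
      rw [hkdef, tanSlope, ← hθdef]; exact div_mul_cancel₀ _ (by linarith)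
    simp only [binEntropy_eq_negMulLog_add_negMulLog_one_sub, negMulLog_def] at hk
    have : (1 - 2 * d) * g' d = 0 := by
      simp only [g']
      linear_combination hth + 2 * hk
    exact (mul_eq_zero.1 this).resolve_left (by linarith)
  have hsign : ∀ s t, 0 < s → s ≤ t → t ≤ 1 / 2 →
      (1 - 2 * ε) ^ 2 * (t * (1 - t)) ≤
        θ * ((ε + (1 - 2 * ε) * t) * (1 - (ε + (1 - 2 * ε) * t))) →
      0 ≤ g'' s := fun s t s0 st t1 hc => by
    have hX : 0 < s * (1 - s) := mul_pos s0 (by linarith)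
    have hmono : s * (1 - s) ≤ t * (1 - t) := by nlinarith
    have hY : 0 < (ε + (1 - 2 * ε) * s) * (1 - (ε + (1 - 2 * ε) * s)) := by
      obtain ⟨a0, a1⟩ := hmem s s0.le (st.trans t1)
      exact mul_pos a0 (by linarith)
    have hm : (1 - 2 * ε) ^ 2 * (s * (1 - s)) ≤
        θ * ((ε + (1 - 2 * ε) * s) * (1 - (ε + (1 - 2 * ε) * s))) := by
      rw [mix_prod] at hc ⊢
      nlinarith [mul_le_mul_of_nonneg_left hmono
        (mul_nonneg (sub_nonneg.2 hθ1) (sq_nonneg (1 - 2 * ε)))]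
    simp only [g'']
    rw [neg_add_eq_sub, sub_nonneg, div_le_div_iff₀ hY hX]
    exact hm
  have hcont : Continuous g := by fun_prop
  intro s hs
  suffices 0 ≤ g s by simp only [hg] at this; linarith
  obtain ⟨p, hp, hmin⟩ := (isCompact_Icc (a := (0 : ℝ)) (b := 1 / 2)).exists_isMinOn
    (nonempty_Icc.2 (by norm_num)) hcont.continuousOn
  have hmin' := hmin hs
  simp only [Set.mem_ofPred_eq] at hmin'
  by_contra hcon
  have hgp : g p < 0 := lt_of_le_of_lt hmin' (not_le.1 hcon)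
  have hconvex : ∀ t, t ≤ 1 / 2 → d ≤ t →
      (1 - 2 * ε) ^ 2 * (t * (1 - t)) ≤
        θ * ((ε + (1 - 2 * ε) * t) * (1 - (ε + (1 - 2 * ε) * t))) →
      ∀ x ∈ Icc 0 t, 0 ≤ g x := fun t t1 dt hc x hx => by
    rw [← hgd]
    rcases le_total x d with hxd | hdx
    · refine antitoneOn_of_hasDerivWithinAt_nonpos (convex_Icc 0 d) hcont.continuousOn
        (f' := g') (fun y hy => ?_) (fun y hy => ?_) ⟨hx.1, hxd⟩ ⟨h0.le, le_rfl⟩ hxd
      · rw [interior_Icc] at hy
        exact (hd y hy.1 (by linarith [hy.2])).hasDerivWithinAt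
      · rw [interior_Icc] at hy
        rw [← hg'd]
        exact monotoneOn_of_hasDerivWithinAt_nonneg (convex_Icc y d)
          (fun z hz => (hd2 z (by linarith [hz.1, hy.1]) (by linarith [hz.2])).continuousAt
            |>.continuousWithinAt)
          (fun z hz => (hd2 z (by linarith [(interior_subset hz).1, hy.1])
            (by linarith [(interior_subset hz).2])).hasDerivWithinAt)
          (fun z hz => hsign z t (by linarith [(interior_subset hz).1, hy.1])
            (by linarith [(interior_subset hz).2]) t1 hc)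
          ⟨le_rfl, hy.2.le⟩ ⟨hy.2.le, le_rfl⟩ hy.2.le
    · refine monotoneOn_of_hasDerivWithinAt_nonneg (convex_Icc d t) hcont.continuousOn
        (f' := g') (fun y hy => ?_) (fun y hy => ?_) ⟨le_rfl, dt⟩ ⟨hdx, hx.2⟩ hdx
      · rw [interior_Icc] at hy
        exact (hd y (by linarith [hy.1]) (by linarith [hy.2])).hasDerivWithinAt
      · rw [interior_Icc] at hy
        rw [← hg'd]
        exact monotoneOn_of_hasDerivWithinAt_nonneg (convex_Icc d y)
          (fun z hz => (hd2 z (by linarith [hz.1]) (by linarith [hz.2, hy.2])).continuousAt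
            |>.continuousWithinAt)
          (fun z hz => (hd2 z (by linarith [(interior_subset hz).1])
            (by linarith [(interior_subset hz).2, hy.2])).hasDerivWithinAt)
          (fun z hz => hsign z t (by linarith [(interior_subset hz).1])
            (by linarith [(interior_subset hz).2, hy.2]) t1 hc)
          ⟨le_rfl, hy.1.le⟩ ⟨hy.1.le, le_rfl⟩ hy.1.le
  by_cases hc : (1 - 2 * ε) ^ 2 * (p * (1 - p)) ≤
      θ * ((ε + (1 - 2 * ε) * p) * (1 - (ε + (1 - 2 * ε) * p)))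
  · rcases le_total d p with hdp | hpd
    · linarith [hconvex p hp.2 hdp hc p ⟨hp.1, le_rfl⟩]
    · linarith [hconvex d h1.le le_rfl hcv p ⟨hp.1, hpd⟩]
  · have hdp : d < p := by
      by_contra h
      linarith [hconvex d h1.le le_rfl hcv p ⟨hp.1, not_lt.1 h⟩]
    have hp2 : p < 1 / 2 := by
      rcases hp.2.lt_or_eq with h | h
      · exact h
      · rw [h] at hgp
        simp only [hg] at hgp
        rw [show ε + (1 - 2 * ε) * (1 / 2) = 1 / 2 by ring, one_div, binEntropy_two_inv] at hgp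
        norm_num at hgp
        linarith [mul_le_mul_of_nonneg_right hθ1 (log_nonneg (by norm_num : (1 : ℝ) ≤ 2))]
    have hp0 : 0 < p := h0.trans hdp
    have hz : g' p = 0 :=
      (IsLocalMin.hasDerivAt_eq_zero (hmin.isLocalMin (Icc_mem_nhds hp0 hp2))
        (hd p hp0 hp.2))
    have hneg : ∀ z ∈ Icc p (1 / 2), g'' z ≤ 0 := fun z hz => by
      have hX : 0 < z * (1 - z) := mul_pos (hp0.trans_le hz.1) (by linarith [hz.2])
      have hY : 0 < (ε + (1 - 2 * ε) * z) * (1 - (ε + (1 - 2 * ε) * z)) := by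
        obtain ⟨a0, a1⟩ := hmem z (hp0.le.trans hz.1) hz.2
        exact mul_pos a0 (by linarith)
      have hmono : p * (1 - p) ≤ z * (1 - z) := by nlinarith [hz.1, hz.2]
      have hm : θ * ((ε + (1 - 2 * ε) * z) * (1 - (ε + (1 - 2 * ε) * z))) ≤
          (1 - 2 * ε) ^ 2 * (z * (1 - z)) := by
        rw [mix_prod] at hc ⊢
        nlinarith [mul_le_mul_of_nonneg_left hmono
          (mul_nonneg (sub_nonneg.2 hθ1) (sq_nonneg (1 - 2 * ε)))]
      simp only [g'']
      rw [neg_add_eq_sub, sub_nonpos, div_le_div_iff₀ hX hY]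
      exact hm
    have := antitoneOn_of_hasDerivWithinAt_nonpos (convex_Icc p (1 / 2)) hcont.continuousOn
      (f' := g')
      (fun y hy => by
        rw [interior_Icc] at hy
        exact (hd y (hp0.trans hy.1) hy.2.le).hasDerivWithinAt)
      (fun y hy => by
        rw [interior_Icc] at hy
        rw [← hz]
        exact antitoneOn_of_hasDerivWithinAt_nonpos (convex_Icc p y)
          (fun z hz => (hd2 z (hp0.trans_le hz.1) (hz.2.trans hy.2.le)).continuousAt
            |>.continuousWithinAt)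
          (fun z hz => (hd2 z (hp0.trans_le (interior_subset hz).1)
            ((interior_subset hz).2.trans hy.2.le)).hasDerivWithinAt)
          (fun z hz => hneg z ⟨(interior_subset hz).1, (interior_subset hz).2.trans hy.2.le⟩)
          ⟨le_rfl, hy.1.le⟩ ⟨hy.1.le, le_rfl⟩ hy.1.le)
      ⟨le_rfl, hp2.le⟩ ⟨hp2.le, le_rfl⟩ hp2.le
    simp only [hg] at this hgp
    rw [show ε + (1 - 2 * ε) * (1 / 2) = 1 / 2 by ring, one_div, binEntropy_two_inv] at this
    norm_num at this
    linarith [mul_le_mul_of_nonneg_right hθ1 (log_nonneg (by norm_num : (1 : ℝ) ≤ 2))]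

end Vale.Agent.P322
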