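import Mathlib
import Vale.Agent.P322.Reduce
import Vale.Agent.P322.Tangent
import Vale.Agent.P322.Numerics

/-!
P322: the inductive lower bound on the conditional entropy at low noise.
-/

open Real Set

namespace Vale.Agent.P322

/-- The weight of the concavity gap in the low-noise bound. -/
noncomputable def gapWeight (ε : ℝ) : ℝ := 17 / 25 * (4 * ε * (1 - ε))

/-- The low-noise lower bound on the conditional entropy, as a function of the output mean. -/
noncomputable def lowBound (ε μ : ℝ) : ℝ :=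
  (binEntropy ε - gapWeight ε * log 2) * (4 * μ * (1 - μ)) + gapWeight ε * binEntropy μ

/-- The relative weight of the entropy part of the bound. -/
noncomputable def cRatio (ε : ℝ) : ℝ := gapWeight ε * log 2 / binEntropy ε

variable {ε μ : ℝ}

lemma gapWeight_nonneg (h0 : 0 ≤ ε) (h1 : ε ≤ 1) : 0 ≤ gapWeight ε := by
  unfold gapWeight
  have : 0 ≤ 1 - ε := by linarith
  positivity

lemma gapWeight_mul_log_le (h0 : 0 ≤ ε) (h1 : ε ≤ 1) : gapWeight ε * log 2 ≤ binEntropy ε := by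
  have := four_mul_le_binEntropy h0 h1
  have : 0 ≤ 4 * ε * (1 - ε) * log 2 := by
    have : 0 ≤ 1 - ε := by linarith
    positivity
  unfold gapWeight
  linarith

lemma lowBound_le (h0 : 0 ≤ ε) (h1 : ε ≤ 1) : lowBound ε μ ≤ binEntropy ε := by
  have a := mul_le_mul_of_nonneg_left (binEntropy_le_log_two (p := μ)) (gapWeight_nonneg h0 h1)
  have b := mul_le_mul_of_nonneg_left (by nlinarith [sq_nonneg (2 * μ - 1)] : 4 * μ * (1 - μ) ≤ 1)
    (sub_nonneg.2 (gapWeight_mul_log_le h0 h1))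
  unfold lowBound
  linarith

lemma lowBound_nonneg (h0 : 0 ≤ ε) (h1 : ε ≤ 1) (hμ : μ ∈ Icc (0 : ℝ) 1) :
    0 ≤ lowBound ε μ := by
  have a := binEntropy_nonneg hμ.1 hμ.2
  have b := gapWeight_nonneg h0 h1
  have c := sub_nonneg.2 (gapWeight_mul_log_le h0 h1)
  have : 0 ≤ 1 - μ := by linarith [hμ.2]
  have := hμ.1
  unfold lowBound
  positivity

lemma binEntropy_le_half (h0 : 0 ≤ ε) (h1 : ε ≤ 3 / 200) : binEntropy ε ≤ 1 / 2 := by
  have := binEntropy_strictMonoOn.monotoneOn ⟨h0, by linarith⟩ (by norm_num) h1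
  linarith [ent_3_200.2]

/-- The bound implies the desired inequality. -/
lemma le_lowBound (h0 : 0 ≤ ε) (h1 : ε ≤ 3 / 200) (hμ : μ ∈ Icc (0 : ℝ) 1) :
    binEntropy μ - (log 2 - binEntropy ε) ≤ lowBound ε μ := by
  have hb : |1 - 2 * μ| ≤ 1 := abs_le.2 ⟨by linarith [hμ.2], by linarith [hμ.1]⟩
  have a := half_sq_le_phi (abs_nonneg (1 - 2 * μ)) hb
  have e : phi |1 - 2 * μ| = phi (1 - 2 * μ) := by
    rcases abs_choice (1 - 2 * μ) with e | e <;> rw [e]
    exact phi_neg _
  rw [e, sq_abs] at a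
  have b := mul_le_mul_of_nonneg_left (binEntropy_le_half h0 h1) (sq_nonneg (1 - 2 * μ))
  have c := mul_nonneg (gapWeight_nonneg h0 (by linarith))
    (sub_nonneg.2 (four_mul_le_binEntropy hμ.1 hμ.2))
  rw [binEntropy_eq_phi μ] at c ⊢
  unfold lowBound
  rw [binEntropy_eq_phi μ]
  linarith

lemma lowBound_gap (a b : ℝ) :
    lowBound ε ((a + b) / 2) = (lowBound ε a + lowBound ε b) / 2 +
      (binEntropy ε - gapWeight ε * log 2) * (a - b) ^ 2 + gapWeight ε * gapEnt a b := by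
  unfold lowBound gapEnt avgEnt
  ring

lemma lowBound_eq_shape (h0 : 0 < ε) (h1 : ε < 1) :
    lowBound ε μ = binEntropy ε * shape (cRatio ε) μ := by
  have := (binEntropy_pos h0 h1).ne'
  have : log 2 ≠ 0 := by positivity
  unfold lowBound shape cRatio
  field_simp

lemma cRatio_mem (h0 : 0 < ε) (h1 : ε ≤ 3 / 200) :
    cRatio ε ∈ Icc (0 : ℝ) (727 / 2000) := by
  have hH := binEntropy_pos h0 (by linarith : ε < 1)
  have hC := gapWeight_nonneg h0.le (by linarith : ε ≤ 1)
  refine ⟨div_nonneg (mul_nonneg hC (log_nonneg (by norm_num))) hH.le, ?_⟩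
  rw [cRatio, div_le_iff₀ hH]
  have hc := strictConcave_binEntropy.concaveOn.2 (show (3 / 200 : ℝ) ∈ Icc (0 : ℝ) 1 by norm_num)
    (show (0 : ℝ) ∈ Icc (0 : ℝ) 1 by norm_num) (div_nonneg h0.le (by norm_num : (0 : ℝ) ≤ 3 / 200))
    (sub_nonneg.2 ((div_le_one (by norm_num : (0 : ℝ) < 3 / 200)).2 h1))
    (add_sub_cancel (ε / (3 / 200)) 1)
  simp only [smul_eq_mul, binEntropy_zero, mul_zero, add_zero] at hc
  rw [div_mul_cancel₀ _ (by norm_num : (3 / 200 : ℝ) ≠ 0)] at hc
  have a := mul_le_mul_of_nonneg_left ent_3_200.1 (by positivity : 0 ≤ ε / (3 / 200))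
  have b : gapWeight ε * log 2 ≤ 17 / 25 * (4 * ε) * 0.6931471808 := by
    refine mul_le_mul ?_ log_two_lt_d9.le (log_nonneg (by norm_num)) (by positivity)
    unfold gapWeight
    nlinarith
  linarith

end Vale.Agent.P322
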