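import Mathlib
import Vale.Agent.P322.Bound

/-!
P322: the induction step for pairs of means at distance close to `1`.
-/

open Real Set

namespace Vale.Agent.P322

lemma le_binEntropy_of_small {p : ℝ} (_h0 : 0 < p) (h1 : p < 1) :
    p * (-log p + (1 - p)) ≤ binEntropy p := by
  have h := log_le_sub_one_of_pos (by linarith : 0 < 1 - p)
  have := mul_le_mul_of_nonneg_left h (by linarith : 0 ≤ 1 - p)
  simp only [binEntropy_eq_negMulLog_add_negMulLog_one_sub, negMulLog_def]
  linarith

lemma binEntropy_le_of_small {p : ℝ} (_h0 : 0 < p) (h1 : p < 1) :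
    binEntropy p ≤ p * (-log p + 1) := by
  have h := one_sub_inv_le_log_of_pos (by linarith : 0 < 1 - p)
  have := mul_le_mul_of_nonneg_left h (by linarith : 0 ≤ 1 - p)
  rw [mul_sub, mul_one, mul_inv_cancel₀ (by linarith : (1 : ℝ) - p ≠ 0)] at this
  simp only [binEntropy_eq_negMulLog_add_negMulLog_one_sub, negMulLog_def]
  linarith

lemma binEntropy_le_cross {p r : ℝ} (hp0 : 0 < p) (hp1 : p < 1) (hr0 : 0 < r) (hr1 : r < 1) :
    binEntropy p ≤ binEntropy r + (p - r) * (log (1 - r) - log r) := by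
  have a := log_le_sub_one_of_pos (by positivity : 0 < r / p)
  have b := log_le_sub_one_of_pos (x := (1 - r) / (1 - p)) (div_pos (by linarith) (by linarith))
  rw [log_div hr0.ne' hp0.ne'] at a
  rw [log_div (by linarith) (by linarith)] at b
  have a := mul_le_mul_of_nonneg_left a hp0.le
  have b := mul_le_mul_of_nonneg_left b (by linarith : 0 ≤ 1 - p)
  rw [mul_sub p (r / p), mul_div_cancel₀ _ hp0.ne'] at a
  rw [mul_sub (1 - p) ((1 - r) / (1 - p)), mul_div_cancel₀ _ (by linarith : (1 : ℝ) - p ≠ 0)] at b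
  simp only [binEntropy_eq_negMulLog_add_negMulLog_one_sub, negMulLog_def]
  linarith

lemma neg_log_ge {ε : ℝ} (h0 : 0 < ε) (h1 : ε ≤ 3 / 200) : 4199704 / 1000000 ≤ -log ε := by
  have := log_le_log h0 h1
  linarith [log_3_200.2]

lemma edge_convex {ε u : ℝ} (h0 : 0 < ε) (h1 : ε ≤ 3 / 200) (hu : 0 < u) (hu1 : u ≤ 9 / 200) :
    (1 - 2 * ε) ^ 2 * ((267 / 200 * ε * u) * (1 - (267 / 200 * ε * u))) ≤ tanTheta ε (267 / 200 * ε * u) * ((ε + (1 - 2 * ε) * (267 / 200 * ε * u)) * (1 - (ε + (1 - 2 * ε) * (267 / 200 * ε * u)))) := by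
  set δ := 267 / 200 * ε * u with hδ
  set q := ε + (1 - 2 * ε) * δ with hq
  set l := -log ε with hl
  set U := -log u with hU
  have hl0 : 4199704 / 1000000 ≤ l := neg_log_ge h0 h1
  have hεu : ε * u ≤ 3 / 200 * u := mul_le_mul_of_nonneg_right h1 hu.le
  have hεu' : ε * u ≤ 9 / 200 * ε := by nlinarith
  have δ0 : 0 < δ := by positivity
  have δ1 : δ ≤ 91 / 100000 := by rw [hδ]; nlinarith
  have q0 : ε ≤ q := by rw [hq]; nlinarith
  have q1 : q ≤ ε * (1 + 267 / 200 * u) := by rw [hq, hδ]; nlinarith [mul_nonneg h0.le δ0.le]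
  have q2 : q ≤ 16 / 1000 := by nlinarith
  have hU0 : 0 ≤ U := neg_nonneg.2 (log_nonpos hu.le (by linarith))
  have hlogδ : log δ = log (267 / 200) - l - U := by
    rw [hδ, log_mul (by positivity) hu.ne', log_mul (by norm_num) h0.ne', hl, hU]; ring
  have hc3 : 67 / 267 ≤ log (267 / 200 : ℝ) :=
    le_trans (by norm_num) (one_sub_inv_le_log_of_pos (by norm_num))
  have hlogq : log q ≤ -l + 267 / 200 * u := by
    have := log_le_log (by linarith) q1
    rw [log_mul h0.ne' (by positivity)] at this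
    have := log_le_sub_one_of_pos (by positivity : (0 : ℝ) < 1 + 267 / 200 * u)
    linarith
  have hlogq1 : -(163 / 10000) ≤ log (1 - q) := by
    have h := one_sub_inv_le_log_of_pos (by linarith : 0 < 1 - q)
    have : (1 - q)⁻¹ ≤ (1 - 16 / 1000 : ℝ)⁻¹ := inv_anti₀ (by norm_num) (by linarith)
    norm_num at this
    linarith
  have hδlog : log (1 - δ) ≤ 0 := log_nonpos (by linarith) (by linarith)
  have hθeq : tanTheta ε δ = (-log q - log (1 - q)) / (-log δ - log (1 - δ)) := by
    rw [tanTheta, ← hq, log_mul (by linarith) (by linarith), log_mul δ0.ne' (by linarith),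
      show -log q - log (1 - q) = -(log q + log (1 - q)) by ring,
      show -log δ - log (1 - δ) = -(log δ + log (1 - δ)) by ring, neg_div_neg_eq]
  have hmem := tanTheta_mem h0.le (by linarith) δ0 (by linarith)
  have hlogq0 : log (1 - q) ≤ 0 := log_nonpos (by linarith) (by linarith)
  have hδlog1 : -(1 / 100) ≤ log (1 - δ) := by
    have h := one_sub_inv_le_log_of_pos (by linarith : 0 < 1 - δ)
    have : (1 - δ)⁻¹ ≤ (1 - 91 / 100000 : ℝ)⁻¹ := inv_anti₀ (by norm_num) (by linarith)
    norm_num at this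
    linarith
  have hden : 0 < -log δ - log (1 - δ) := by
    have := log_le_sub_one_of_pos δ0
    linarith
  have hX : (1 - 2 * ε) ^ 2 * (δ * (1 - δ)) ≤ δ :=
    (mul_le_of_le_one_left (mul_nonneg δ0.le (by linarith)) (by nlinarith)).trans
      (mul_le_of_le_one_right δ0.le (by linarith))
  have hY : ε * (197 / 200) ≤ q * (1 - q) := by
    have := mix_prod ε δ
    rw [← hq] at this
    rw [this]
    have : 0 ≤ (1 - 2 * ε) ^ 2 * (δ * (1 - δ)) :=
      mul_nonneg (sq_nonneg _) (mul_nonneg δ0.le (by linarith))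
    nlinarith
  have huU : u * U ≤ 1 := by
    have := log_le_sub_one_of_pos (inv_pos.2 hu)
    rw [log_inv] at this
    have := mul_le_mul_of_nonneg_left this hu.le
    rw [mul_sub, mul_one, mul_inv_cancel₀ hu.ne'] at this
    linarith
  refine hX.trans (le_trans ?_ (mul_le_mul_of_nonneg_left hY hmem.1))
  rw [hθeq, div_mul_eq_mul_div, le_div_iff₀ hden]
  have e1 : -log δ - log (1 - δ) ≤ l + U := by linarith
  have e2 : l - 3 / 40 ≤ -log q - log (1 - q) := by linarith
  calc δ * (-log δ - log (1 - δ)) ≤ δ * (l + U) := mul_le_mul_of_nonneg_left e1 δ0.le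
    _ = ε * (267 / 200 * (u * l + u * U)) := by rw [hδ]; ring
    _ ≤ ε * (267 / 200 * (9 / 200 * l + 1)) := by
        refine mul_le_mul_of_nonneg_left ?_ h0.le
        nlinarith [mul_le_mul_of_nonneg_right hu1 (by linarith : 0 ≤ l)]
    _ ≤ (l - 3 / 40) * (ε * (197 / 200)) := by nlinarith
    _ ≤ (-log q - log (1 - q)) * (ε * (197 / 200)) := by
        exact mul_le_mul_of_nonneg_right e2 (by positivity)

lemma edge_gain {ε u : ℝ} (h0 : 0 < ε) (h1 : ε ≤ 3 / 200) (hu : 0 < u) (hu1 : u ≤ 9 / 200) :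
    ε * u * ((1 - 2 * (267 / 200) * ε) * ((-log ε) + 1)) ≤
      (1 - u) * (binEntropy (ε + (1 - 2 * ε) * (267 / 200 * ε * u)) - binEntropy ε) := by
  set δ := 267 / 200 * ε * u with hδ
  set q := ε + (1 - 2 * ε) * δ with hq
  set l := -log ε with hl
  set U := -log u with hU
  have hl0 : 4199704 / 1000000 ≤ l := neg_log_ge h0 h1
  have hεu : ε * u ≤ 3 / 200 * u := mul_le_mul_of_nonneg_right h1 hu.le
  have hεu' : ε * u ≤ 9 / 200 * ε := by nlinarith
  have δ0 : 0 < δ := by positivity
  have δ1 : δ ≤ 91 / 100000 := by rw [hδ]; nlinarith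
  have q0 : ε ≤ q := by rw [hq]; nlinarith
  have q1 : q ≤ ε * (1 + 267 / 200 * u) := by rw [hq, hδ]; nlinarith [mul_nonneg h0.le δ0.le]
  have q2 : q ≤ 16 / 1000 := by nlinarith
  have hU0 : 0 ≤ U := neg_nonneg.2 (log_nonpos hu.le (by linarith))
  have hlogδ : log δ = log (267 / 200) - l - U := by
    rw [hδ, log_mul (by positivity) hu.ne', log_mul (by norm_num) h0.ne', hl, hU]; ring
  have hc3 : 67 / 267 ≤ log (267 / 200 : ℝ) :=
    le_trans (by norm_num) (one_sub_inv_le_log_of_pos (by norm_num))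
  have hlogq : log q ≤ -l + 267 / 200 * u := by
    have := log_le_log (by linarith) q1
    rw [log_mul h0.ne' (by positivity)] at this
    have := log_le_sub_one_of_pos (by positivity : (0 : ℝ) < 1 + 267 / 200 * u)
    linarith
  have hlogq1 : -(163 / 10000) ≤ log (1 - q) := by
    have h := one_sub_inv_le_log_of_pos (by linarith : 0 < 1 - q)
    have : (1 - q)⁻¹ ≤ (1 - 16 / 1000 : ℝ)⁻¹ := inv_anti₀ (by norm_num) (by linarith)
    norm_num at this
    linarith
  have hδlog : log (1 - δ) ≤ 0 := log_nonpos (by linarith) (by linarith)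
  have a := binEntropy_le_cross h0 (by linarith : ε < 1) (by linarith : 0 < q) (by linarith)
  have b : (1 - 2 * ε) * δ * (l - 7641 / 100000) ≤ binEntropy q - binEntropy ε := by
    have := mul_le_mul_of_nonneg_left (a := (1 - 2 * ε) * δ)
      (by linarith : l - 7641 / 100000 ≤ log (1 - q) - log q)
      (mul_nonneg (by linarith) δ0.le)
    have e : q - ε = (1 - 2 * ε) * δ := by rw [hq]; ring
    rw [← e] at this ⊢
    linarith
  refine le_trans ?_ (mul_le_mul_of_nonneg_left b (by linarith))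
  rw [hδ, show (1 - u) * ((1 - 2 * ε) * (267 / 200 * ε * u) * (l - 7641 / 100000)) =
    ε * u * (267 / 200 * ((1 - u) * (1 - 2 * ε)) * (l - 7641 / 100000)) by ring]
  refine mul_le_mul_of_nonneg_left ?_ (by positivity)
  have e : 191 / 200 * (97 / 100) ≤ (1 - u) * (1 - 2 * ε) :=
    mul_le_mul (by linarith) (by linarith) (by norm_num) (by linarith)
  have := mul_le_mul_of_nonneg_right e (by linarith : 0 ≤ l - 7641 / 100000)
  rcases le_total ε (1 / 128) with hs | hs
  · have := log_le_log h0 hs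
    rw [show (1 / 128 : ℝ) = (2 ^ 7)⁻¹ by norm_num, log_inv, log_pow] at this
    push_cast at this
    have : 485 / 100 ≤ l := by linarith [log_two_gt_d9]
    nlinarith [mul_nonneg h0.le (by linarith : 0 ≤ l + 1)]
  · nlinarith [mul_le_mul_of_nonneg_right hs (by linarith : 0 ≤ l + 1)]

lemma edge_loss {ε u : ℝ} (h0 : 0 < ε) (h1 : ε ≤ 3 / 200) (hu : 0 < u) (hu1 : u ≤ 9 / 200) :
    (1 - u) * binEntropy (267 / 200 * ε * u) ≤ (1 - 2 * (267 / 200 * ε * u)) * (u *
      ((binEntropy ε - gapWeight ε * log 2) * (2 * (1 - u)) +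
        gapWeight ε / 2 * ((-log u) + (1 - u)))) := by
  set δ := 267 / 200 * ε * u with hδ
  set q := ε + (1 - 2 * ε) * δ with hq
  set l := -log ε with hl
  set U := -log u with hU
  have hl0 : 4199704 / 1000000 ≤ l := neg_log_ge h0 h1
  have hεu : ε * u ≤ 3 / 200 * u := mul_le_mul_of_nonneg_right h1 hu.le
  have hεu' : ε * u ≤ 9 / 200 * ε := by nlinarith
  have δ0 : 0 < δ := by positivity
  have δ1 : δ ≤ 91 / 100000 := by rw [hδ]; nlinarith
  have q0 : ε ≤ q := by rw [hq]; nlinarith
  have q1 : q ≤ ε * (1 + 267 / 200 * u) := by rw [hq, hδ]; nlinarith [mul_nonneg h0.le δ0.le]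
  have q2 : q ≤ 16 / 1000 := by nlinarith
  have hU0 : 0 ≤ U := neg_nonneg.2 (log_nonpos hu.le (by linarith))
  have hlogδ : log δ = log (267 / 200) - l - U := by
    rw [hδ, log_mul (by positivity) hu.ne', log_mul (by norm_num) h0.ne', hl, hU]; ring
  have hc3 : 67 / 267 ≤ log (267 / 200 : ℝ) :=
    le_trans (by norm_num) (one_sub_inv_le_log_of_pos (by norm_num))
  have hlogq : log q ≤ -l + 267 / 200 * u := by
    have := log_le_log (by linarith) q1
    rw [log_mul h0.ne' (by positivity)] at this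
    have := log_le_sub_one_of_pos (by positivity : (0 : ℝ) < 1 + 267 / 200 * u)
    linarith
  have hlogq1 : -(163 / 10000) ≤ log (1 - q) := by
    have h := one_sub_inv_le_log_of_pos (by linarith : 0 < 1 - q)
    have : (1 - q)⁻¹ ≤ (1 - 16 / 1000 : ℝ)⁻¹ := inv_anti₀ (by norm_num) (by linarith)
    norm_num at this
    linarith
  have hδlog : log (1 - δ) ≤ 0 := log_nonpos (by linarith) (by linarith)
  have hH0 := le_binEntropy_of_small h0 (by linarith : ε < 1)
  rw [← hl] at hH0
  have hHδ := binEntropy_le_of_small δ0 (by linarith : δ < 1)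
  have hx : 0 < 1 - 2 * δ := by linarith
  have a : (1 - u) * binEntropy δ ≤ δ * (l + U + 3 / 4) :=
    (mul_le_of_le_one_left (binEntropy_nonneg δ0.le (by linarith)) (by linarith)).trans
      (hHδ.trans (mul_le_mul_of_nonneg_left (by linarith) δ0.le))
  refine a.trans ?_
  have hC : ε * (267920 / 100000) ≤ gapWeight ε := by unfold gapWeight; nlinarith
  have hC1 : gapWeight ε * log 2 ≤ ε * (1886 / 1000) := by
    refine (mul_le_mul (?_ : gapWeight ε ≤ ε * (68 / 25)) log_two_lt_d9.le
      (log_nonneg (by norm_num)) (by positivity)).trans (by linarith)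
    unfold gapWeight; nlinarith
  have e1 : ε * ((l + 197 / 200 - 1886 / 1000) * (191 / 100)) ≤
      (binEntropy ε - gapWeight ε * log 2) * (2 * (1 - u)) := by
    rw [← mul_assoc]
    refine mul_le_mul ?_ (by linarith) (by norm_num) (sub_nonneg.2
      (gapWeight_mul_log_le h0.le (by linarith)))
    nlinarith
  have e2 : ε * (133960 / 100000 * (U + 191 / 200)) ≤
      gapWeight ε / 2 * (U + (1 - u)) := by
    rw [← mul_assoc]
    exact mul_le_mul (by linarith) (by linarith) (by linarith) (by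
      have := gapWeight_nonneg h0.le (by linarith : ε ≤ 1); linarith)
  have e3 : ε * (267 / 200 * (l + U + 3 / 4)) ≤ (1 - 2 * δ) *
      ((binEntropy ε - gapWeight ε * log 2) * (2 * (1 - u)) +
        gapWeight ε / 2 * (U + (1 - u))) := by
    refine le_trans ?_ (mul_le_mul (by linarith : (99818 / 100000 : ℝ) ≤ 1 - 2 * δ)
      (add_le_add e1 e2) (by nlinarith) (by linarith))
    have := mul_le_mul_of_nonneg_left (a := ε) (b := 267 / 200 * (l + U + 3 / 4))
      (c := 99818 / 100000 * ((l + 197 / 200 - 1886 / 1000) * (191 / 100) +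
        133960 / 100000 * (U + 191 / 200))) (by linarith) h0.le
    linarith
  have := mul_le_mul_of_nonneg_left e3 hu.le
  rw [hδ] at this ⊢
  linarith

/-- A tangent certificate at `d = (267 / 200) * ε * u` settles both extreme pairs. -/
lemma edge_cert {ε u : ℝ} (h0 : 0 < ε) (h1 : ε ≤ 3 / 200) (hu : 0 < u) (hu1 : u ≤ 9 / 200) :
    ∃ θ k, Cert ε θ k ∧ θ ∈ Icc (0 : ℝ) 1 ∧
      binEntropy ε ≤ θ * lowBound ε (u / 2) + k * (1 - u) ∧
      binEntropy ε ≤ θ * (lowBound ε u / 2) + k * (1 - u) := by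
  have hcv := edge_convex h0 h1 hu hu1
  have hgain := edge_gain h0 h1 hu hu1
  have hloss := edge_loss h0 h1 hu hu1
  set δ := 267 / 200 * ε * u with hδ
  set q := ε + (1 - 2 * ε) * δ with hq
  set l := -log ε with hl
  set U := -log u with hU
  have δ0 : 0 < δ := by positivity
  have δ1 : δ ≤ 91 / 100000 := by rw [hδ]; nlinarith [mul_le_mul h1 hu1 hu.le (by norm_num)]
  have hmem := tanTheta_mem h0.le (by linarith) δ0 (by linarith)
  have hx : 0 < 1 - 2 * δ := by linarith
  have hH1 := binEntropy_le_of_small h0 (by linarith : ε < 1)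
  rw [← hl] at hH1
  refine ⟨_, _, cert_tangent h0 (by linarith) δ0 (by linarith) hcv, hmem, ?_⟩
  have hmain : ∀ X, u * ((binEntropy ε - gapWeight ε * log 2) * (2 * (1 - u)) +
      gapWeight ε / 2 * (U + (1 - u))) ≤ X →
      binEntropy ε ≤ tanTheta ε δ * X + tanSlope ε δ * (1 - u) := fun X hX => by
    have a : 0 ≤ tanTheta ε δ * ((1 - 2 * δ) * X - (1 - u) * binEntropy δ) :=
      mul_nonneg hmem.1 (sub_nonneg.2 (hloss.trans (mul_le_mul_of_nonneg_left hX hx.le)))
    have b : (u - 2 * δ) * binEntropy ε ≤ (1 - u) * (binEntropy q - binEntropy ε) := by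
      refine le_trans ?_ hgain
      rw [show u - 2 * δ = u * (1 - 2 * (267 / 200) * ε) by rw [hδ]; ring]
      have := mul_le_mul_of_nonneg_left hH1
        (mul_nonneg hu.le (by linarith : 0 ≤ 1 - 2 * (267 / 200) * ε))
      linarith
    have e : tanTheta ε δ * X + tanSlope ε δ * (1 - u) =
        (tanTheta ε δ * ((1 - 2 * δ) * X - (1 - u) * binEntropy δ) + (1 - u) * binEntropy q) /
          (1 - 2 * δ) := by
      rw [tanSlope, ← hq]
      field_simp
      ring
    rw [e, le_div_iff₀ hx]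
    linarith
  have hC0 := gapWeight_nonneg h0.le (by linarith : ε ≤ 1)
  have hA0 := sub_nonneg.2 (gapWeight_mul_log_le h0.le (by linarith : ε ≤ 1))
  constructor
  · refine hmain _ ?_
    have h := le_binEntropy_of_small (by linarith : 0 < u / 2) (by linarith)
    rw [log_div hu.ne' (by norm_num)] at h
    have := mul_le_mul_of_nonneg_left h hC0
    have := mul_nonneg (mul_nonneg hC0 hu.le) (by linarith [log_two_gt_d9] : 0 ≤ log 2 + u / 2)
    have := mul_nonneg hA0 (sq_nonneg u)
    unfold lowBound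
    linarith
  · refine hmain _ ?_
    have h := le_binEntropy_of_small hu (by linarith)
    have := mul_le_mul_of_nonneg_left h hC0
    unfold lowBound
    linarith

end Vale.Agent.P322
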