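import Mathlib
import Vale.Agent.P322.Basic

/-!
P322: the gain of one channel use dominates the concavity gap, which is jointly convex.
-/

open Real Set

namespace Vale.Agent.P322

lemma gap_gain {ε u v : ℝ} (he : 0 ≤ ε) (he1 : ε ≤ 1 / 2) (hu : u ∈ Icc (0 : ℝ) 1)
    (hv : v ∈ Icc (0 : ℝ) 1) :
    avgEnt u v + 4 * ε * (1 - ε) * gapEnt u v ≤ mixEnt ε u v := by
  obtain ⟨r, s, hr, hs, -, -, h3, h4⟩ := exists_split hu hv
  have a := mul_le_mul_of_nonneg_left
    (phi_mul_le (l := 1 - 2 * ε) (by linarith) (by linarith) hr.1 hr.2)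
    (by linarith [hu.1, hv.1] : 0 ≤ (u + v) / 2)
  have b := mul_le_mul_of_nonneg_left
    (phi_mul_le (l := 1 - 2 * ε) (by linarith) (by linarith) hs.1 hs.2)
    (by linarith [hu.2, hv.2] : 0 ≤ 1 - (u + v) / 2)
  rw [gapEnt, h4, h3]
  linarith

/-- The perspective term. -/
noncomputable def persp (p q : ℝ) : ℝ := p * log (p / ((p + q) / 2))

lemma gapEnt_eq_persp {u v : ℝ} (hu : u ∈ Icc (0 : ℝ) 1) (hv : v ∈ Icc (0 : ℝ) 1) :
    gapEnt u v = (persp u v + persp v u + persp (1 - u) (1 - v) + persp (1 - v) (1 - u)) / 2 := by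
  have key : ∀ p q : ℝ, 0 ≤ p → 0 ≤ q →
      persp p q = p * log p - p * log ((p + q) / 2) := fun p q hp hq => by
    rcases hp.eq_or_lt with rfl | hp
    · simp [persp]
    rw [persp, log_div hp.ne' (by linarith)]
    ring
  have := hu.1; have := hu.2; have := hv.1; have := hv.2
  rw [key u v (by linarith) (by linarith), key v u (by linarith) (by linarith),
    key (1 - u) (1 - v) (by linarith) (by linarith),
    key (1 - v) (1 - u) (by linarith) (by linarith)]
  simp only [gapEnt, avgEnt, binEntropy_eq_negMulLog_add_negMulLog_one_sub, negMulLog_def]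
  rw [show (1 - u + (1 - v)) / 2 = 1 - (u + v) / 2 by ring,
    show (1 - v + (1 - u)) / 2 = 1 - (u + v) / 2 by ring, add_comm v u]
  ring

lemma persp_tangent {p q a b : ℝ} (hp : 0 ≤ p) (hq : 0 ≤ q) (ha : 0 ≤ a) (hb : 0 ≤ b)
    (hab : a = 0 → p = 0) :
    p * log (a / ((a + b) / 2)) + p - (p + q) / 2 * (a / ((a + b) / 2)) ≤ persp p q := by
  rcases hp.eq_or_lt with rfl | hp
  · simp only [zero_mul, zero_add, persp, zero_sub, neg_nonpos]
    positivity
  have ha : 0 < a := ha.lt_of_ne fun h => hp.ne' (hab h.symm)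
  have hM : 0 < (p + q) / 2 := by linarith
  have hA : 0 < (a + b) / 2 := by linarith
  have hx : 0 < p / ((p + q) / 2) / (a / ((a + b) / 2)) := by positivity
  have h := one_sub_inv_le_log_of_pos hx
  rw [log_div (by positivity) (by positivity)] at h
  have h := mul_le_mul_of_nonneg_left h hp.le
  have e : p * (1 - (p / ((p + q) / 2) / (a / ((a + b) / 2)))⁻¹) =
      p - (p + q) / 2 * (a / ((a + b) / 2)) := by field_simp
  rw [e] at h
  unfold persp
  linarith

lemma persp_jensen {ι : Type*} [Fintype ι] [Nonempty ι] (p q : ι → ℝ) (hp : ∀ i, 0 ≤ p i)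
    (hq : ∀ i, 0 ≤ q i) :
    persp ((∑ i, p i) / Fintype.card ι) ((∑ i, q i) / Fintype.card ι) ≤
      (∑ i, persp (p i) (q i)) / Fintype.card ι := by
  have hN : (0 : ℝ) < Fintype.card ι := by exact_mod_cast Fintype.card_pos
  set a := (∑ i, p i) / Fintype.card ι with hadef
  set b := (∑ i, q i) / Fintype.card ι with hbdef
  have ha : 0 ≤ a := div_nonneg (Finset.sum_nonneg fun i _ => hp i) hN.le
  have hb : 0 ≤ b := div_nonneg (Finset.sum_nonneg fun i _ => hq i) hN.le
  have hzero : a = 0 → ∀ i, p i = 0 := fun h i => by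
    rw [hadef, div_eq_zero_iff] at h
    exact (Finset.sum_eq_zero_iff_of_nonneg fun i _ => hp i).1 (h.resolve_right hN.ne') i
      (Finset.mem_univ i)
  have h := Finset.sum_le_sum fun i (_ : i ∈ Finset.univ) =>
    persp_tangent (hp i) (hq i) ha hb fun h => hzero h i
  rw [le_div_iff₀ hN]
  refine le_trans (le_of_eq ?_) h
  simp only [Finset.sum_add_distrib, Finset.sum_sub_distrib, ← Finset.sum_mul,
    ← Finset.sum_div, persp]
  have e1 : ∑ i, p i = a * Fintype.card ι := by rw [hadef]; field_simp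
  have e2 : ∑ i, q i = b * Fintype.card ι := by rw [hbdef]; field_simp
  rw [e1, e2]
  rcases eq_or_ne ((a + b) / 2) 0 with h0 | h0
  · have : a = 0 := by linarith
    simp [this]
  · have : a + b ≠ 0 := fun h' => h0 (by rw [h', zero_div])
    field_simp
    ring

lemma gapEnt_jensen {ι : Type*} [Fintype ι] [Nonempty ι] (u v : ι → ℝ)
    (hu : ∀ i, u i ∈ Icc (0 : ℝ) 1) (hv : ∀ i, v i ∈ Icc (0 : ℝ) 1) :
    gapEnt ((∑ i, u i) / Fintype.card ι) ((∑ i, v i) / Fintype.card ι) ≤
      (∑ i, gapEnt (u i) (v i)) / Fintype.card ι := by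
  have hN : (0 : ℝ) < Fintype.card ι := by exact_mod_cast Fintype.card_pos
  have hmem : ∀ w : ι → ℝ, (∀ i, w i ∈ Icc (0 : ℝ) 1) →
      (∑ i, w i) / Fintype.card ι ∈ Icc (0 : ℝ) 1 ∧
      (∑ i, (1 - w i)) / Fintype.card ι = 1 - (∑ i, w i) / Fintype.card ι := fun w hw => by
    refine ⟨⟨div_nonneg (Finset.sum_nonneg fun i _ => (hw i).1) hN.le, ?_⟩, ?_⟩
    · rw [div_le_one hN]
      exact (Finset.sum_le_sum fun i _ => (hw i).2).trans (by simp)
    · rw [Finset.sum_sub_distrib, sub_div]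
      simp
  obtain ⟨hmu, eu⟩ := hmem u hu
  obtain ⟨hmv, ev⟩ := hmem v hv
  have a := persp_jensen u v (fun i => (hu i).1) (fun i => (hv i).1)
  have b := persp_jensen v u (fun i => (hv i).1) (fun i => (hu i).1)
  have c := persp_jensen (fun i => 1 - u i) (fun i => 1 - v i) (fun i => by linarith [(hu i).2])
    (fun i => by linarith [(hv i).2])
  have d := persp_jensen (fun i => 1 - v i) (fun i => 1 - u i) (fun i => by linarith [(hv i).2])
    (fun i => by linarith [(hu i).2])
  rw [eu, ev] at c d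
  rw [gapEnt_eq_persp hmu hmv, Finset.sum_congr rfl fun i _ => gapEnt_eq_persp (hu i) (hv i),
    ← Finset.sum_div, Finset.sum_add_distrib, Finset.sum_add_distrib, Finset.sum_add_distrib]
  field_simp at a b c d ⊢
  linarith

end Vale.Agent.P322
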