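import Mathlib
import Vale.Agent.P322.Reduce

/-!
P322: the two one-variable functions are nonnegative on an interval as soon as they are at its
endpoints.
-/

open Real Set

namespace Vale.Agent.P322

lemma ge_of_ends {f : ℝ → ℝ} {x y d : ℝ} (hf : ConcaveOn ℝ (Icc x y) f) (hd : d ∈ Icc x y)
    (hx : 0 ≤ f x) (hy : 0 ≤ f y) : 0 ≤ f d := by
  have hxy : x ≤ y := hd.1.trans hd.2
  exact le_trans (le_min hx hy)
    (hf.ge_on_segment ⟨le_rfl, hxy⟩ ⟨hxy, le_rfl⟩ (by rwa [segment_eq_Icc hxy]))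

lemma hasDerivAt_endMid {c θ k d : ℝ} (h0 : -1 < d) (h1 : d < 1) :
    HasDerivAt (endMid c θ k) (θ * (shapeDeriv c ((1 + d) / 2) * (1 / 2)) + k) d := by
  have := (((hasDerivAt_shape (c := c) (μ := (1 + d) / 2) (by linarith) (by linarith)).comp d
    (((hasDerivAt_id d).const_add 1).div_const 2)).const_mul θ).add
      ((hasDerivAt_id d).const_mul k)
  refine (this.sub_const 1).congr_deriv ?_
  simp only [mul_one]

lemma endMid_ge_ends {c θ k x y d : ℝ} (hc : 0 ≤ c) (hc1 : c ≤ 1) (hθ : 0 ≤ θ) (hx : 0 < x)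
    (hy : y < 1) (hd : d ∈ Icc x y) (h0 : 0 ≤ endMid c θ k x) (h1 : 0 ≤ endMid c θ k y) :
    0 ≤ endMid c θ k d := by
  refine ge_of_ends (concaveOn_of_hasDerivWithinAt2_nonpos (convex_Icc x y) ?_
    (f' := fun d => θ * (shapeDeriv c ((1 + d) / 2) * (1 / 2)) + k)
    (f'' := fun d => θ * (shapeDeriv2 c ((1 + d) / 2) * (1 / 2) * (1 / 2))) ?_ ?_ ?_) hd h0 h1
  · have := continuous_shape c
    unfold endMid
    fun_prop
  · intro s hs
    rw [interior_Icc] at hs
    exact (hasDerivAt_endMid (by linarith [hs.1]) (by linarith [hs.2])).hasDerivWithinAt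
  · intro s hs
    rw [interior_Icc] at hs
    have := ((((hasDerivAt_shapeDeriv (c := c) (μ := (1 + s) / 2) (by linarith [hs.1])
      (by linarith [hs.2])).comp s (((hasDerivAt_id s).const_add 1).div_const 2)).mul_const
        (1 / 2)).const_mul θ).add_const k
    exact this.hasDerivWithinAt
  · intro s hs
    rw [interior_Icc] at hs
    have hm : 0 < (1 + s) / 2 * (1 - (1 + s) / 2) :=
      mul_pos (by linarith [hs.1]) (by linarith [hs.2])
    have hL : 0 ≤ c / log 2 := by positivity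
    have : shapeDeriv2 c ((1 + s) / 2) ≤ 0 := by
      have := mul_nonneg hL (one_div_nonneg.2 hm.le)
      unfold shapeDeriv2
      linarith
    nlinarith [mul_nonpos_of_nonneg_of_nonpos hθ this]

/-- `endEdge / d`, written out. -/
noncomputable def edgeRate (c θ k d : ℝ) : ℝ :=
  (1 - c) * (2 * θ * (1 - d) - 2 + d) +
    c / log 2 * ((θ / 2 * binEntropy d - binEntropy (d / 2)) / d) + k

lemma endEdge_eq {c θ k d : ℝ} (hd : d ≠ 0) : endEdge c θ k d = d * edgeRate c θ k d := by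
  unfold endEdge edgeRate shape
  field_simp
  ring

lemma hasDerivAt_edgeRate {c θ k d : ℝ} (h0 : 0 < d) (h1 : d < 1) :
    HasDerivAt (edgeRate c θ k)
      ((1 - c) * (1 - 2 * θ) + c / log 2 * ((θ / 2 * log (1 - d) - log (1 - d / 2)) / d ^ 2)) d := by
  have a := ((((((hasDerivAt_id d).const_sub 1).const_mul (2 * θ)).sub_const 2).add
    (hasDerivAt_id d))).const_mul (1 - c)
  have b := (((hasDerivAt_binEntropy h0.ne' h1.ne).const_mul (θ / 2)).sub
    ((hasDerivAt_binEntropy (p := d / 2) (by linarith) (by linarith)).comp d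
      ((hasDerivAt_id d).div_const 2))).div (hasDerivAt_id d) h0.ne'
  refine ((a.add (b.const_mul (c / log 2))).add_const k).congr_deriv ?_
  simp only [binEntropy_eq_negMulLog_add_negMulLog_one_sub, negMulLog_def, id_eq,
    Function.comp_apply, Pi.sub_apply]
  rw [show d / 2 = d * (1 / 2) by ring, log_mul h0.ne' (by norm_num)]
  field_simp
  ring

lemma edge_num_nonpos {θ d : ℝ} (hθ : 0 ≤ θ) (hθ1 : θ ≤ 1) (h0 : 0 ≤ d) (h1 : d < 1) :
    d * (-θ / (2 * (1 - d)) + 1 / (2 - d)) - 2 * (θ / 2 * log (1 - d) - log (1 - d / 2)) ≤ 0 := by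
  have key : AntitoneOn
      (fun s => s * (-θ / (2 * (1 - s)) + 1 / (2 - s)) -
        2 * (θ / 2 * log (1 - s) - log (1 - s / 2))) (Icc 0 d) := by
    have hd : ∀ s ∈ Icc 0 d, HasDerivAt (fun s => s * (-θ / (2 * (1 - s)) + 1 / (2 - s)) -
        2 * (θ / 2 * log (1 - s) - log (1 - s / 2)))
        ((θ * ((1 - 2 * s) * (2 - s) ^ 2) - 4 * (1 - s) ^ 3) /
          (2 * (1 - s) ^ 2 * (2 - s) ^ 2)) s := fun s hs => by
      have s1 : 1 - s ≠ 0 := by linarith [hs.2]
      have s2 : 2 - s ≠ 0 := by linarith [hs.2]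
      have s3 : 1 - s / 2 ≠ 0 := by linarith [hs.2]
      have A := ((hasDerivAt_const s (-θ)).div (((hasDerivAt_id s).const_sub 1).const_mul 2)
        (mul_ne_zero two_ne_zero s1)).add
        ((hasDerivAt_const s (1 : ℝ)).div ((hasDerivAt_id s).const_sub 2) s2)
      have B := ((((hasDerivAt_id s).const_sub 1).log s1).const_mul (θ / 2)).sub
        ((((hasDerivAt_id s).div_const 2).const_sub 1).log s3)
      refine (((hasDerivAt_id s).mul A).sub (B.const_mul 2)).congr_deriv ?_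
      simp only [id_eq, Pi.add_apply, Pi.div_apply]
      field_simp
      ring
    refine antitoneOn_of_hasDerivWithinAt_nonpos (convex_Icc 0 d)
      (fun s hs => (hd s hs).continuousAt.continuousWithinAt)
      (fun s hs => (hd s (interior_subset hs)).hasDerivWithinAt) fun s hs => ?_
    obtain ⟨s0, sd⟩ := interior_subset hs
    have e : (0 : ℝ) ≤ (1 - s) ^ 3 := pow_nonneg (by linarith) 3
    refine div_nonpos_of_nonpos_of_nonneg ?_ (by positivity)
    rcases le_total ((1 - 2 * s) * (2 - s) ^ 2) 0 with hneg | hp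
    · nlinarith [mul_nonpos_of_nonneg_of_nonpos hθ hneg]
    · nlinarith [mul_le_mul_of_nonneg_right hθ1 hp, sq_nonneg s,
        mul_nonneg (sq_nonneg s) (by linarith : 0 ≤ 3 - 2 * s)]
  have := key ⟨le_rfl, h0⟩ ⟨h0, le_rfl⟩ h0
  simpa using this

lemma endEdge_ge_ends {c θ k x y d : ℝ} (hc : 0 ≤ c) (hθ : 0 ≤ θ) (hθ1 : θ ≤ 1)
    (hx : 0 < x) (hy : y < 1) (hd : d ∈ Icc x y) (h0 : 0 ≤ endEdge c θ k x)
    (h1 : 0 ≤ endEdge c θ k y) : 0 ≤ endEdge c θ k d := by
  have hy0 : 0 < y := hx.trans_le (hd.1.trans hd.2)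
  rw [endEdge_eq hx.ne', mul_nonneg_iff_of_pos_left hx] at h0
  rw [endEdge_eq hy0.ne', mul_nonneg_iff_of_pos_left hy0] at h1
  have hd0 : 0 < d := hx.trans_le hd.1
  rw [endEdge_eq hd0.ne']
  refine mul_nonneg hd0.le (ge_of_ends (concaveOn_of_hasDerivWithinAt2_nonpos (convex_Icc x y)
    (f' := fun d => (1 - c) * (1 - 2 * θ) +
      c / log 2 * ((θ / 2 * log (1 - d) - log (1 - d / 2)) / d ^ 2))
    (f'' := fun d => c / log 2 * ((d * (-θ / (2 * (1 - d)) + 1 / (2 - d)) -
      2 * (θ / 2 * log (1 - d) - log (1 - d / 2))) / d ^ 3)) ?_ ?_ ?_ ?_) hd h0 h1)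
  · exact fun s hs => (hasDerivAt_edgeRate (lt_of_lt_of_le hx hs.1)
      (lt_of_le_of_lt hs.2 hy)).continuousAt.continuousWithinAt
  · intro s hs
    rw [interior_Icc] at hs
    exact (hasDerivAt_edgeRate (hx.trans hs.1) (hs.2.trans hy)).hasDerivWithinAt
  · intro s hs
    rw [interior_Icc] at hs
    have s0 : s ≠ 0 := (hx.trans hs.1).ne'
    have s1 : 1 - s ≠ 0 := by linarith [hs.2]
    have s2 : 2 - s ≠ 0 := by linarith [hs.2]
    have s3 : 1 - s / 2 ≠ 0 := by linarith [hs.2]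
    have B := ((((hasDerivAt_id s).const_sub 1).log s1).const_mul (θ / 2)).sub
      ((((hasDerivAt_id s).div_const 2).const_sub 1).log s3)
    have := ((B.div (hasDerivAt_pow 2 s) (pow_ne_zero 2 s0)).const_mul (c / log 2)).const_add
      ((1 - c) * (1 - 2 * θ))
    refine (this.congr_deriv ?_).hasDerivWithinAt
    simp only [id_eq, Pi.sub_apply]
    field_simp
    ring
  · intro s hs
    rw [interior_Icc] at hs
    exact mul_nonpos_of_nonneg_of_nonpos (by positivity) (div_nonpos_of_nonpos_of_nonneg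
      (edge_num_nonpos hθ hθ1 (hx.trans hs.1).le (hs.2.trans hy))
      (pow_nonneg (hx.trans hs.1).le 3))

/-- Both functions are linear in `c`. -/
lemma ends_linear {c C θ k d : ℝ} (hc : 0 ≤ c) (hcC : c ≤ C) :
    (0 ≤ endMid 0 θ k d → 0 ≤ endMid C θ k d → 0 ≤ endMid c θ k d) ∧
      (0 ≤ endEdge 0 θ k d → 0 ≤ endEdge C θ k d → 0 ≤ endEdge c θ k d) := by
  rcases (hc.trans hcC).eq_or_lt with rfl | hC
  · rw [le_antisymm hcC hc]; exact ⟨fun _ h => h, fun _ h => h⟩
  have w0 : 0 ≤ 1 - c / C := sub_nonneg.2 ((div_le_one hC).2 hcC)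
  have w1 : 0 ≤ c / C := by positivity
  constructor <;> intro h h'
  · have e : endMid c θ k d = (1 - c / C) * endMid 0 θ k d + c / C * endMid C θ k d := by
      simp only [endMid, shape]; field_simp; ring
    rw [e]; positivity
  · have e : endEdge c θ k d = (1 - c / C) * endEdge 0 θ k d + c / C * endEdge C θ k d := by
      simp only [endEdge, shape]; field_simp; ring
    rw [e]; positivity

end Vale.Agent.P322
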