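import Mathlib
import Vale.Agent.P322.Bound
import Vale.Agent.P322.Ends

/-!
P322: four certificates at crossover `3/200` cover the middle distances.
-/

open Real Set

namespace Vale.Agent.P322

lemma certA : ∃ θ k, Cert (3 / 200) θ k ∧ (9883 / 10000 : ℝ) ≤ θ ∧ θ ≤ 1 ∧
    (3759 / 10000 : ℝ) * binEntropy (3 / 200) ≤ k := by
  have hq : (3 / 200 : ℝ) + (1 - 2 * (3 / 200)) * (1 / 4 : ℝ) = (103 / 400 : ℝ) := by norm_num
  have hd1 : (1 : ℝ) - (1 / 4 : ℝ) = (3 / 4 : ℝ) := by norm_num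
  have hq1 : (1 : ℝ) - (103 / 400 : ℝ) = (297 / 400 : ℝ) := by norm_num
  obtain ⟨-, hθ1⟩ := tanTheta_mem (ε := 3 / 200) (d := (1 / 4 : ℝ)) (by norm_num) (by norm_num)
    (by norm_num) (by norm_num)
  obtain ⟨a1, a2⟩ := log_103_400
  obtain ⟨b1, b2⟩ := log_297_400
  obtain ⟨c1, c2⟩ := log_1_4
  obtain ⟨d1, d2⟩ := log_3_4
  have hθ : tanTheta (3 / 200) (1 / 4 : ℝ) =
      (log (103 / 400 : ℝ) + log (297 / 400 : ℝ)) / (log (1 / 4 : ℝ) + log (3 / 4 : ℝ)) := by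
    rw [tanTheta, hq, hd1, hq1, log_mul (by norm_num) (by norm_num),
      log_mul (by norm_num) (by norm_num)]
  have hneg : log (1 / 4 : ℝ) + log (3 / 4 : ℝ) < 0 := by linarith
  have hlo : (9883 / 10000 : ℝ) ≤ tanTheta (3 / 200) (1 / 4 : ℝ) := by
    rw [hθ, le_div_iff_of_neg hneg]; linarith
  have hhi : tanTheta (3 / 200) (1 / 4 : ℝ) ≤ (988349 / 1000000 : ℝ) := by
    rw [hθ, div_le_iff_of_neg hneg]; linarith
  refine ⟨_, _, cert_tangent (by norm_num) (by norm_num) (by norm_num) (by norm_num) ?_,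
    hlo, hθ1, ?_⟩
  · rw [hq]; norm_num; linarith
  · rw [tanSlope, hq, le_div_iff₀ (by norm_num)]
    have e := mul_le_mul hhi ent_1_4.2 (binEntropy_nonneg (by norm_num) (by norm_num))
      (by norm_num : (0 : ℝ) ≤ (988349 / 1000000 : ℝ))
    linarith [ent_3_200.2, ent_103_400.1]

lemma endsA_x : 0 ≤ endMid 0 (9883 / 10000 : ℝ) (3759 / 10000 : ℝ) (7 / 200 : ℝ) ∧
    0 ≤ endMid (727 / 2000) (9883 / 10000 : ℝ) (3759 / 10000 : ℝ) (7 / 200 : ℝ) ∧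
    0 ≤ endEdge 0 (9883 / 10000 : ℝ) (3759 / 10000 : ℝ) (7 / 200 : ℝ) ∧
    0 ≤ endEdge (727 / 2000) (9883 / 10000 : ℝ) (3759 / 10000 : ℝ) (7 / 200 : ℝ) := by
  have hL : (0 : ℝ) < log 2 := by linarith [log_two_gt_d9]
  have hm : binEntropy ((1 + (7 / 200 : ℝ)) / 2) = binEntropy (193 / 400 : ℝ) := by
    rw [← binEntropy_one_sub]; norm_num
  obtain ⟨m1, m2⟩ := ent_193_400
  obtain ⟨d1, d2⟩ := ent_7_200
  obtain ⟨h1, h2⟩ := ent_7_400
  refine ⟨?_, ?_, ?_, ?_⟩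
  · norm_num [endMid, shape]
  · simp only [endMid, shape, hm]
    rw [show binEntropy (193 / 400 : ℝ) / log 2 = (log 2)⁻¹ * binEntropy (193 / 400 : ℝ) by ring]
    have u := mul_le_mul (inv_anti₀ hL log_two_lt_d9.le) m1 (by norm_num) (by positivity)
    norm_num at u ⊢
    linarith
  · norm_num [endEdge, shape]
  · simp only [endEdge, shape]
    rw [show (7 / 200 : ℝ) / 2 = (7 / 400 : ℝ) by norm_num,
      show binEntropy (7 / 200 : ℝ) / log 2 = (log 2)⁻¹ * binEntropy (7 / 200 : ℝ) by ring,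
      show binEntropy (7 / 400 : ℝ) / log 2 = (log 2)⁻¹ * binEntropy (7 / 400 : ℝ) by ring]
    have u := mul_le_mul (inv_anti₀ hL log_two_lt_d9.le) d1 (by norm_num) (by positivity)
    have v := mul_le_mul (inv_anti₀ (by norm_num) log_two_gt_d9.le) h2
      (binEntropy_nonneg (by norm_num) (by norm_num)) (by norm_num)
    norm_num at u v ⊢
    linarith

lemma endsA_y : 0 ≤ endMid 0 (9883 / 10000 : ℝ) (3759 / 10000 : ℝ) (1 / 5 : ℝ) ∧
    0 ≤ endMid (727 / 2000) (9883 / 10000 : ℝ) (3759 / 10000 : ℝ) (1 / 5 : ℝ) ∧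
    0 ≤ endEdge 0 (9883 / 10000 : ℝ) (3759 / 10000 : ℝ) (1 / 5 : ℝ) ∧
    0 ≤ endEdge (727 / 2000) (9883 / 10000 : ℝ) (3759 / 10000 : ℝ) (1 / 5 : ℝ) := by
  have hL : (0 : ℝ) < log 2 := by linarith [log_two_gt_d9]
  have hm : binEntropy ((1 + (1 / 5 : ℝ)) / 2) = binEntropy (2 / 5 : ℝ) := by
    rw [← binEntropy_one_sub]; norm_num
  obtain ⟨m1, m2⟩ := ent_2_5
  obtain ⟨d1, d2⟩ := ent_1_5
  obtain ⟨h1, h2⟩ := ent_1_10
  refine ⟨?_, ?_, ?_, ?_⟩
  · norm_num [endMid, shape]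
  · simp only [endMid, shape, hm]
    rw [show binEntropy (2 / 5 : ℝ) / log 2 = (log 2)⁻¹ * binEntropy (2 / 5 : ℝ) by ring]
    have u := mul_le_mul (inv_anti₀ hL log_two_lt_d9.le) m1 (by norm_num) (by positivity)
    norm_num at u ⊢
    linarith
  · norm_num [endEdge, shape]
  · simp only [endEdge, shape]
    rw [show (1 / 5 : ℝ) / 2 = (1 / 10 : ℝ) by norm_num,
      show binEntropy (1 / 5 : ℝ) / log 2 = (log 2)⁻¹ * binEntropy (1 / 5 : ℝ) by ring,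
      show binEntropy (1 / 10 : ℝ) / log 2 = (log 2)⁻¹ * binEntropy (1 / 10 : ℝ) by ring]
    have u := mul_le_mul (inv_anti₀ hL log_two_lt_d9.le) d1 (by norm_num) (by positivity)
    have v := mul_le_mul (inv_anti₀ (by norm_num) log_two_gt_d9.le) h2
      (binEntropy_nonneg (by norm_num) (by norm_num)) (by norm_num)
    norm_num at u v ⊢
    linarith


lemma certB : ∃ θ k, Cert (3 / 200) θ k ∧ (2417 / 2500 : ℝ) ≤ θ ∧ θ ≤ 1 ∧
    (723 / 1250 : ℝ) * binEntropy (3 / 200) ≤ k := by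
  have hq : (3 / 200 : ℝ) + (1 - 2 * (3 / 200)) * (1 / 8 : ℝ) = (109 / 800 : ℝ) := by norm_num
  have hd1 : (1 : ℝ) - (1 / 8 : ℝ) = (7 / 8 : ℝ) := by norm_num
  have hq1 : (1 : ℝ) - (109 / 800 : ℝ) = (691 / 800 : ℝ) := by norm_num
  obtain ⟨-, hθ1⟩ := tanTheta_mem (ε := 3 / 200) (d := (1 / 8 : ℝ)) (by norm_num) (by norm_num)
    (by norm_num) (by norm_num)
  obtain ⟨a1, a2⟩ := log_109_800
  obtain ⟨b1, b2⟩ := log_691_800
  obtain ⟨c1, c2⟩ := log_1_8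
  obtain ⟨d1, d2⟩ := log_7_8
  have hθ : tanTheta (3 / 200) (1 / 8 : ℝ) =
      (log (109 / 800 : ℝ) + log (691 / 800 : ℝ)) / (log (1 / 8 : ℝ) + log (7 / 8 : ℝ)) := by
    rw [tanTheta, hq, hd1, hq1, log_mul (by norm_num) (by norm_num),
      log_mul (by norm_num) (by norm_num)]
  have hneg : log (1 / 8 : ℝ) + log (7 / 8 : ℝ) < 0 := by linarith
  have hlo : (2417 / 2500 : ℝ) ≤ tanTheta (3 / 200) (1 / 8 : ℝ) := by
    rw [hθ, le_div_iff_of_neg hneg]; linarith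
  have hhi : tanTheta (3 / 200) (1 / 8 : ℝ) ≤ (241727 / 250000 : ℝ) := by
    rw [hθ, div_le_iff_of_neg hneg]; linarith
  refine ⟨_, _, cert_tangent (by norm_num) (by norm_num) (by norm_num) (by norm_num) ?_,
    hlo, hθ1, ?_⟩
  · rw [hq]; norm_num; linarith
  · rw [tanSlope, hq, le_div_iff₀ (by norm_num)]
    have e := mul_le_mul hhi ent_1_8.2 (binEntropy_nonneg (by norm_num) (by norm_num))
      (by norm_num : (0 : ℝ) ≤ (241727 / 250000 : ℝ))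
    linarith [ent_3_200.2, ent_109_800.1]

lemma endsB_x : 0 ≤ endMid 0 (2417 / 2500 : ℝ) (723 / 1250 : ℝ) (1 / 5 : ℝ) ∧
    0 ≤ endMid (727 / 2000) (2417 / 2500 : ℝ) (723 / 1250 : ℝ) (1 / 5 : ℝ) ∧
    0 ≤ endEdge 0 (2417 / 2500 : ℝ) (723 / 1250 : ℝ) (1 / 5 : ℝ) ∧
    0 ≤ endEdge (727 / 2000) (2417 / 2500 : ℝ) (723 / 1250 : ℝ) (1 / 5 : ℝ) := by
  have hL : (0 : ℝ) < log 2 := by linarith [log_two_gt_d9]
  have hm : binEntropy ((1 + (1 / 5 : ℝ)) / 2) = binEntropy (2 / 5 : ℝ) := by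
    rw [← binEntropy_one_sub]; norm_num
  obtain ⟨m1, m2⟩ := ent_2_5
  obtain ⟨d1, d2⟩ := ent_1_5
  obtain ⟨h1, h2⟩ := ent_1_10
  refine ⟨?_, ?_, ?_, ?_⟩
  · norm_num [endMid, shape]
  · simp only [endMid, shape, hm]
    rw [show binEntropy (2 / 5 : ℝ) / log 2 = (log 2)⁻¹ * binEntropy (2 / 5 : ℝ) by ring]
    have u := mul_le_mul (inv_anti₀ hL log_two_lt_d9.le) m1 (by norm_num) (by positivity)
    norm_num at u ⊢
    linarith
  · norm_num [endEdge, shape]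
  · simp only [endEdge, shape]
    rw [show (1 / 5 : ℝ) / 2 = (1 / 10 : ℝ) by norm_num,
      show binEntropy (1 / 5 : ℝ) / log 2 = (log 2)⁻¹ * binEntropy (1 / 5 : ℝ) by ring,
      show binEntropy (1 / 10 : ℝ) / log 2 = (log 2)⁻¹ * binEntropy (1 / 10 : ℝ) by ring]
    have u := mul_le_mul (inv_anti₀ hL log_two_lt_d9.le) d1 (by norm_num) (by positivity)
    have v := mul_le_mul (inv_anti₀ (by norm_num) log_two_gt_d9.le) h2
      (binEntropy_nonneg (by norm_num) (by norm_num)) (by norm_num)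
    norm_num at u v ⊢
    linarith

lemma endsB_y : 0 ≤ endMid 0 (2417 / 2500 : ℝ) (723 / 1250 : ℝ) (9 / 20 : ℝ) ∧
    0 ≤ endMid (727 / 2000) (2417 / 2500 : ℝ) (723 / 1250 : ℝ) (9 / 20 : ℝ) ∧
    0 ≤ endEdge 0 (2417 / 2500 : ℝ) (723 / 1250 : ℝ) (9 / 20 : ℝ) ∧
    0 ≤ endEdge (727 / 2000) (2417 / 2500 : ℝ) (723 / 1250 : ℝ) (9 / 20 : ℝ) := by
  have hL : (0 : ℝ) < log 2 := by linarith [log_two_gt_d9]
  have hm : binEntropy ((1 + (9 / 20 : ℝ)) / 2) = binEntropy (11 / 40 : ℝ) := by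
    rw [← binEntropy_one_sub]; norm_num
  obtain ⟨m1, m2⟩ := ent_11_40
  obtain ⟨d1, d2⟩ := ent_9_20
  obtain ⟨h1, h2⟩ := ent_9_40
  refine ⟨?_, ?_, ?_, ?_⟩
  · norm_num [endMid, shape]
  · simp only [endMid, shape, hm]
    rw [show binEntropy (11 / 40 : ℝ) / log 2 = (log 2)⁻¹ * binEntropy (11 / 40 : ℝ) by ring]
    have u := mul_le_mul (inv_anti₀ hL log_two_lt_d9.le) m1 (by norm_num) (by positivity)
    norm_num at u ⊢
    linarith
  · norm_num [endEdge, shape]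
  · simp only [endEdge, shape]
    rw [show (9 / 20 : ℝ) / 2 = (9 / 40 : ℝ) by norm_num,
      show binEntropy (9 / 20 : ℝ) / log 2 = (log 2)⁻¹ * binEntropy (9 / 20 : ℝ) by ring,
      show binEntropy (9 / 40 : ℝ) / log 2 = (log 2)⁻¹ * binEntropy (9 / 40 : ℝ) by ring]
    have u := mul_le_mul (inv_anti₀ hL log_two_lt_d9.le) d1 (by norm_num) (by positivity)
    have v := mul_le_mul (inv_anti₀ (by norm_num) log_two_gt_d9.le) h2
      (binEntropy_nonneg (by norm_num) (by norm_num)) (by norm_num)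
    norm_num at u v ⊢
    linarith


lemma certC : ∃ θ k, Cert (3 / 200) θ k ∧ (1857 / 2500 : ℝ) ≤ θ ∧ θ ≤ 1 ∧
    (1921 / 2000 : ℝ) * binEntropy (3 / 200) ≤ k := by
  have hq : (3 / 200 : ℝ) + (1 - 2 * (3 / 200)) * (1 / 200 : ℝ) = (397 / 20000 : ℝ) := by norm_num
  have hd1 : (1 : ℝ) - (1 / 200 : ℝ) = (199 / 200 : ℝ) := by norm_num
  have hq1 : (1 : ℝ) - (397 / 20000 : ℝ) = (19603 / 20000 : ℝ) := by norm_num
  obtain ⟨-, hθ1⟩ := tanTheta_mem (ε := 3 / 200) (d := (1 / 200 : ℝ)) (by norm_num) (by norm_num)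
    (by norm_num) (by norm_num)
  obtain ⟨a1, a2⟩ := log_397_20000
  obtain ⟨b1, b2⟩ := log_19603_20000
  obtain ⟨c1, c2⟩ := log_1_200
  obtain ⟨d1, d2⟩ := log_199_200
  have hθ : tanTheta (3 / 200) (1 / 200 : ℝ) =
      (log (397 / 20000 : ℝ) + log (19603 / 20000 : ℝ)) / (log (1 / 200 : ℝ) + log (199 / 200 : ℝ)) := by
    rw [tanTheta, hq, hd1, hq1, log_mul (by norm_num) (by norm_num),
      log_mul (by norm_num) (by norm_num)]
  have hneg : log (1 / 200 : ℝ) + log (199 / 200 : ℝ) < 0 := by linarith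
  have hlo : (1857 / 2500 : ℝ) ≤ tanTheta (3 / 200) (1 / 200 : ℝ) := by
    rw [hθ, le_div_iff_of_neg hneg]; linarith
  have hhi : tanTheta (3 / 200) (1 / 200 : ℝ) ≤ (742857 / 1000000 : ℝ) := by
    rw [hθ, div_le_iff_of_neg hneg]; linarith
  refine ⟨_, _, cert_tangent (by norm_num) (by norm_num) (by norm_num) (by norm_num) ?_,
    hlo, hθ1, ?_⟩
  · rw [hq]; norm_num; linarith
  · rw [tanSlope, hq, le_div_iff₀ (by norm_num)]
    have e := mul_le_mul hhi ent_1_200.2 (binEntropy_nonneg (by norm_num) (by norm_num))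
      (by norm_num : (0 : ℝ) ≤ (742857 / 1000000 : ℝ))
    linarith [ent_3_200.2, ent_397_20000.1]

lemma endsC_x : 0 ≤ endMid 0 (1857 / 2500 : ℝ) (1921 / 2000 : ℝ) (9 / 20 : ℝ) ∧
    0 ≤ endMid (727 / 2000) (1857 / 2500 : ℝ) (1921 / 2000 : ℝ) (9 / 20 : ℝ) ∧
    0 ≤ endEdge 0 (1857 / 2500 : ℝ) (1921 / 2000 : ℝ) (9 / 20 : ℝ) ∧
    0 ≤ endEdge (727 / 2000) (1857 / 2500 : ℝ) (1921 / 2000 : ℝ) (9 / 20 : ℝ) := by
  have hL : (0 : ℝ) < log 2 := by linarith [log_two_gt_d9]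
  have hm : binEntropy ((1 + (9 / 20 : ℝ)) / 2) = binEntropy (11 / 40 : ℝ) := by
    rw [← binEntropy_one_sub]; norm_num
  obtain ⟨m1, m2⟩ := ent_11_40
  obtain ⟨d1, d2⟩ := ent_9_20
  obtain ⟨h1, h2⟩ := ent_9_40
  refine ⟨?_, ?_, ?_, ?_⟩
  · norm_num [endMid, shape]
  · simp only [endMid, shape, hm]
    rw [show binEntropy (11 / 40 : ℝ) / log 2 = (log 2)⁻¹ * binEntropy (11 / 40 : ℝ) by ring]
    have u := mul_le_mul (inv_anti₀ hL log_two_lt_d9.le) m1 (by norm_num) (by positivity)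
    norm_num at u ⊢
    linarith
  · norm_num [endEdge, shape]
  · simp only [endEdge, shape]
    rw [show (9 / 20 : ℝ) / 2 = (9 / 40 : ℝ) by norm_num,
      show binEntropy (9 / 20 : ℝ) / log 2 = (log 2)⁻¹ * binEntropy (9 / 20 : ℝ) by ring,
      show binEntropy (9 / 40 : ℝ) / log 2 = (log 2)⁻¹ * binEntropy (9 / 40 : ℝ) by ring]
    have u := mul_le_mul (inv_anti₀ hL log_two_lt_d9.le) d1 (by norm_num) (by positivity)
    have v := mul_le_mul (inv_anti₀ (by norm_num) log_two_gt_d9.le) h2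
      (binEntropy_nonneg (by norm_num) (by norm_num)) (by norm_num)
    norm_num at u v ⊢
    linarith

lemma endsC_y : 0 ≤ endMid 0 (1857 / 2500 : ℝ) (1921 / 2000 : ℝ) (22 / 25 : ℝ) ∧
    0 ≤ endMid (727 / 2000) (1857 / 2500 : ℝ) (1921 / 2000 : ℝ) (22 / 25 : ℝ) ∧
    0 ≤ endEdge 0 (1857 / 2500 : ℝ) (1921 / 2000 : ℝ) (22 / 25 : ℝ) ∧
    0 ≤ endEdge (727 / 2000) (1857 / 2500 : ℝ) (1921 / 2000 : ℝ) (22 / 25 : ℝ) := by
  have hL : (0 : ℝ) < log 2 := by linarith [log_two_gt_d9]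
  have hm : binEntropy ((1 + (22 / 25 : ℝ)) / 2) = binEntropy (3 / 50 : ℝ) := by
    rw [← binEntropy_one_sub]; norm_num
  have hd : binEntropy (22 / 25 : ℝ) = binEntropy (3 / 25 : ℝ) := by
    rw [← binEntropy_one_sub]; norm_num
  obtain ⟨m1, m2⟩ := ent_3_50
  obtain ⟨d1, d2⟩ := ent_3_25
  obtain ⟨h1, h2⟩ := ent_11_25
  refine ⟨?_, ?_, ?_, ?_⟩
  · norm_num [endMid, shape]
  · simp only [endMid, shape, hm]
    rw [show binEntropy (3 / 50 : ℝ) / log 2 = (log 2)⁻¹ * binEntropy (3 / 50 : ℝ) by ring]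
    have u := mul_le_mul (inv_anti₀ hL log_two_lt_d9.le) m1 (by norm_num) (by positivity)
    norm_num at u ⊢
    linarith
  · norm_num [endEdge, shape]
  · simp only [endEdge, shape, hd]
    rw [show (22 / 25 : ℝ) / 2 = (11 / 25 : ℝ) by norm_num,
      show binEntropy (3 / 25 : ℝ) / log 2 = (log 2)⁻¹ * binEntropy (3 / 25 : ℝ) by ring,
      show binEntropy (11 / 25 : ℝ) / log 2 = (log 2)⁻¹ * binEntropy (11 / 25 : ℝ) by ring]
    have u := mul_le_mul (inv_anti₀ hL log_two_lt_d9.le) d1 (by norm_num) (by positivity)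
    have v := mul_le_mul (inv_anti₀ (by norm_num) log_two_gt_d9.le) h2
      (binEntropy_nonneg (by norm_num) (by norm_num)) (by norm_num)
    norm_num at u v ⊢
    linarith


lemma certD : ∃ θ k, Cert (3 / 200) θ k ∧ (6011 / 10000 : ℝ) ≤ θ ∧ θ ≤ 1 ∧
    (4963 / 5000 : ℝ) * binEntropy (3 / 200) ≤ k := by
  have hq : (3 / 200 : ℝ) + (1 - 2 * (3 / 200)) * (1 / 1000 : ℝ) = (1597 / 100000 : ℝ) := by norm_num
  have hd1 : (1 : ℝ) - (1 / 1000 : ℝ) = (999 / 1000 : ℝ) := by norm_num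
  have hq1 : (1 : ℝ) - (1597 / 100000 : ℝ) = (98403 / 100000 : ℝ) := by norm_num
  obtain ⟨-, hθ1⟩ := tanTheta_mem (ε := 3 / 200) (d := (1 / 1000 : ℝ)) (by norm_num) (by norm_num)
    (by norm_num) (by norm_num)
  obtain ⟨a1, a2⟩ := log_1597_100000
  obtain ⟨b1, b2⟩ := log_98403_100000
  obtain ⟨c1, c2⟩ := log_1_1000
  obtain ⟨d1, d2⟩ := log_999_1000
  have hθ : tanTheta (3 / 200) (1 / 1000 : ℝ) =
      (log (1597 / 100000 : ℝ) + log (98403 / 100000 : ℝ)) / (log (1 / 1000 : ℝ) + log (999 / 1000 : ℝ)) := by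
    rw [tanTheta, hq, hd1, hq1, log_mul (by norm_num) (by norm_num),
      log_mul (by norm_num) (by norm_num)]
  have hneg : log (1 / 1000 : ℝ) + log (999 / 1000 : ℝ) < 0 := by linarith
  have hlo : (6011 / 10000 : ℝ) ≤ tanTheta (3 / 200) (1 / 1000 : ℝ) := by
    rw [hθ, le_div_iff_of_neg hneg]; linarith
  have hhi : tanTheta (3 / 200) (1 / 1000 : ℝ) ≤ (75143 / 125000 : ℝ) := by
    rw [hθ, div_le_iff_of_neg hneg]; linarith
  refine ⟨_, _, cert_tangent (by norm_num) (by norm_num) (by norm_num) (by norm_num) ?_,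
    hlo, hθ1, ?_⟩
  · rw [hq]; norm_num; linarith
  · rw [tanSlope, hq, le_div_iff₀ (by norm_num)]
    have e := mul_le_mul hhi ent_1_1000.2 (binEntropy_nonneg (by norm_num) (by norm_num))
      (by norm_num : (0 : ℝ) ≤ (75143 / 125000 : ℝ))
    linarith [ent_3_200.2, ent_1597_100000.1]

lemma endsD_x : 0 ≤ endMid 0 (6011 / 10000 : ℝ) (4963 / 5000 : ℝ) (22 / 25 : ℝ) ∧
    0 ≤ endMid (727 / 2000) (6011 / 10000 : ℝ) (4963 / 5000 : ℝ) (22 / 25 : ℝ) ∧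
    0 ≤ endEdge 0 (6011 / 10000 : ℝ) (4963 / 5000 : ℝ) (22 / 25 : ℝ) ∧
    0 ≤ endEdge (727 / 2000) (6011 / 10000 : ℝ) (4963 / 5000 : ℝ) (22 / 25 : ℝ) := by
  have hL : (0 : ℝ) < log 2 := by linarith [log_two_gt_d9]
  have hm : binEntropy ((1 + (22 / 25 : ℝ)) / 2) = binEntropy (3 / 50 : ℝ) := by
    rw [← binEntropy_one_sub]; norm_num
  have hd : binEntropy (22 / 25 : ℝ) = binEntropy (3 / 25 : ℝ) := by
    rw [← binEntropy_one_sub]; norm_num
  obtain ⟨m1, m2⟩ := ent_3_50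
  obtain ⟨d1, d2⟩ := ent_3_25
  obtain ⟨h1, h2⟩ := ent_11_25
  refine ⟨?_, ?_, ?_, ?_⟩
  · norm_num [endMid, shape]
  · simp only [endMid, shape, hm]
    rw [show binEntropy (3 / 50 : ℝ) / log 2 = (log 2)⁻¹ * binEntropy (3 / 50 : ℝ) by ring]
    have u := mul_le_mul (inv_anti₀ hL log_two_lt_d9.le) m1 (by norm_num) (by positivity)
    norm_num at u ⊢
    linarith
  · norm_num [endEdge, shape]
  · simp only [endEdge, shape, hd]
    rw [show (22 / 25 : ℝ) / 2 = (11 / 25 : ℝ) by norm_num,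
      show binEntropy (3 / 25 : ℝ) / log 2 = (log 2)⁻¹ * binEntropy (3 / 25 : ℝ) by ring,
      show binEntropy (11 / 25 : ℝ) / log 2 = (log 2)⁻¹ * binEntropy (11 / 25 : ℝ) by ring]
    have u := mul_le_mul (inv_anti₀ hL log_two_lt_d9.le) d1 (by norm_num) (by positivity)
    have v := mul_le_mul (inv_anti₀ (by norm_num) log_two_gt_d9.le) h2
      (binEntropy_nonneg (by norm_num) (by norm_num)) (by norm_num)
    norm_num at u v ⊢
    linarith

lemma endsD_y : 0 ≤ endMid 0 (6011 / 10000 : ℝ) (4963 / 5000 : ℝ) (191 / 200 : ℝ) ∧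
    0 ≤ endMid (727 / 2000) (6011 / 10000 : ℝ) (4963 / 5000 : ℝ) (191 / 200 : ℝ) ∧
    0 ≤ endEdge 0 (6011 / 10000 : ℝ) (4963 / 5000 : ℝ) (191 / 200 : ℝ) ∧
    0 ≤ endEdge (727 / 2000) (6011 / 10000 : ℝ) (4963 / 5000 : ℝ) (191 / 200 : ℝ) := by
  have hL : (0 : ℝ) < log 2 := by linarith [log_two_gt_d9]
  have hm : binEntropy ((1 + (191 / 200 : ℝ)) / 2) = binEntropy (9 / 400 : ℝ) := by
    rw [← binEntropy_one_sub]; norm_num
  have hd : binEntropy (191 / 200 : ℝ) = binEntropy (9 / 200 : ℝ) := by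
    rw [← binEntropy_one_sub]; norm_num
  obtain ⟨m1, m2⟩ := ent_9_400
  obtain ⟨d1, d2⟩ := ent_9_200
  obtain ⟨h1, h2⟩ := ent_191_400
  refine ⟨?_, ?_, ?_, ?_⟩
  · norm_num [endMid, shape]
  · simp only [endMid, shape, hm]
    rw [show binEntropy (9 / 400 : ℝ) / log 2 = (log 2)⁻¹ * binEntropy (9 / 400 : ℝ) by ring]
    have u := mul_le_mul (inv_anti₀ hL log_two_lt_d9.le) m1 (by norm_num) (by positivity)
    norm_num at u ⊢
    linarith
  · norm_num [endEdge, shape]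
  · simp only [endEdge, shape, hd]
    rw [show (191 / 200 : ℝ) / 2 = (191 / 400 : ℝ) by norm_num,
      show binEntropy (9 / 200 : ℝ) / log 2 = (log 2)⁻¹ * binEntropy (9 / 200 : ℝ) by ring,
      show binEntropy (191 / 400 : ℝ) / log 2 = (log 2)⁻¹ * binEntropy (191 / 400 : ℝ) by ring]
    have u := mul_le_mul (inv_anti₀ hL log_two_lt_d9.le) d1 (by norm_num) (by positivity)
    have v := mul_le_mul (inv_anti₀ (by norm_num) log_two_gt_d9.le) h2
      (binEntropy_nonneg (by norm_num) (by norm_num)) (by norm_num)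
    norm_num at u v ⊢
    linarith


end Vale.Agent.P322
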