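import Mathlib
import Vale.Agent.P322.GapEnt
import Vale.Agent.P322.Middle
import Vale.Agent.P322.Edge

/-!
P322: the induction inequality for the low-noise bound, for all pairs of means.
-/

open Real Set

namespace Vale.Agent.P322

/-- The transfer property of certificates from crossover `3/200` to smaller crossover. -/
def TransferProp : Prop :=
  ∀ ε θ k : ℝ, 0 ≤ ε → ε ≤ 3 / 200 → 0 ≤ θ → θ ≤ 1 → 0 ≤ k → Cert (3 / 200) θ k →
    Cert ε θ (k / binEntropy (3 / 200) * binEntropy ε)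

lemma step_small {ε a b : ℝ} (hT : TransferProp) (h0 : 0 < ε) (h1 : ε ≤ 3 / 200)
    (hd : |a - b| ≤ 7 / 200) :
    ∃ θ k α, Cert ε θ k ∧ θ ∈ Icc (0 : ℝ) 1 ∧ α ∈ Icc (0 : ℝ) 1 ∧
      lowBound ε ((a + b) / 2) ≤
        α * ((lowBound ε a + lowBound ε b) / 2 + 4 * ε * (1 - ε) * gapEnt a b) +
          (1 - α) * (θ * ((lowBound ε a + lowBound ε b) / 2) + k * |a - b|) := by
  set d := |a - b| with hdd
  have d0 : 0 ≤ d := abs_nonneg _
  have hd2 : d ^ 2 ≤ (7 / 200) ^ 2 := pow_le_pow_left₀ d0 hd 2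
  have hH : 0 < binEntropy (3 / 200) := binEntropy_pos (by norm_num) (by norm_num)
  have hK : (45 / 8 * binEntropy (3 / 200)) ^ 2 ≤
      2 * log 2 * (5 / 2) * (1 - (1 - 2 * (3 / 200)) ^ 2 - 5 / 2 * d ^ 2) := by
    have a := pow_le_pow_left₀ (by positivity) (mul_le_mul_of_nonneg_left ent_3_200.2
      (by norm_num : (0 : ℝ) ≤ 45 / 8)) 2
    have b := mul_le_mul (mul_le_mul_of_nonneg_right
      (mul_le_mul_of_nonneg_left log_two_gt_d9.le (by norm_num : (0 : ℝ) ≤ 2))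
      (by norm_num : (0 : ℝ) ≤ 5 / 2))
      (by linarith : (0.0591 : ℝ) - 5 / 2 * (7 / 200) ^ 2 ≤
        1 - (1 - 2 * (3 / 200)) ^ 2 - 5 / 2 * d ^ 2) (by norm_num) (by positivity)
    norm_num at a b ⊢
    linarith
  have hc : Cert (3 / 200) (1 - 5 / 2 * d ^ 2) (45 / 8 * d * binEntropy (3 / 200)) := by
    refine cert_quad (by norm_num) (by norm_num) (by norm_num; linarith) (by nlinarith) ?_
    have := mul_le_mul_of_nonneg_right hK (sq_nonneg d)
    linarith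
  have hθ : 0 ≤ 1 - 5 / 2 * d ^ 2 := by linarith
  have hc' := hT ε _ _ h0.le h1 hθ (by nlinarith) (by positivity) hc
  rw [mul_div_cancel_right₀ _ hH.ne'] at hc'
  refine ⟨_, _, 17 / 25, hc', ⟨hθ, by nlinarith⟩, by norm_num, ?_⟩
  have hB : (lowBound ε a + lowBound ε b) / 2 ≤ binEntropy ε := by
    linarith [lowBound_le h0.le (by linarith : ε ≤ 1) (μ := a),
      lowBound_le h0.le (by linarith : ε ≤ 1) (μ := b)]
  have hs := mul_nonneg (mul_nonneg (gapWeight_nonneg h0.le (by linarith : ε ≤ 1))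
    (log_nonneg (by norm_num : (1 : ℝ) ≤ 2))) (sq_nonneg d)
  have := mul_le_mul_of_nonneg_right hB (sq_nonneg d)
  rw [lowBound_gap, show (a - b) ^ 2 = d ^ 2 by rw [hdd, sq_abs]]
  simp only [gapWeight] at hs ⊢
  linarith

lemma step_middle {ε a b θ₀ k₀ x y : ℝ} (hT : TransferProp) (h0 : 0 < ε) (h1 : ε ≤ 3 / 200)
    (ha : a ∈ Icc (0 : ℝ) 1) (hb : b ∈ Icc (0 : ℝ) 1) (hx : 0 < x) (hy : y < 1)
    (hd : |a - b| ∈ Icc x y) (hθ0 : 0 ≤ θ₀) (hk0 : 0 ≤ k₀)
    (hc : ∃ θ k, Cert (3 / 200) θ k ∧ θ₀ ≤ θ ∧ θ ≤ 1 ∧ k₀ * binEntropy (3 / 200) ≤ k)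
    (hex : 0 ≤ endMid 0 θ₀ k₀ x ∧ 0 ≤ endMid (727 / 2000) θ₀ k₀ x ∧
      0 ≤ endEdge 0 θ₀ k₀ x ∧ 0 ≤ endEdge (727 / 2000) θ₀ k₀ x)
    (hey : 0 ≤ endMid 0 θ₀ k₀ y ∧ 0 ≤ endMid (727 / 2000) θ₀ k₀ y ∧
      0 ≤ endEdge 0 θ₀ k₀ y ∧ 0 ≤ endEdge (727 / 2000) θ₀ k₀ y) :
    ∃ θ k α, Cert ε θ k ∧ θ ∈ Icc (0 : ℝ) 1 ∧ α ∈ Icc (0 : ℝ) 1 ∧
      lowBound ε ((a + b) / 2) ≤
        α * ((lowBound ε a + lowBound ε b) / 2 + 4 * ε * (1 - ε) * gapEnt a b) +
          (1 - α) * (θ * ((lowBound ε a + lowBound ε b) / 2) + k * |a - b|) := by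
  obtain ⟨θ, k, hcert, hθ, hθ1, hk⟩ := hc
  have hH : 0 < binEntropy (3 / 200) := binEntropy_pos (by norm_num) (by norm_num)
  have hε1 : ε < 1 := by linarith
  have hcr := cRatio_mem h0 h1
  have hk' : 0 ≤ k := (mul_nonneg hk0 hH.le).trans hk
  refine ⟨θ, _, 0, hT ε θ k h0.le h1 (hθ0.trans hθ) hθ1 hk' hcert, ⟨hθ0.trans hθ, hθ1⟩,
    by norm_num, ?_⟩
  have hEnd : shape (cRatio ε) ((a + b) / 2) ≤
      θ₀ * ((shape (cRatio ε) a + shape (cRatio ε) b) / 2) + k₀ * |a - b| := by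
    have hC1 : cRatio ε ≤ 1 := hcr.2.trans (by norm_num)
    have ex := ends_linear (θ := θ₀) (k := k₀) (d := x) hcr.1 hcr.2
    have ey := ends_linear (θ := θ₀) (k := k₀) (d := y) hcr.1 hcr.2
    exact reduce_ends hcr.1 hC1 hθ0 (hθ.trans hθ1) ha hb
      (endMid_ge_ends hcr.1 hC1 hθ0 hx hy hd (ex.1 hex.1 hex.2.1) (ey.1 hey.1 hey.2.1))
      (endEdge_ge_ends hcr.1 hθ0 (hθ.trans hθ1) hx hy hd (ex.2 hex.2.2.1 hex.2.2.2)
        (ey.2 hey.2.2.1 hey.2.2.2))
  have hB : 0 ≤ (lowBound ε a + lowBound ε b) / 2 := by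
    linarith [lowBound_nonneg h0.le hε1.le ha, lowBound_nonneg h0.le hε1.le hb]
  have hE := mul_le_mul_of_nonneg_left hEnd (binEntropy_pos h0 hε1).le
  rw [← lowBound_eq_shape h0 hε1] at hE
  have e : binEntropy ε * (θ₀ * ((shape (cRatio ε) a + shape (cRatio ε) b) / 2) +
      k₀ * |a - b|) = θ₀ * ((lowBound ε a + lowBound ε b) / 2) +
        k₀ * binEntropy ε * |a - b| := by
    rw [lowBound_eq_shape h0 hε1 (μ := a), lowBound_eq_shape h0 hε1 (μ := b)]; ring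
  rw [e] at hE
  have h2 : k₀ * binEntropy ε ≤ k / binEntropy (3 / 200) * binEntropy ε :=
    mul_le_mul_of_nonneg_right ((le_div_iff₀ hH).2 hk) (binEntropy_pos h0 hε1).le
  have := mul_le_mul_of_nonneg_right hθ hB
  have := mul_le_mul_of_nonneg_right h2 (abs_nonneg (a - b))
  linarith

lemma step_edge {ε a b : ℝ} (h0 : 0 < ε) (h1 : ε ≤ 3 / 200)
    (ha : a ∈ Icc (0 : ℝ) 1) (hb : b ∈ Icc (0 : ℝ) 1) (hd : 191 / 200 ≤ |a - b|) :
    ∃ θ k α, Cert ε θ k ∧ θ ∈ Icc (0 : ℝ) 1 ∧ α ∈ Icc (0 : ℝ) 1 ∧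
      lowBound ε ((a + b) / 2) ≤
        α * ((lowBound ε a + lowBound ε b) / 2 + 4 * ε * (1 - ε) * gapEnt a b) +
          (1 - α) * (θ * ((lowBound ε a + lowBound ε b) / 2) + k * |a - b|) := by
  have hε1 : ε < 1 := by linarith
  have hH := binEntropy_pos h0 hε1
  have hd1 : |a - b| ≤ 1 :=
    abs_le.2 ⟨by linarith [ha.1, hb.2], by linarith [ha.2, hb.1]⟩
  rcases hd1.lt_or_eq with hlt | heq
  · obtain ⟨θ, k, hc, hθ, e0, e1⟩ := edge_cert h0 h1 (u := 1 - |a - b|) (by linarith) (by linarith)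
    refine ⟨θ, k, 0, hc, hθ, by norm_num, ?_⟩
    have hcr := cRatio_mem h0 h1
    rw [lowBound_eq_shape h0 hε1] at e0 e1
    have hEnd := reduce_ends (c := cRatio ε) (k := k / binEntropy ε) hcr.1
      (hcr.2.trans (by norm_num)) hθ.1 hθ.2 ha hb ?_ ?_
    · have hE := mul_le_mul_of_nonneg_left hEnd hH.le
      rw [← lowBound_eq_shape h0 hε1] at hE
      have e : binEntropy ε * (θ * ((shape (cRatio ε) a + shape (cRatio ε) b) / 2) +
          k / binEntropy ε * |a - b|) = θ * ((lowBound ε a + lowBound ε b) / 2) + k * |a - b| := by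
        rw [lowBound_eq_shape h0 hε1 (μ := a), lowBound_eq_shape h0 hε1 (μ := b)]; field_simp
      rw [e] at hE
      linarith
    · rw [endMid, show (1 + |a - b|) / 2 = 1 - (1 - |a - b|) / 2 by ring, shape_one_sub]
      refine nonneg_of_mul_nonneg_right ?_ hH
      rw [show binEntropy ε * (θ * shape (cRatio ε) ((1 - |a - b|) / 2) +
        k / binEntropy ε * |a - b| - 1) = θ * (binEntropy ε *
          shape (cRatio ε) ((1 - |a - b|) / 2)) + k * |a - b| - binEntropy ε by field_simp]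
      linarith
    · rw [endEdge]
      refine nonneg_of_mul_nonneg_right ?_ hH
      rw [show binEntropy ε * (θ * shape (cRatio ε) |a - b| / 2 + k / binEntropy ε * |a - b| -
          shape (cRatio ε) (|a - b| / 2)) = θ * (binEntropy ε * shape (cRatio ε) |a - b| / 2) +
          k * |a - b| - binEntropy ε * shape (cRatio ε) (|a - b| / 2) by field_simp]
      have := lowBound_le h0.le hε1.le (μ := |a - b| / 2)
      rw [lowBound_eq_shape h0 hε1] at this
      rw [shape_one_sub] at e1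
      linarith
  · refine ⟨0, binEntropy ε, 0, ?_, by norm_num, by norm_num, ?_⟩
    · intro s hs
      have h := binEntropy_strictMonoOn.monotoneOn (a := ε)
        (b := ε + (1 - 2 * ε) * s) ⟨h0.le, by linarith⟩ ⟨by nlinarith [hs.1], by nlinarith [hs.2]⟩
        (by nlinarith [hs.1])
      have := mul_le_mul_of_nonneg_left (by linarith [hs.1] : 1 - 2 * s ≤ 1) hH.le
      linarith
    · rw [heq]
      linarith [lowBound_le h0.le hε1.le (μ := (a + b) / 2)]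

/-- The induction inequality. -/
theorem step {ε a b : ℝ} (hT : TransferProp) (h0 : 0 < ε) (h1 : ε ≤ 3 / 200)
    (ha : a ∈ Icc (0 : ℝ) 1) (hb : b ∈ Icc (0 : ℝ) 1) :
    ∃ θ k α, Cert ε θ k ∧ θ ∈ Icc (0 : ℝ) 1 ∧ α ∈ Icc (0 : ℝ) 1 ∧
      lowBound ε ((a + b) / 2) ≤
        α * ((lowBound ε a + lowBound ε b) / 2 + 4 * ε * (1 - ε) * gapEnt a b) +
          (1 - α) * (θ * ((lowBound ε a + lowBound ε b) / 2) + k * |a - b|) := by
  rcases le_total |a - b| (7 / 200) with h | h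
  · exact step_small hT h0 h1 h
  rcases le_total |a - b| (1 / 5) with h' | h'
  · exact step_middle hT h0 h1 ha hb (by norm_num) (by norm_num) ⟨h, h'⟩ (by norm_num)
      (by norm_num) certA endsA_x endsA_y
  rcases le_total |a - b| (9 / 20) with h'' | h''
  · exact step_middle hT h0 h1 ha hb (by norm_num) (by norm_num) ⟨h', h''⟩ (by norm_num)
      (by norm_num) certB endsB_x endsB_y
  rcases le_total |a - b| (22 / 25) with g | g
  · exact step_middle hT h0 h1 ha hb (by norm_num) (by norm_num) ⟨h'', g⟩ (by norm_num)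
      (by norm_num) certC endsC_x endsC_y
  rcases le_total |a - b| (191 / 200) with g' | g'
  · exact step_middle hT h0 h1 ha hb (by norm_num) (by norm_num) ⟨g, g'⟩ (by norm_num)
      (by norm_num) certD endsD_x endsD_y
  exact step_edge h0 h1 ha hb g'

end Vale.Agent.P322
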