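import Mathlib
import Vale.Agent.P322.Bridge
import Vale.Agent.P322.Step

/-!
P322: induction on the dimension at low noise.
-/

open Real Set

namespace Vale.Agent.P322

/-- The two-point property of certificates. -/
def PairProp : Prop :=
  ∀ ε θ k u v : ℝ, 0 ≤ ε → ε ≤ 3 / 200 → 0 ≤ θ → θ ≤ 1 → Cert ε θ k → u ∈ Icc (0 : ℝ) 1 →
    v ∈ Icc (0 : ℝ) 1 → θ * avgEnt u v + k * |u - v| ≤ mixEnt ε u v

lemma cert_nonneg_part {ε θ k : ℝ} (he : 0 ≤ ε) (he1 : ε ≤ 1 / 2) (hθ1 : θ ≤ 1)
    (hc : Cert ε θ k) : Cert ε θ (max k 0) := by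
  intro d hd
  rcases le_total 0 k with h | h
  · rw [max_eq_left h]; exact hc d hd
  · rw [max_eq_right h, zero_mul, add_zero]
    have := binEntropy_strictMonoOn.monotoneOn (a := d) (b := ε + (1 - 2 * ε) * d)
      ⟨hd.1, by linarith [hd.2]⟩ ⟨by nlinarith [hd.1], by nlinarith [hd.2]⟩ (by nlinarith [hd.2])
    nlinarith [binEntropy_nonneg hd.1 (by linarith [hd.2])]

lemma trueProb_zero_dim (f : (Fin 0 → Bool) → Bool) :
    trueProb f = 0 ∨ trueProb f = 1 := by
  rw [trueProb, Fintype.sum_unique]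
  cases f default <;> simp

lemma condEntropy_nonneg {n : ℕ} {ε : ℝ} (h0 : 0 ≤ ε) (h1 : ε ≤ 1)
    (f : (Fin n → Bool) → Bool) : 0 ≤ condEntropy ε f :=
  mul_nonneg (by positivity) (Finset.sum_nonneg fun y _ =>
    binEntropy_nonneg (posterior_mem h0 h1 f y).1 (posterior_mem h0 h1 f y).2)

theorem lowBound_le_condEntropy (hT : TransferProp) (hP : PairProp) {ε : ℝ} (h0 : 0 < ε)
    (h1 : ε ≤ 3 / 200) : ∀ (n : ℕ) (f : (Fin n → Bool) → Bool),
    lowBound ε (trueProb f) ≤ condEntropy ε f := by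
  intro n
  induction n with
  | zero =>
    intro f
    refine le_trans (le_of_eq ?_) (condEntropy_nonneg h0.le (by linarith) f)
    rcases trueProb_zero_dim f with h | h <;> simp [h, lowBound]
  | succ n ih =>
    intro f
    have hε1 : ε ≤ 1 := by linarith
    set fT := fun x => f (Fin.cons true x)
    set fF := fun x => f (Fin.cons false x)
    set u := posterior ε fT
    set v := posterior ε fF
    set a := trueProb fT with hadef
    set b := trueProb fF with hbdef
    have hu := posterior_mem h0.le hε1 fT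
    have hv := posterior_mem h0.le hε1 fF
    obtain ⟨θ, k, α, hc, hθ, hα, hstep⟩ := step hT h0 h1 (trueProb_mem fT) (trueProb_mem fF)
    have hc := cert_nonneg_part h0.le (by linarith) hθ.2 hc
    have hN : (0 : ℝ) < 1 / 2 ^ n := by positivity
    have hcard : (Fintype.card (Fin n → Bool) : ℝ) = 2 ^ n := by simp
    have hmean : ∀ g : (Fin n → Bool) → ℝ,
        (∑ y, g y) / Fintype.card (Fin n → Bool) = 1 / 2 ^ n * ∑ y, g y := fun g => by
      rw [hcard]; ring
    have hD : (1 / 2 ^ n : ℝ) * ∑ y, avgEnt (u y) (v y) =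
        (condEntropy ε fT + condEntropy ε fF) / 2 := by
      simp only [avgEnt, condEntropy, ← Finset.sum_div, Finset.sum_add_distrib]
      ring
    have hA : (lowBound ε a + lowBound ε b) / 2 ≤ (1 / 2 ^ n : ℝ) * ∑ y, avgEnt (u y) (v y) := by
      rw [hD]; linarith [ih fT, ih fF]
    have hgap : gapEnt a b ≤ (1 / 2 ^ n : ℝ) * ∑ y, gapEnt (u y) (v y) := by
      have := gapEnt_jensen u v hu hv
      rw [hmean, hmean, hmean, sum_posterior, sum_posterior] at this
      exact this
    have habs : |a - b| ≤ (1 / 2 ^ n : ℝ) * ∑ y, |u y - v y| := by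
      rw [hadef, hbdef, ← sum_posterior (ε := ε) fT, ← sum_posterior (ε := ε) fF, ← mul_sub,
        ← Finset.sum_sub_distrib, abs_mul, abs_of_pos hN]
      exact mul_le_mul_of_nonneg_left (Finset.abs_sum_le_sum_abs _ _) hN.le
    have hcond : condEntropy ε f = 1 / 2 ^ n * ∑ y, mixEnt ε (u y) (v y) := condEntropy_cons f
    have hpt : ∀ y, α * (avgEnt (u y) (v y) + 4 * ε * (1 - ε) * gapEnt (u y) (v y)) +
        (1 - α) * (θ * avgEnt (u y) (v y) + max k 0 * |u y - v y|) ≤
          mixEnt ε (u y) (v y) := fun y => by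
      have A := mul_le_mul_of_nonneg_left (gap_gain h0.le (by linarith) (hu y) (hv y)) hα.1
      have B := mul_le_mul_of_nonneg_left (hP ε θ _ _ _ h0.le h1 hθ.1 hθ.2 hc (hu y) (hv y))
        (sub_nonneg.2 hα.2)
      linarith
    have hsum := mul_le_mul_of_nonneg_left
      (Finset.sum_le_sum fun y (_ : y ∈ Finset.univ) => hpt y) hN.le
    simp only [Finset.sum_add_distrib, ← Finset.mul_sum] at hsum
    rw [trueProb_cons f, hcond]
    refine hstep.trans (le_trans ?_ hsum)
    have hα' := sub_nonneg.2 hα.2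
    have hw : 0 ≤ α + (1 - α) * θ := add_nonneg hα.1 (mul_nonneg hα' hθ.1)
    have e1 := mul_le_mul_of_nonneg_left hA hw
    have h4 : 0 ≤ 4 * ε * (1 - ε) := by nlinarith
    have e2 := mul_le_mul_of_nonneg_left hgap (mul_nonneg hα.1 h4)
    have e3 := mul_le_mul_of_nonneg_left habs (mul_nonneg hα' (le_max_right k 0))
    have e4 := mul_le_mul_of_nonneg_right (mul_le_mul_of_nonneg_left (le_max_left k 0) hα')
      (abs_nonneg (a - b))
    linarith

theorem low_noise_of (hT : TransferProp) (hP : PairProp) {n : ℕ} {ε : ℝ} (h0 : 0 ≤ ε)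
    (h1 : ε ≤ 3 / 200) (f : (Fin n → Bool) → Bool) :
    binEntropy (trueProb f) - condEntropy ε f ≤ log 2 - binEntropy ε := by
  rcases h0.eq_or_lt with rfl | h
  · have := binEntropy_le_log_two (p := trueProb f)
    have := condEntropy_nonneg le_rfl zero_le_one f
    simp
    linarith
  · have := lowBound_le_condEntropy hT hP h h1 n f
    have := le_lowBound h0 h1 (trueProb_mem f)
    linarith

end Vale.Agent.P322
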