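import Mathlib
import Vale.Agent.P322.Basic
import Vale.Agent.P322.Bridge
import Vale.Agent.P322.Tangent

/-!
P322: the induction on the dimension for an arbitrary lower bound `B` on the conditional entropy.
-/

open Real Set

namespace Vale.Agent.P322

/-- The candidate lower bound on the conditional entropy; `κ` weights its entropy part. -/
noncomputable def capBound (κ ε μ : ℝ) : ℝ :=
  (binEntropy ε - κ * (4 * ε * (1 - ε)) * log 2) * (4 * μ * (1 - μ)) +
    κ * (4 * ε * (1 - ε)) * binEntropy μ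

/-- The induction step at the pair of means `(a, b)`: every family of pairs of posteriors with these
means whose average entropy is at least the bound has mixed entropy at least the bound. -/
def StepAt (ε : ℝ) (B : ℝ → ℝ) (a b : ℝ) : Prop :=
  ∀ (n : ℕ) (u v : (Fin n → Bool) → ℝ), (∀ y, u y ∈ Icc (0 : ℝ) 1) →
    (∀ y, v y ∈ Icc (0 : ℝ) 1) → 1 / 2 ^ n * ∑ y, u y = a → 1 / 2 ^ n * ∑ y, v y = b →
    (B a + B b) / 2 ≤ 1 / 2 ^ n * ∑ y, avgEnt (u y) (v y) →
    B ((a + b) / 2) ≤ 1 / 2 ^ n * ∑ y, mixEnt ε (u y) (v y)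

/-- Steps at all pairs give the bound in every dimension. -/
theorem le_condEntropy_of_step {ε : ℝ} (h0 : 0 ≤ ε) (h1 : ε ≤ 1) {B : ℝ → ℝ} (hB0 : B 0 ≤ 0)
    (hB1 : B 1 ≤ 0)
    (hstep : ∀ a b, a ∈ Icc (0 : ℝ) 1 → b ∈ Icc (0 : ℝ) 1 → StepAt ε B a b) :
    ∀ (n : ℕ) (f : (Fin n → Bool) → Bool), B (trueProb f) ≤ condEntropy ε f := by
  intro n
  induction n with
  | zero =>
    intro f
    have hc : 0 ≤ condEntropy ε f := mul_nonneg (by positivity) (Finset.sum_nonneg fun y _ =>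
      binEntropy_nonneg (posterior_mem h0 h1 f y).1 (posterior_mem h0 h1 f y).2)
    refine le_trans ?_ hc
    have h : trueProb f = 0 ∨ trueProb f = 1 := by
      rw [trueProb, Fintype.sum_unique]
      cases f default <;> simp
    rcases h with h | h <;> rw [h] <;> assumption
  | succ n ih =>
    intro f
    have hT := ih fun x => f (Fin.cons true x)
    have hF := ih fun x => f (Fin.cons false x)
    rw [trueProb_cons f, condEntropy_cons f]
    refine hstep _ _ (trueProb_mem _) (trueProb_mem _) n _ _ (posterior_mem h0 h1 _)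
      (posterior_mem h0 h1 _) (sum_posterior _) (sum_posterior _) ?_
    simp only [condEntropy] at hT hF
    simp only [avgEnt, ← Finset.sum_div, Finset.sum_add_distrib]
    linarith

lemma stepAt_comm {ε a b : ℝ} {B : ℝ → ℝ} (h : StepAt ε B a b) : StepAt ε B b a := by
  intro n u v hu hv hua hvb hD
  have := h n v u hv hu hvb hua (by simpa only [avgEnt_comm, add_comm (B a)] using hD)
  simpa only [mixEnt_comm, add_comm a] using this

lemma stepAt_one_sub {ε a b : ℝ} {B : ℝ → ℝ} (hB : ∀ x, B (1 - x) = B x)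
    (h : StepAt ε B (1 - a) (1 - b)) : StepAt ε B a b := by
  intro n u v hu hv hua hvb hD
  have hs : ∀ w : (Fin n → Bool) → ℝ, 1 / 2 ^ n * ∑ y, (1 - w y) = 1 - 1 / 2 ^ n * ∑ y, w y :=
    fun w => by simp [Finset.sum_sub_distrib, mul_sub]
  have hm : ∀ p q, mixEnt ε (1 - p) (1 - q) = mixEnt ε p q := fun p q => by
    simp only [mixEnt]
    rw [show (1 - ε) * (1 - p) + ε * (1 - q) = 1 - ((1 - ε) * p + ε * q) by ring,
      show ε * (1 - p) + (1 - ε) * (1 - q) = 1 - (ε * p + (1 - ε) * q) by ring,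
      binEntropy_one_sub, binEntropy_one_sub]
  have := h n (fun y => 1 - u y) (fun y => 1 - v y)
    (fun y => ⟨by linarith [(hu y).2], by linarith [(hu y).1]⟩)
    (fun y => ⟨by linarith [(hv y).2], by linarith [(hv y).1]⟩) (by rw [hs, hua]) (by rw [hs, hvb])
    (by simpa [hB, avgEnt, binEntropy_one_sub] using hD)
  rw [show (1 - a + (1 - b)) / 2 = 1 - (a + b) / 2 by ring, hB] at this
  simpa only [hm] using this

/-- A pointwise affine certificate gives a step. -/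
lemma stepAt_of_affine {ε a b θ α β c : ℝ} {B : ℝ → ℝ} (hθ : 0 ≤ θ)
    (hc : ∀ u v, u ∈ Icc (0 : ℝ) 1 → v ∈ Icc (0 : ℝ) 1 →
      θ * avgEnt u v + α * u + β * v + c ≤ mixEnt ε u v)
    (h : B ((a + b) / 2) ≤ θ * ((B a + B b) / 2) + α * a + β * b + c) :
    StepAt ε B a b := by
  intro n u v hu hv hua hvb hD
  have hs := mul_le_mul_of_nonneg_left
    (Finset.sum_le_sum fun y (_ : y ∈ Finset.univ) => hc (u y) (v y) (hu y) (hv y))
    (by positivity : (0 : ℝ) ≤ 1 / 2 ^ n)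
  have hk : (1 / 2 ^ n : ℝ) * ∑ _y : Fin n → Bool, c = c := by simp
  simp only [Finset.sum_add_distrib, ← Finset.mul_sum] at hs
  rw [mul_add, mul_add, mul_add, hk] at hs
  have := mul_le_mul_of_nonneg_left hD hθ
  have e1 : (1 / 2 ^ n : ℝ) * (α * ∑ y, u y) = α * a := by rw [← hua]; ring
  have e2 : (1 / 2 ^ n : ℝ) * (β * ∑ y, v y) = β * b := by rw [← hvb]; ring
  linarith

lemma stepAt_of_convex {ε a b α : ℝ} {B : ℝ → ℝ} (h0 : 0 ≤ α) (h1 : α ≤ 1) {X Y : ℝ}
    (hX : ∀ (n : ℕ) (u v : (Fin n → Bool) → ℝ), (∀ y, u y ∈ Icc (0 : ℝ) 1) →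
      (∀ y, v y ∈ Icc (0 : ℝ) 1) → 1 / 2 ^ n * ∑ y, u y = a → 1 / 2 ^ n * ∑ y, v y = b →
      (B a + B b) / 2 ≤ 1 / 2 ^ n * ∑ y, avgEnt (u y) (v y) →
      X ≤ 1 / 2 ^ n * ∑ y, mixEnt ε (u y) (v y))
    (hY : ∀ (n : ℕ) (u v : (Fin n → Bool) → ℝ), (∀ y, u y ∈ Icc (0 : ℝ) 1) →
      (∀ y, v y ∈ Icc (0 : ℝ) 1) → 1 / 2 ^ n * ∑ y, u y = a → 1 / 2 ^ n * ∑ y, v y = b →
      (B a + B b) / 2 ≤ 1 / 2 ^ n * ∑ y, avgEnt (u y) (v y) →
      Y ≤ 1 / 2 ^ n * ∑ y, mixEnt ε (u y) (v y))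
    (h : B ((a + b) / 2) ≤ α * X + (1 - α) * Y) : StepAt ε B a b := by
  intro n u v hu hv hua hvb hD
  have p := mul_le_mul_of_nonneg_left (hX n u v hu hv hua hvb hD) h0
  have q := mul_le_mul_of_nonneg_left (hY n u v hu hv hua hvb hD) (sub_nonneg.2 h1)
  linarith

lemma capBound_one_sub (κ ε μ : ℝ) : capBound κ ε (1 - μ) = capBound κ ε μ := by
  rw [capBound, capBound, binEntropy_one_sub]
  ring

lemma capBound_zero (κ ε : ℝ) : capBound κ ε 0 = 0 := by simp [capBound]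

lemma capBound_one (κ ε : ℝ) : capBound κ ε 1 = 0 := by simp [capBound]

/-- The bound implies the desired inequality. -/
lemma binEntropy_sub_le_capBound {κ ε μ : ℝ} (hκ : 0 ≤ 1 - κ * (4 * ε * (1 - ε)))
    (hκ' : (1 - κ * (4 * ε * (1 - ε))) * (log 2 - 1 / 2) ≤ (1 - 2 * ε) ^ 2 / 2)
    (h0 : 0 ≤ ε) (h1 : ε ≤ 1 / 2) (hμ : μ ∈ Icc (0 : ℝ) 1) :
    binEntropy μ - (log 2 - binEntropy ε) ≤ capBound κ ε μ := by
  set x := 1 - 2 * μ with hx
  have hb : |x| ≤ 1 := abs_le.2 ⟨by linarith [hμ.2], by linarith [hμ.1]⟩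
  have e : phi |x| = phi x := by
    rcases abs_choice x with e | e <;> rw [e]
    exact phi_neg _
  have a := half_sq_le_phi (abs_nonneg x) hb
  rw [e, sq_abs] at a
  have b := half_sq_le_phi (r := 1 - 2 * ε) (by linarith) (by linarith)
  have c1 := mul_le_mul_of_nonneg_left (by nlinarith : log 2 * x ^ 2 - phi x ≤ (log 2 - 1 / 2) * x ^ 2) hκ
  have c2 := mul_le_mul_of_nonneg_right (hκ'.trans b) (sq_nonneg x)
  unfold capBound
  rw [binEntropy_eq_phi μ, binEntropy_eq_phi ε, ← hx,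
    show 4 * μ * (1 - μ) = 1 - x ^ 2 by rw [hx]; ring]
  linarith

end Vale.Agent.P322
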