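import Mathlib
import Vale.Agent.P322.Basic

/-!
P322: tangent certificates for the two-point functional, at every noise level.

In the coordinates `x = 1 - 2 u = m + d`, `y = 1 - 2 v = m - d` the certificate at `(m₀, d₀)` is
`θ * avgEnt u v + k * |u - v| ≤ mixEnt ε u v + γ * (u + v)`, with equality at `(m₀, d₀)` and at
`u = v = 0`. For `m₀ = 0` it is the symmetric certificate.
-/

open Real Set

namespace Vale.Agent.P322

/-- `- log (1 - c U²) / 2`. -/
noncomputable def lrate (c U : ℝ) : ℝ := -log (1 - c * U ^ 2) / 2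

/-- The combination of rates that defines the critical curve. -/
noncomputable def curveR (θ l U : ℝ) : ℝ := θ * lrate 1 U - lrate (l ^ 2) U

/-- The odd part of the gradient. -/
noncomputable def gradZ (θ l x : ℝ) : ℝ := θ * ath x - l * ath (l * x)

/-- The derivative of `gradZ`. -/
noncomputable def gradZ' (θ l x : ℝ) : ℝ := θ / (1 - x ^ 2) - l ^ 2 / (1 - l ^ 2 * x ^ 2)

/-- Mixed entropy minus `θ` times the average entropy, in mean and half-difference. -/
noncomputable def tanG (θ l m d : ℝ) : ℝ :=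
  (1 - θ) * log 2 - (phi (m + l * d) + phi (m - l * d)) / 2 +
    θ * ((phi (m + d) + phi (m - d)) / 2)

/-- The derivative of `tanG` in the mean. -/
noncomputable def tanGm (θ l m d : ℝ) : ℝ :=
  -((ath (m + l * d) + ath (m - l * d)) / 2) + θ * ((ath (m + d) + ath (m - d)) / 2)

/-- The derivative of `tanG` in the half-difference. -/
noncomputable def tanGd (θ l m d : ℝ) : ℝ :=
  -(l * ((ath (m + l * d) - ath (m - l * d)) / 2)) + θ * ((ath (m + d) - ath (m - d)) / 2)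

lemma phi_add_mul_ath {x : ℝ} (h : x ∈ Ioo (-1 : ℝ) 1) :
    phi x + (1 - x) * ath x = log (1 + x) := by
  obtain ⟨h1, h2⟩ := h
  have e : 1 - (1 - x) / 2 = (1 + x) / 2 := by ring
  rw [phi, ath, binEntropy_eq_negMulLog_add_negMulLog_one_sub, e, negMulLog, negMulLog,
    log_div (by linarith) (by norm_num), log_div (by linarith) (by norm_num)]
  ring

lemma one_add_log_ge {w : ℝ} (hw : 0 ≤ w) : 2 * w ≤ (2 + w) * log (1 + w) := by
  have := Real.le_log_one_add_of_nonneg hw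
  rw [div_le_iff₀ (by linarith)] at this
  linarith

section Aux

variable {θ l : ℝ}

lemma gradZ'_eq {x : ℝ} (hl : l ^ 2 ≤ 1) (hx0 : 0 ≤ x) (hx : x < 1) :
    0 < (1 - x ^ 2) * (1 - l ^ 2 * x ^ 2) ∧
    gradZ' θ l x =
      (θ - l ^ 2 + (1 - θ) * l ^ 2 * x ^ 2) / ((1 - x ^ 2) * (1 - l ^ 2 * x ^ 2)) := by
  have h1 : 0 < 1 - x ^ 2 := by nlinarith
  have h2 : 0 < 1 - l ^ 2 * x ^ 2 := by nlinarith [mul_le_mul_of_nonneg_right hl (sq_nonneg x)]
  refine ⟨mul_pos h1 h2, ?_⟩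
  rw [gradZ', div_sub_div _ _ h1.ne' h2.ne']
  congr 1
  ring

lemma gradZ'_pos_of_le {s x : ℝ} (hl : l ^ 2 ≤ 1) (hθ : θ ≤ 1) (hs : 0 ≤ s) (hsx : s ≤ x)
    (hx : x < 1) (h : 0 < gradZ' θ l s) : gradZ' θ l s ≤ gradZ' θ l x := by
  obtain ⟨p1, e1⟩ := gradZ'_eq (θ := θ) hl hs (hsx.trans_lt hx)
  obtain ⟨p2, e2⟩ := gradZ'_eq (θ := θ) hl (hs.trans hsx) hx
  rw [e1] at h ⊢
  rw [e2]
  have hn : 0 < θ - l ^ 2 + (1 - θ) * l ^ 2 * s ^ 2 := (div_pos_iff_of_pos_right p1).1 h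
  have hsq : s ^ 2 ≤ x ^ 2 := pow_le_pow_left₀ hs hsx 2
  have hc : 0 ≤ (1 - θ) * l ^ 2 := mul_nonneg (by linarith) (sq_nonneg l)
  refine div_le_div₀ (by nlinarith) (by nlinarith) p2 ?_
  refine mul_le_mul (by linarith) ?_ ?_ ?_
  · nlinarith [sq_nonneg l]
  · nlinarith [mul_le_mul_of_nonneg_right hl (sq_nonneg x)]
  · nlinarith

lemma gradZ'_le_of_pos {s x : ℝ} (hl : l ^ 2 ≤ 1) (hθ : θ ≤ 1) (hs : 0 ≤ s) (hsx : s ≤ x)
    (hx : x < 1) (h : 0 ≤ gradZ' θ l x) : gradZ' θ l s ≤ gradZ' θ l x := by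
  rcases le_or_gt (gradZ' θ l s) 0 with h' | h'
  · exact h'.trans h
  · exact gradZ'_pos_of_le hl hθ hs hsx hx h'

lemma hasDerivAt_lrate {c U : ℝ} (h : c * U ^ 2 < 1) :
    HasDerivAt (lrate c) (c * U / (1 - c * U ^ 2)) U := by
  have := ((((hasDerivAt_pow 2 U).const_mul c).const_sub 1).log (by linarith)).neg.div_const 2
  refine this.congr_deriv ?_
  field_simp [show (1 : ℝ) - c * U ^ 2 ≠ 0 by linarith]
  simp
  ring

lemma hasDerivAt_curveR {U : ℝ} (hl : l ^ 2 ≤ 1) (hU0 : 0 ≤ U) (hU : U < 1) :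
    HasDerivAt (curveR θ l) (U * gradZ' θ l U) U := by
  have h1 : (1 : ℝ) * U ^ 2 < 1 := by nlinarith
  have h2 : l ^ 2 * U ^ 2 < 1 := by nlinarith [mul_le_mul_of_nonneg_right hl (sq_nonneg U)]
  refine (((hasDerivAt_lrate h1).const_mul θ).sub (hasDerivAt_lrate h2)).congr_deriv ?_
  rw [gradZ', one_mul, one_mul]
  ring

lemma hasDerivAt_gradZ {x : ℝ} (hl0 : 0 ≤ l) (hl : l ≤ 1) (hx0 : 0 ≤ x) (hx : x < 1) :
    HasDerivAt (gradZ θ l) (gradZ' θ l x) x := by
  have hlx : l * x ≤ x := mul_le_of_le_one_left hx0 hl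
  have a := (hasDerivAt_ath (r := x) ⟨by linarith, hx⟩).const_mul θ
  have b := ((hasDerivAt_ath (r := l * x) ⟨by nlinarith, by linarith⟩).comp x
    ((hasDerivAt_id x).const_mul l)).const_mul l
  refine (a.sub b).congr_deriv ?_
  rw [gradZ', mul_pow]
  ring

@[simp] lemma curveR_zero : curveR θ l 0 = 0 := by simp [curveR, lrate]

lemma gradZ'_pos_of_curveR {U : ℝ} (hl : l ^ 2 ≤ 1) (hθ : θ ≤ 1) (hU0 : 0 ≤ U) (hU : U < 1)
    (h : 0 < curveR θ l U) : 0 < gradZ' θ l U := by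
  by_contra hc
  have hanti : AntitoneOn (curveR θ l) (Icc 0 U) := by
    refine antitoneOn_of_hasDerivWithinAt_nonpos (convex_Icc 0 U)
      (fun x hx => (hasDerivAt_curveR hl hx.1 (hx.2.trans_lt hU)).continuousAt.continuousWithinAt)
      (fun x hx => (hasDerivAt_curveR hl (interior_subset hx).1
        ((interior_subset hx).2.trans_lt hU)).hasDerivWithinAt) fun x hx => ?_
    have hx := interior_subset hx
    refine mul_nonpos_of_nonneg_of_nonpos hx.1 ?_
    by_contra hp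
    push Not at hc hp
    linarith [gradZ'_pos_of_le hl hθ hx.1 hx.2 hU hp]
  have := hanti ⟨le_rfl, hU0⟩ ⟨hU0, le_rfl⟩ hU0
  simp at this
  linarith

lemma two_curveR_le {U : ℝ} (hl : l ^ 2 ≤ 1) (hθ : θ ≤ 1) (hU0 : 0 ≤ U) (hU : U < 1)
    (h : 0 ≤ gradZ' θ l U) : 2 * curveR θ l U ≤ U ^ 2 * gradZ' θ l U := by
  have hd : ∀ x ∈ Icc 0 U, HasDerivAt (fun x => x ^ 2 * gradZ' θ l U - 2 * curveR θ l x)
      (2 * x * gradZ' θ l U - 2 * (x * gradZ' θ l x)) x := fun x hx => by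
    refine (((hasDerivAt_pow 2 x).mul_const _).sub
      ((hasDerivAt_curveR hl hx.1 (hx.2.trans_lt hU)).const_mul 2)).congr_deriv ?_
    simp
  have hmono := monotoneOn_of_hasDerivWithinAt_nonneg (convex_Icc 0 U)
    (fun x hx => (hd x hx).continuousAt.continuousWithinAt)
    (fun x hx => (hd x (interior_subset hx)).hasDerivWithinAt) (fun x hx => by
      have hx := interior_subset hx
      nlinarith [mul_le_mul_of_nonneg_left (gradZ'_le_of_pos hl hθ hx.1 hx.2 hU h) hx.1])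
    ⟨le_rfl, hU0⟩ ⟨hU0, le_rfl⟩ hU0
  simp at hmono
  linarith

lemma curveR_strictMonoOn {U b : ℝ} (hl : l ^ 2 ≤ 1) (hθ : θ ≤ 1) (hU0 : 0 < U) (hb : b < 1)
    (h : 0 < curveR θ l U) : StrictMonoOn (curveR θ l) (Icc U b) := by
  refine strictMonoOn_of_hasDerivWithinAt_pos (convex_Icc U b)
    (fun x hx => (hasDerivAt_curveR hl (hU0.le.trans hx.1)
      (hx.2.trans_lt hb)).continuousAt.continuousWithinAt)
    (fun x hx => (hasDerivAt_curveR hl (hU0.le.trans (interior_subset hx).1)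
      ((interior_subset hx).2.trans_lt hb)).hasDerivWithinAt) fun x hx => ?_
  have hx := interior_subset hx
  have hp := gradZ'_pos_of_curveR hl hθ hU0.le ((hx.1.trans hx.2).trans_lt hb) h
  have := gradZ'_pos_of_le hl hθ hU0.le hx.1 (hx.2.trans_lt hb) hp
  exact mul_pos (hU0.trans_le hx.1) (hp.trans_le this)

lemma curveR_scale {U r : ℝ} (hl : l ^ 2 ≤ 1) (hθ : θ ≤ 1) (hU0 : 0 < U) (hUr : U ≤ r)
    (hr : r < 1) (h : 0 < curveR θ l U) : curveR θ l U * r ^ 2 ≤ curveR θ l r * U ^ 2 := by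
  have hd : ∀ x ∈ Icc U r, HasDerivAt (fun x => curveR θ l x / x ^ 2)
      ((x * gradZ' θ l x * x ^ 2 - curveR θ l x * (2 * x)) / (x ^ 2) ^ 2) x := fun x hx => by
    have hx0 : 0 < x := hU0.trans_le hx.1
    refine ((hasDerivAt_curveR hl hx0.le (hx.2.trans_lt hr)).div (hasDerivAt_pow 2 x)
      (by positivity)).congr_deriv ?_
    simp
  have hmono := monotoneOn_of_hasDerivWithinAt_nonneg (convex_Icc U r)
    (fun x hx => (hd x hx).continuousAt.continuousWithinAt)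
    (fun x hx => (hd x (interior_subset hx)).hasDerivWithinAt) (fun x hx => by
      have hx := interior_subset hx
      have hx0 : 0 < x := hU0.trans_le hx.1
      have hx1 : x < 1 := hx.2.trans_lt hr
      have hp := gradZ'_pos_of_curveR hl hθ hU0.le (hUr.trans_lt hr) h
      have := two_curveR_le hl hθ hx0.le hx1
        (hp.le.trans (gradZ'_pos_of_le hl hθ hU0.le hx.1 hx1 hp))
      refine div_nonneg ?_ (by positivity)
      nlinarith)
    ⟨le_rfl, hUr⟩ ⟨hUr, le_rfl⟩ hUr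
  have hr0 : 0 < r := hU0.trans_le hUr
  rw [div_le_div_iff₀ (by positivity) (by positivity)] at hmono
  linarith

/-- The weight `w = (1 - m) / (1 + m)` on the critical curve. -/
noncomputable def curveW (θ l U : ℝ) : ℝ := exp (curveR θ l U / (1 - θ)) - 1

/-- The gradient in `d` along the critical curve. -/
noncomputable def curveG (θ l U : ℝ) : ℝ :=
  gradZ θ l U + gradZ θ l (U / curveW θ l U)

lemma curveG_lt {U₁ U₂ : ℝ} (hl0 : 0 ≤ l) (hl : l ≤ 1) (hθ : θ < 1) (hU0 : 0 < U₁)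
    (hlt : U₁ < U₂) (hU2 : U₂ < 1) (hR : 0 < curveR θ l U₁) (hw : curveW θ l U₂ ≤ 1)
    (hr : U₁ < curveW θ l U₁) : curveG θ l U₂ < curveG θ l U₁ := by
  have hl2 : l ^ 2 ≤ 1 := by nlinarith
  have hν : 0 < 1 - θ := by linarith
  have hmono := curveR_strictMonoOn hl2 hθ.le hU0 hU2 hR
  have hRpos : ∀ x ∈ Icc U₁ U₂, 0 < curveR θ l x := fun x hx =>
    hR.trans_le (hmono.monotoneOn ⟨le_rfl, hlt.le⟩ hx hx.1)
  have hwpos : ∀ x ∈ Icc U₁ U₂, 0 < curveW θ l x := fun x hx => by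
    have := Real.add_one_lt_exp (div_pos (hRpos x hx) hν).ne'
    have := div_pos (hRpos x hx) hν
    unfold curveW
    linarith
  have hwle : ∀ x ∈ Icc U₁ U₂, curveW θ l x ≤ 1 := fun x hx => by
    refine le_trans ?_ hw
    have := exp_le_exp.2 (div_le_div_of_nonneg_right
      (hmono.monotoneOn hx ⟨hlt.le, le_rfl⟩ hx.2) hν.le)
    unfold curveW
    linarith
  have hdw : ∀ x ∈ Icc U₁ U₂, HasDerivAt (curveW θ l)
      ((1 + curveW θ l x) * (x * gradZ' θ l x / (1 - θ))) x := fun x hx => by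
    refine (((hasDerivAt_curveR hl2 (hU0.le.trans hx.1)
      (hx.2.trans_lt hU2)).div_const (1 - θ)).exp.sub_const 1).congr_deriv ?_
    unfold curveW
    ring
  have key : ∀ x ∈ Icc U₁ U₂, 0 < gradZ' θ l x ∧
      (1 * curveW θ l x - x * ((1 + curveW θ l x) * (x * gradZ' θ l x / (1 - θ)))) /
        curveW θ l x ^ 2 < -1 := fun x hx => by
    have hx0 : 0 ≤ x := hU0.le.trans hx.1
    have hx1 : x < 1 := hx.2.trans_lt hU2
    have hp := gradZ'_pos_of_curveR hl2 hθ.le hx0 hx1 (hRpos x hx)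
    have h2 := two_curveR_le hl2 hθ.le hx0 hx1 hp.le
    have hlog : log (1 + curveW θ l x) = curveR θ l x / (1 - θ) := by
      rw [curveW, add_sub_cancel, log_exp]
    have hw0 := hwpos x hx
    have hw1 := hwle x hx
    have hge := one_add_log_ge hw0.le
    rw [hlog] at hge
    set w := curveW θ l x
    set q := x * gradZ' θ l x / (1 - θ) with hq
    have h3 : 2 * (curveR θ l x / (1 - θ)) ≤ x * q := by
      rw [hq, mul_div_assoc', mul_div_assoc', ← mul_assoc]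
      refine div_le_div_of_nonneg_right ?_ hν.le
      rw [← pow_two]
      exact h2
    have hw4 : 4 * w ≤ (2 + w) * (x * q) := by
      nlinarith [mul_le_mul_of_nonneg_left h3 (by linarith : 0 ≤ 2 + w)]
    have hxq : w < x * q := by nlinarith
    refine ⟨hp, ?_⟩
    rw [div_lt_iff₀ (by positivity)]
    nlinarith
  have hdr : ∀ x ∈ Icc U₁ U₂, HasDerivAt (fun x => x / curveW θ l x)
      ((1 * curveW θ l x - x * ((1 + curveW θ l x) * (x * gradZ' θ l x / (1 - θ)))) /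
        curveW θ l x ^ 2) x := fun x hx =>
    (hasDerivAt_id x).div (hdw x hx) (hwpos x hx).ne'
  have ranti : StrictAntiOn (fun x => x / curveW θ l x) (Icc U₁ U₂) :=
    strictAntiOn_of_hasDerivWithinAt_neg (convex_Icc _ _)
      (fun x hx => (hdr x hx).continuousAt.continuousWithinAt)
      (fun x hx => (hdr x (interior_subset hx)).hasDerivWithinAt)
      fun x hx => (key x (interior_subset hx)).2.trans (by norm_num)
  have hr1 : ∀ x ∈ Icc U₁ U₂, x ≤ x / curveW θ l x ∧ x / curveW θ l x < 1 := fun x hx => by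
    constructor
    · rw [le_div_iff₀ (hwpos x hx)]
      exact mul_le_of_le_one_right (hU0.le.trans hx.1) (hwle x hx)
    · refine (ranti.antitoneOn ⟨le_rfl, hlt.le⟩ hx hx.1).trans_lt ?_
      simpa [div_lt_one (hwpos U₁ ⟨le_rfl, hlt.le⟩)] using hr
  have hdG : ∀ x ∈ Icc U₁ U₂, HasDerivAt (curveG θ l) (gradZ' θ l x +
      gradZ' θ l (x / curveW θ l x) *
        ((1 * curveW θ l x - x * ((1 + curveW θ l x) * (x * gradZ' θ l x / (1 - θ)))) /
          curveW θ l x ^ 2)) x := fun x hx => by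
    have hx0 : 0 ≤ x := hU0.le.trans hx.1
    have a := (hasDerivAt_gradZ (θ := θ) hl0 hl (hx0.trans (hr1 x hx).1) (hr1 x hx).2).comp x
      (hdr x hx)
    exact (hasDerivAt_gradZ hl0 hl hx0 (hx.2.trans_lt hU2)).add a
  refine strictAntiOn_of_hasDerivWithinAt_neg (convex_Icc U₁ U₂)
    (fun x hx => (hdG x hx).continuousAt.continuousWithinAt)
    (fun x hx => (hdG x (interior_subset hx)).hasDerivWithinAt) (fun x hx => ?_)
    ⟨le_rfl, hlt.le⟩ ⟨hlt.le, le_rfl⟩ hlt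
  have hx := interior_subset hx
  obtain ⟨hp, hd⟩ := key x hx
  have hzr := gradZ'_pos_of_le hl2 hθ.le (hU0.le.trans hx.1) (hr1 x hx).1 (hr1 x hx).2 hp
  nlinarith [mul_lt_mul_of_pos_left hd (hp.trans_le hzr)]

end Aux

section Point

variable {θ l m d : ℝ}

lemma coords_facts {c : ℝ} (hc0 : 0 ≤ c) (hc : c ≤ 1) (hd : 0 ≤ d) (h1 : m + d < 1)
    (h2 : -1 < m - d) : m + c * d ∈ Ioo (-1 : ℝ) 1 ∧ m - c * d ∈ Ioo (-1 : ℝ) 1 := by
  have : c * d ≤ d := mul_le_of_le_one_left hd hc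
  have : 0 ≤ c * d := mul_nonneg hc0 hd
  exact ⟨⟨by linarith, by linarith⟩, ⟨by linarith, by linarith⟩⟩

lemma log_coords {c : ℝ} (hc0 : 0 ≤ c) (hc : c ≤ 1) (hd : 0 ≤ d) (h1 : m + d < 1)
    (h2 : -1 < m - d) :
    log (1 + (m + c * d)) = log (1 + m) + log (1 + c * (d / (1 + m))) ∧
    log (1 + (m - c * d)) = log (1 + m) + log (1 - c * (d / (1 + m))) ∧
    log (1 - (m + c * d)) = log (1 - m) + log (1 - c * (d / (1 - m))) ∧
    log (1 - (m - c * d)) = log (1 - m) + log (1 + c * (d / (1 - m))) ∧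
    log (1 - c ^ 2 * (d / (1 + m)) ^ 2) =
      log (1 + c * (d / (1 + m))) + log (1 - c * (d / (1 + m))) ∧
    log (1 - c ^ 2 * (d / (1 - m)) ^ 2) =
      log (1 + c * (d / (1 - m))) + log (1 - c * (d / (1 - m))) := by
  obtain ⟨⟨a1, a2⟩, ⟨b1, b2⟩⟩ := coords_facts hc0 hc hd h1 h2
  have hp : 0 < 1 + m := by linarith
  have hq : 0 < 1 - m := by linarith
  have e1 : 1 + c * (d / (1 + m)) = (1 + (m + c * d)) / (1 + m) := by field_simp; ring
  have e2 : 1 - c * (d / (1 + m)) = (1 + (m - c * d)) / (1 + m) := by field_simp; ring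
  have e3 : 1 - c * (d / (1 - m)) = (1 - (m + c * d)) / (1 - m) := by field_simp; ring
  have e4 : 1 + c * (d / (1 - m)) = (1 - (m - c * d)) / (1 - m) := by field_simp; ring
  have f1 : 1 - c ^ 2 * (d / (1 + m)) ^ 2 =
      (1 + c * (d / (1 + m))) * (1 - c * (d / (1 + m))) := by ring
  have f2 : 1 - c ^ 2 * (d / (1 - m)) ^ 2 =
      (1 + c * (d / (1 - m))) * (1 - c * (d / (1 - m))) := by ring
  refine ⟨?_, ?_, ?_, ?_, ?_, ?_⟩
  · rw [e1, log_div (by linarith) hp.ne']; ring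
  · rw [e2, log_div (by linarith) hp.ne']; ring
  · rw [e3, log_div (by linarith) hq.ne']; ring
  · rw [e4, log_div (by linarith) hq.ne']; ring
  · rw [f1, log_mul]
    · rw [e1]; exact (div_pos (by linarith) hp).ne'
    · rw [e2]; exact (div_pos (by linarith) hp).ne'
  · rw [f2, log_mul]
    · rw [e4]; exact (div_pos (by linarith) hq).ne'
    · rw [e3]; exact (div_pos (by linarith) hq).ne'

lemma tanGd_eq (hl0 : 0 ≤ l) (hl : l ≤ 1) (hd : 0 ≤ d) (h1 : m + d < 1) (h2 : -1 < m - d) :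
    tanGd θ l m d = (gradZ θ l (d / (1 + m)) + gradZ θ l (d / (1 - m))) / 2 := by
  obtain ⟨a1, a2, a3, a4, -, -⟩ := log_coords hl0 hl hd h1 h2
  obtain ⟨b1, b2, b3, b4, -, -⟩ := log_coords (c := 1) zero_le_one le_rfl hd h1 h2
  simp only [one_mul] at b1 b2 b3 b4
  simp only [tanGd, gradZ, ath, a1, a2, a3, a4, b1, b2, b3, b4]
  ring

lemma tanGm_eq (hl0 : 0 ≤ l) (hl : l ≤ 1) (hd : 0 ≤ d) (h1 : m + d < 1) (h2 : -1 < m - d) :
    tanGm θ l m d = -(1 - θ) * ((log (1 + m) - log (1 - m)) / 2) +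
      (curveR θ l (d / (1 - m)) - curveR θ l (d / (1 + m))) / 2 := by
  obtain ⟨a1, a2, a3, a4, a5, a6⟩ := log_coords hl0 hl hd h1 h2
  obtain ⟨b1, b2, b3, b4, b5, b6⟩ := log_coords (c := 1) zero_le_one le_rfl hd h1 h2
  simp only [one_mul, one_pow] at b1 b2 b3 b4 b5 b6
  simp only [tanGm, curveR, lrate, ath, one_mul, a1, a2, a3, a4, a5, a6, b1, b2, b3, b4, b5, b6]
  ring

lemma tanG_euler (hl0 : 0 ≤ l) (hl : l ≤ 1) (hd : 0 ≤ d) (h1 : m + d < 1) (h2 : -1 < m - d) :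
    tanG θ l m d + (1 - m) * tanGm θ l m d - d * tanGd θ l m d =
      (1 - θ) * (log 2 - log (1 + m)) - curveR θ l (d / (1 + m)) := by
  obtain ⟨ha, hb⟩ := coords_facts hl0 hl hd h1 h2
  have hc : m + d ∈ Ioo (-1 : ℝ) 1 ∧ m - d ∈ Ioo (-1 : ℝ) 1 := by
    simpa using coords_facts (c := 1) zero_le_one le_rfl hd h1 h2
  obtain ⟨a1, a2, -, -, a5, -⟩ := log_coords hl0 hl hd h1 h2
  obtain ⟨b1, b2, -, -, b5, -⟩ := log_coords (c := 1) zero_le_one le_rfl hd h1 h2
  simp only [one_mul, one_pow] at b1 b2 b5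
  have p1 := phi_add_mul_ath ha
  have p2 := phi_add_mul_ath hb
  have q1 := phi_add_mul_ath hc.1
  have q2 := phi_add_mul_ath hc.2
  rw [a1] at p1; rw [a2] at p2; rw [b1] at q1; rw [b2] at q2
  simp only [tanG, tanGm, tanGd, curveR, lrate, one_mul, a5, b5]
  linear_combination (-1 / 2) * p1 + (-1 / 2) * p2 + (θ / 2) * q1 + (θ / 2) * q2

lemma hasDerivAt_tanG {z r : ℝ} (hl0 : 0 ≤ l) (hl : l ≤ 1) (hz0 : 0 < z) (hz : z ≤ 1)
    (hr0 : 0 ≤ r) (hr : r < 1) :
    HasDerivAt (fun z => tanG θ l (1 - z) (z * r))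
      (-tanGm θ l (1 - z) (z * r) + r * tanGd θ l (1 - z) (z * r)) z ∧
    HasDerivAt (fun r => tanG θ l (1 - z) (z * r)) (z * tanGd θ l (1 - z) (z * r)) r := by
  have hzr : 0 ≤ z * r := mul_nonneg hz0.le hr0
  have hzr1 : z * r < z := mul_lt_of_lt_one_right hz0 hr
  obtain ⟨ha, hb⟩ := coords_facts (m := 1 - z) hl0 hl hzr (by linarith) (by linarith)
  have hc : 1 - z + z * r ∈ Ioo (-1 : ℝ) 1 ∧ 1 - z - z * r ∈ Ioo (-1 : ℝ) 1 := by
    simpa using coords_facts (c := 1) (m := 1 - z) zero_le_one le_rfl hzr (by linarith)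
      (by linarith)
  have m' : HasDerivAt (fun z : ℝ => 1 - z) (-1) z := (hasDerivAt_id z).const_sub 1
  have d' : HasDerivAt (fun z : ℝ => z * r) r z := by simpa using (hasDerivAt_id z).mul_const r
  have d'' : HasDerivAt (fun r : ℝ => z * r) z r := by
    simpa using (hasDerivAt_id r).const_mul z
  constructor
  · have A := (hasDerivAt_phi ha).comp z (m'.add (d'.const_mul l))
    have B := (hasDerivAt_phi hb).comp z (m'.sub (d'.const_mul l))
    have C := (hasDerivAt_phi hc.1).comp z (m'.add d')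
    have D := (hasDerivAt_phi hc.2).comp z (m'.sub d')
    refine ((((A.add B).div_const 2).const_sub ((1 - θ) * log 2)).add
      (((C.add D).div_const 2).const_mul θ)).congr_deriv ?_
    simp only [tanGm, tanGd]
    ring
  · have A := (hasDerivAt_phi ha).comp r ((d''.const_mul l).const_add (1 - z))
    have B := (hasDerivAt_phi hb).comp r ((d''.const_mul l).const_sub (1 - z))
    have C := (hasDerivAt_phi hc.1).comp r (d''.const_add (1 - z))
    have D := (hasDerivAt_phi hc.2).comp r (d''.const_sub (1 - z))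
    refine ((((A.add B).div_const 2).const_sub ((1 - θ) * log 2)).add
      (((C.add D).div_const 2).const_mul θ)).congr_deriv ?_
    simp only [tanGd]
    ring

lemma tanG_neg (θ l m d : ℝ) : tanG θ l (-m) d = tanG θ l m d ∧
    tanG θ l m (-d) = tanG θ l m d := by
  have e : ∀ x y : ℝ, x + y = 0 → phi x = phi y := fun x y h => by
    rw [show x = -y by linarith, phi_neg]
  constructor
  · simp only [tanG, e (-m + l * d) (m - l * d) (by ring), e (-m - l * d) (m + l * d) (by ring),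
      e (-m + d) (m - d) (by ring), e (-m - d) (m + d) (by ring)]
    ring
  · simp only [tanG, show m + l * -d = m - l * d by ring, show m - l * -d = m + l * d by ring,
      show m + -d = m - d by ring, show m - -d = m + d by ring]
    ring

lemma tanG_eq_ent (θ ε u v : ℝ) :
    mixEnt ε u v - θ * avgEnt u v = tanG θ (1 - 2 * ε) (1 - u - v) (v - u) := by
  simp only [mixEnt, avgEnt, binEntropy_eq_phi, tanG,
    show 1 - 2 * ((1 - ε) * u + ε * v) = 1 - u - v + (1 - 2 * ε) * (v - u) by ring,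
    show 1 - 2 * (ε * u + (1 - ε) * v) = 1 - u - v - (1 - 2 * ε) * (v - u) by ring,
    show 1 - 2 * u = 1 - u - v + (v - u) by ring, show 1 - 2 * v = 1 - u - v - (v - u) by ring]
  ring

lemma avgEnt_le_mixEnt {ε u v : ℝ} (h0 : 0 ≤ ε) (h1 : ε ≤ 1) (hu : u ∈ Icc (0 : ℝ) 1)
    (hv : v ∈ Icc (0 : ℝ) 1) : avgEnt u v ≤ mixEnt ε u v := by
  have hc := Real.strictConcave_binEntropy.concaveOn
  have a := hc.2 hu hv (by linarith : 0 ≤ 1 - ε) h0 (by ring)
  have b := hc.2 hu hv h0 (by linarith : 0 ≤ 1 - ε) (by ring)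
  simp only [smul_eq_mul] at a b
  unfold avgEnt mixEnt
  linarith

lemma negMulLog_le_binEntropy {p : ℝ} (h0 : 0 ≤ p) (h1 : p ≤ 1) :
    negMulLog p ≤ binEntropy p := by
  rw [binEntropy_eq_negMulLog_add_negMulLog_one_sub]
  linarith [negMulLog_nonneg (by linarith : 0 ≤ 1 - p) (by linarith)]

lemma mixEnt_ge_log {ε z u v : ℝ} (h0 : 0 < ε) (h1 : ε ≤ 1 / 2) (hz0 : 0 < z) (hz : z ≤ 1)
    (hu : 0 ≤ u) (hv : 0 ≤ v) (huv : u + v = z) : ε * z * -log z ≤ mixEnt ε u v := by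
  have key : ∀ p, ε * z ≤ p → p ≤ z → ε * z * -log z ≤ binEntropy p := fun p p0 p1 => by
    have hp : 0 < p := lt_of_lt_of_le (mul_pos h0 hz0) p0
    refine le_trans ?_ (negMulLog_le_binEntropy hp.le (p1.trans hz))
    rw [negMulLog_def]
    nlinarith [log_le_log hp p1, log_nonpos hz0.le hz]
  have a := key ((1 - ε) * u + ε * v) (by nlinarith) (by nlinarith)
  have b := key (ε * u + (1 - ε) * v) (by nlinarith) (by nlinarith)
  unfold mixEnt
  linarith

end Point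

/-- The slope `ν` of the tangent certificate at `(m, d)`. -/
noncomputable def certNu (ε m d : ℝ) : ℝ :=
  (lrate 1 (d / (1 + m)) - lrate ((1 - 2 * ε) ^ 2) (d / (1 + m))) /
    (log 2 - log (1 + m) + lrate 1 (d / (1 + m)))

/-- The coefficient of the average entropy in the tangent certificate. -/
noncomputable def certTh (ε m d : ℝ) : ℝ := 1 - certNu ε m d

/-- The coefficient of the sum in the tangent certificate. -/
noncomputable def certGam (ε m d : ℝ) : ℝ := tanGm (certTh ε m d) (1 - 2 * ε) m d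

/-- The coefficient of the absolute difference in the tangent certificate. -/
noncomputable def certK (ε m d : ℝ) : ℝ := tanGd (certTh ε m d) (1 - 2 * ε) m d

section Cert

variable {ε m₀ d₀ : ℝ}

lemma certTh_mem (h0 : 0 < ε) (h1 : ε < 1 / 2) (hm : 0 ≤ m₀) (hd : 0 < d₀)
    (hmd : m₀ + d₀ < 1) : certTh ε m₀ d₀ ∈ Ioo (0 : ℝ) 1 := by
  have hU0 : 0 < d₀ / (1 + m₀) := div_pos hd (by linarith)
  have hU1 : d₀ / (1 + m₀) < 1 := by rw [div_lt_one (by linarith)]; linarith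
  have hlog : log (1 + m₀) < log 2 := log_lt_log (by linarith) (by linarith)
  set U := d₀ / (1 + m₀) with hU
  have hl : (1 - 2 * ε) ^ 2 < 1 := by nlinarith
  have hl' : 0 < (1 - 2 * ε) ^ 2 := by nlinarith
  have hsq : U ^ 2 < 1 := by nlinarith
  have a : lrate ((1 - 2 * ε) ^ 2) U < lrate 1 U := by
    have hm' : (1 - 2 * ε) ^ 2 * U ^ 2 < 1 * U ^ 2 :=
      mul_lt_mul_of_pos_right hl (sq_pos_of_pos hU0)
    have := log_lt_log (x := 1 - 1 * U ^ 2) (y := 1 - (1 - 2 * ε) ^ 2 * U ^ 2) (by linarith)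
      (by linarith)
    unfold lrate
    linarith
  have b : 0 < lrate ((1 - 2 * ε) ^ 2) U := by
    have hp : 0 < (1 - 2 * ε) ^ 2 * U ^ 2 := mul_pos hl' (sq_pos_of_pos hU0)
    have hlt : (1 - 2 * ε) ^ 2 * U ^ 2 < 1 := by nlinarith
    have := log_neg (x := 1 - (1 - 2 * ε) ^ 2 * U ^ 2) (by linarith) (by linarith)
    unfold lrate
    linarith
  have hden : 0 < log 2 - log (1 + m₀) + lrate 1 U := by linarith
  have n1 : 0 < certNu ε m₀ d₀ := div_pos (by linarith) hden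
  have n2 : certNu ε m₀ d₀ < 1 := (div_lt_one hden).2 (by linarith)
  rw [certTh]
  exact ⟨by linarith, by linarith⟩

lemma certR_eq (h0 : 0 < ε) (h1 : ε < 1 / 2) (hm : 0 ≤ m₀) (hd : 0 < d₀)
    (hmd : m₀ + d₀ < 1) :
    curveR (certTh ε m₀ d₀) (1 - 2 * ε) (d₀ / (1 + m₀)) =
      (1 - certTh ε m₀ d₀) * (log 2 - log (1 + m₀)) := by
  obtain ⟨t0, t1⟩ := certTh_mem h0 h1 hm hd hmd
  have hne : log 2 - log (1 + m₀) + lrate 1 (d₀ / (1 + m₀)) ≠ 0 := by
    intro h
    rw [certTh, certNu, h, div_zero] at t1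
    linarith
  simp only [curveR, certTh, certNu]
  field_simp
  ring

/-- The tangent certificate is an equality at its point. -/
lemma cert_eq (h0 : 0 < ε) (h1 : ε < 1 / 2) (hm : 0 ≤ m₀) (hd : 0 < d₀)
    (hmd : m₀ + d₀ < 1) :
    tanG (certTh ε m₀ d₀) (1 - 2 * ε) m₀ d₀ + certGam ε m₀ d₀ * (1 - m₀) -
      certK ε m₀ d₀ * d₀ = 0 := by
  have := tanG_euler (θ := certTh ε m₀ d₀) (l := 1 - 2 * ε) (m := m₀) (d := d₀)
    (by linarith) (by linarith) hd.le hmd (by linarith)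
  rw [certR_eq h0 h1 hm hd hmd] at this
  unfold certGam certK
  linarith

lemma certGam_nonneg (h0 : 0 < ε) (h1 : ε < 1 / 2) (hm : 0 ≤ m₀) (hd : 0 < d₀)
    (hmd : m₀ + d₀ < 1) : 0 ≤ certGam ε m₀ d₀ := by
  obtain ⟨-, t1⟩ := certTh_mem h0 h1 hm hd hmd
  rw [certGam, tanGm_eq (by linarith) (by linarith) hd.le hmd (by linarith)]
  have hR := certR_eq h0 h1 hm hd hmd
  set θ := certTh ε m₀ d₀
  set R := curveR θ (1 - 2 * ε) with hRdef
  set w := (1 - m₀) / (1 + m₀) with hw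
  set U := d₀ / (1 + m₀) with hU
  have hw0 : 0 < w := div_pos (by linarith) (by linarith)
  have hw1 : w ≤ 1 := by rw [hw, div_le_one (by linarith)]; linarith
  have hlw : log w = log (1 - m₀) - log (1 + m₀) := log_div (by linarith) (by linarith)
  have hl1 : log (1 + w) = log 2 - log (1 + m₀) := by
    rw [show 1 + w = 2 / (1 + m₀) by rw [hw]; field_simp; ring,
      log_div (by norm_num) (by linarith)]
  have hU0 : 0 < U := div_pos hd (by linarith)
  have hr : d₀ / (1 - m₀) = U / w := by rw [hU, hw]; field_simp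
  have hr1 : U / w < 1 := by rw [← hr, div_lt_one (by linarith)]; linarith
  have hUr : U ≤ U / w := by rw [le_div_iff₀ hw0]; exact mul_le_of_le_one_right hU0.le hw1
  have hRpos : 0 < R U := by
    rw [hR]
    have := log_lt_log (by linarith : 0 < 1 + m₀) (by linarith : 1 + m₀ < 2)
    exact mul_pos (by linarith) (by linarith)
  have hs := curveR_scale (θ := θ) (l := 1 - 2 * ε) (by nlinarith) t1.le hU0 hUr hr1 hRpos
  have hs' : R U ≤ R (U / w) * w ^ 2 := by
    have e : (U / w) ^ 2 * w ^ 2 = U ^ 2 := by field_simp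
    have h := mul_le_mul_of_nonneg_right hs (sq_nonneg w)
    nlinarith [sq_pos_of_pos hU0]
  have key : w ^ 2 * (log (1 + w) - log w) ≤ log (1 + w) := by
    have a := one_add_log_ge hw0.le
    have b : 1 - w⁻¹ ≤ log w := one_sub_inv_le_log_of_pos hw0
    have b' := mul_le_mul_of_nonneg_left b (sq_nonneg w)
    have e : w ^ 2 * (1 - w⁻¹) = w ^ 2 - w := by field_simp
    nlinarith [mul_le_mul_of_nonneg_left a (by nlinarith : 0 ≤ 1 - w ^ 2),
      mul_nonneg hw0.le (sub_nonneg.2 hw1)]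
  rw [hr]
  rw [hl1] at key
  have : (1 - θ) * ((log 2 - log (1 + m₀)) - log w) ≤ R (U / w) := by
    refine le_of_mul_le_mul_right ?_ (sq_pos_of_pos hw0)
    nlinarith [mul_le_mul_of_nonneg_left key (by linarith : 0 ≤ 1 - θ)]
  rw [hlw] at this
  linarith

lemma certK_pos (h0 : 0 < ε) (h1 : ε < 1 / 2) (hm : 0 ≤ m₀) (hd : 0 < d₀)
    (hmd : m₀ + d₀ < 1) : 0 < certK ε m₀ d₀ := by
  have e := cert_eq h0 h1 hm hd hmd
  have hg := mul_nonneg (certGam_nonneg h0 h1 hm hd hmd) (by linarith : 0 ≤ 1 - m₀)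
  obtain ⟨-, t1⟩ := certTh_mem h0 h1 hm hd hmd
  have hent := tanG_eq_ent (certTh ε m₀ d₀) ε ((1 - m₀ - d₀) / 2) ((1 - m₀ + d₀) / 2)
  rw [show 1 - (1 - m₀ - d₀) / 2 - (1 - m₀ + d₀) / 2 = m₀ by ring,
    show (1 - m₀ + d₀) / 2 - (1 - m₀ - d₀) / 2 = d₀ by ring] at hent
  have hu : (1 - m₀ - d₀) / 2 ∈ Icc (0 : ℝ) 1 := ⟨by linarith, by linarith⟩
  have hv : (1 - m₀ + d₀) / 2 ∈ Icc (0 : ℝ) 1 := ⟨by linarith, by linarith⟩
  have hle := avgEnt_le_mixEnt h0.le (by linarith) hu hv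
  have hpos : 0 < avgEnt ((1 - m₀ - d₀) / 2) ((1 - m₀ + d₀) / 2) := by
    have := binEntropy_pos (p := (1 - m₀ - d₀) / 2) (by linarith) (by linarith)
    have := binEntropy_nonneg hv.1 hv.2
    unfold avgEnt
    linarith
  have : 0 < tanG (certTh ε m₀ d₀) (1 - 2 * ε) m₀ d₀ := by
    rw [← hent]
    nlinarith
  exact pos_of_mul_pos_left (by linarith) hd.le

lemma tanG_ge_log {θ z r : ℝ} (h0 : 0 < ε) (h1 : ε < 1 / 2) (t0 : 0 ≤ θ) (t1 : θ ≤ 1)
    (hz0 : 0 < z) (hz : z ≤ 1) (hr : r ∈ Icc (0 : ℝ) 1) :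
    (1 - θ) * (ε * z * -log z) ≤ tanG θ (1 - 2 * ε) (1 - z) (z * r) := by
  have hzr : z * r ≤ z := mul_le_of_le_one_right hz0.le hr.2
  have hzr0 : 0 ≤ z * r := mul_nonneg hz0.le hr.1
  have e := tanG_eq_ent θ ε ((z - z * r) / 2) ((z + z * r) / 2)
  rw [show 1 - (z - z * r) / 2 - (z + z * r) / 2 = 1 - z by ring,
    show (z + z * r) / 2 - (z - z * r) / 2 = z * r by ring] at e
  have hle := avgEnt_le_mixEnt (ε := ε) (u := (z - z * r) / 2) (v := (z + z * r) / 2) h0.le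
    (by linarith) ⟨by linarith, by linarith⟩ ⟨by linarith, by linarith⟩
  have hlow := mixEnt_ge_log (u := (z - z * r) / 2) (v := (z + z * r) / 2) h0 h1.le hz0 hz
    (by linarith) (by linarith) (by ring)
  rw [← e]
  nlinarith [mul_le_mul_of_nonneg_left hle t0, mul_le_mul_of_nonneg_left hlow (sub_nonneg.2 t1)]

/-- Near the edge `r = 1` the certificate decreases inwards. -/
lemma exists_slope_pos {θ l : ℝ} (k : ℝ) (t0 : 0 < θ) (hl0 : 0 ≤ l) (hl : l < 1) :
    ∃ q ∈ Ioo (0 : ℝ) 1, ∀ z x : ℝ, 0 < z → z ≤ 1 → x ∈ Ioo q 1 →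
      0 < tanGd θ l (1 - z) (z * x) - k := by
  obtain ⟨B, hB⟩ : ∃ B, θ * B = 2 * (|k| + 2 * (l * ath l)) + 1 :=
    ⟨(2 * (|k| + 2 * (l * ath l)) + 1) / θ, mul_div_cancel₀ _ t0.ne'⟩
  refine ⟨max (1 / 2) (1 - exp (-(2 * B))), ⟨lt_of_lt_of_le (by norm_num) (le_max_left _ _),
    max_lt (by norm_num) (by linarith [exp_pos (-(2 * B))])⟩, fun z x hz0 hz hx => ?_⟩
  have hx0 : 0 < x := lt_trans (lt_of_lt_of_le (by norm_num) (le_max_left (1 / 2 : ℝ) _)) hx.1
  have hZx : z * x < z := mul_lt_of_lt_one_right hz0 hx.2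
  rw [tanGd_eq hl0 hl.le (by positivity) (by linarith) (by linarith),
    show z * x / (1 - (1 - z)) = x by rw [sub_sub_cancel]; field_simp]
  have hU0 : 0 ≤ z * x / (1 + (1 - z)) := div_nonneg (by positivity) (by linarith)
  have hU1 : z * x / (1 + (1 - z)) < 1 := by rw [div_lt_one (by linarith)]; linarith
  have hath : ∀ y, 0 ≤ y → y < 1 → l * ath (l * y) ≤ l * ath l := fun y y0 y1 => by
    refine mul_le_mul_of_nonneg_left ?_ hl0
    have hly : l * y ≤ l := mul_le_of_le_one_right hl0 y1.le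
    have hly0 : 0 ≤ l * y := mul_nonneg hl0 y0
    have := log_le_log (by linarith : 0 < 1 + l * y) (by linarith : 1 + l * y ≤ 1 + l)
    have := log_le_log (by linarith : 0 < 1 - l) (by linarith : 1 - l ≤ 1 - l * y)
    unfold ath
    linarith
  have hbig : B ≤ ath x := by
    have h1' : 1 - x ≤ exp (-(2 * B)) := by
      linarith [le_max_right (1 / 2 : ℝ) (1 - exp (-(2 * B))), hx.1]
    have := log_le_log (by linarith [hx.2]) h1'
    rw [log_exp] at this
    have := log_nonneg (by linarith : (1 : ℝ) ≤ 1 + x)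
    unfold ath
    linarith
  have := mul_le_mul_of_nonneg_left hbig t0.le
  have := mul_nonneg t0.le (ath_nonneg hU0 hU1)
  have := hath x hx0.le hx.2
  have := hath _ hU0 hU1
  have := le_abs_self k
  have := mul_nonneg hl0 (ath_nonneg hl0 hl)
  simp only [gradZ]
  linarith

lemma curveW_eq {θ l U m : ℝ} (t1 : θ < 1) (hm : -1 < m)
    (hU : curveR θ l U = (1 - θ) * (log 2 - log (1 + m))) :
    curveW θ l U = (1 - m) / (1 + m) := by
  rw [curveW, hU, mul_div_cancel_left₀ _ (sub_pos.2 t1).ne', exp_sub, exp_log (by norm_num),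
    exp_log (by linarith)]
  field_simp [show 1 + m ≠ 0 by linarith]
  ring

/-- Facts about the point of tangency on the curve. -/
lemma cert_point (h0 : 0 < ε) (h1 : ε < 1 / 2) (hm : 0 ≤ m₀) (hd : 0 < d₀)
    (hmd : m₀ + d₀ < 1) :
    0 < d₀ / (1 + m₀) ∧ d₀ / (1 + m₀) < 1 ∧
    0 < curveR (certTh ε m₀ d₀) (1 - 2 * ε) (d₀ / (1 + m₀)) ∧
    curveW (certTh ε m₀ d₀) (1 - 2 * ε) (d₀ / (1 + m₀)) ≤ 1 ∧
    d₀ / (1 + m₀) < curveW (certTh ε m₀ d₀) (1 - 2 * ε) (d₀ / (1 + m₀)) ∧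
    curveG (certTh ε m₀ d₀) (1 - 2 * ε) (d₀ / (1 + m₀)) = 2 * certK ε m₀ d₀ := by
  obtain ⟨-, t1⟩ := certTh_mem h0 h1 hm hd hmd
  have hR0 := certR_eq h0 h1 hm hd hmd
  have hW₀ := curveW_eq t1 (by linarith) hR0
  refine ⟨div_pos hd (by linarith), ?_, ?_, ?_, ?_, ?_⟩
  · rw [div_lt_one (by linarith)]; linarith
  · rw [hR0]
    exact mul_pos (sub_pos.2 t1) (sub_pos.2 (log_lt_log (by linarith) (by linarith)))
  · rw [hW₀, div_le_one (by linarith)]; linarith
  · rw [hW₀]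
    exact div_lt_div_of_pos_right (by linarith) (by linarith)
  · rw [curveG, hW₀, show d₀ / (1 + m₀) / ((1 - m₀) / (1 + m₀)) = d₀ / (1 - m₀) by
      field_simp [show 1 + m₀ ≠ 0 by linarith], certK,
      tanGd_eq (by linarith) (by linarith) hd.le hmd (by linarith)]
    ring

/-- A critical point on the curve is the point of tangency. -/
lemma cert_unique (h0 : 0 < ε) (h1 : ε < 1 / 2) (hm : 0 ≤ m₀) (hd : 0 < d₀)
    (hmd : m₀ + d₀ < 1) {m d : ℝ} (hm' : 0 ≤ m) (hd' : 0 < d) (hmd' : m + d < 1)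
    (hR : curveR (certTh ε m₀ d₀) (1 - 2 * ε) (d / (1 + m)) =
      (1 - certTh ε m₀ d₀) * (log 2 - log (1 + m)))
    (hgrad : tanGd (certTh ε m₀ d₀) (1 - 2 * ε) m d = certK ε m₀ d₀) :
    m = m₀ ∧ d = d₀ := by
  obtain ⟨t0, t1⟩ := certTh_mem h0 h1 hm hd hmd
  obtain ⟨p0, p1, p2, p3, p4, p5⟩ := cert_point h0 h1 hm hd hmd
  have hR0 := certR_eq h0 h1 hm hd hmd
  set θ := certTh ε m₀ d₀
  have hU0 : 0 < d / (1 + m) := div_pos hd' (by linarith)
  have hU1 : d / (1 + m) < 1 := by rw [div_lt_one (by linarith)]; linarith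
  have eW := curveW_eq t1 (by linarith) hR
  have hRU : 0 < curveR θ (1 - 2 * ε) (d / (1 + m)) := by
    rw [hR]
    exact mul_pos (sub_pos.2 t1) (sub_pos.2 (log_lt_log (by linarith) (by linarith)))
  have hWle : curveW θ (1 - 2 * ε) (d / (1 + m)) ≤ 1 := by
    rw [eW, div_le_one (by linarith)]; linarith
  have hUW : d / (1 + m) < curveW θ (1 - 2 * ε) (d / (1 + m)) := by
    rw [eW]
    exact div_lt_div_of_pos_right (by linarith) (by linarith)
  have hG : curveG θ (1 - 2 * ε) (d / (1 + m)) = 2 * certK ε m₀ d₀ := by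
    rw [tanGd_eq (by linarith) (by linarith) hd'.le hmd' (by linarith)] at hgrad
    rw [curveG, eW, show d / (1 + m) / ((1 - m) / (1 + m)) = d / (1 - m) by
      field_simp [show 1 + m ≠ 0 by linarith]]
    linarith
  rcases lt_trichotomy (d / (1 + m)) (d₀ / (1 + m₀)) with h | h | h
  · have := curveG_lt (by linarith) (by linarith) t1 hU0 h p1 hRU p3 hUW
    linarith
  · rw [h, hR0] at hR
    have hlog : log (1 + m) = log (1 + m₀) := by
      linarith [mul_left_cancel₀ (sub_pos.2 t1).ne' hR]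
    have hmm : m = m₀ := by
      have := log_injOn_pos (mem_Ioi.2 (by linarith : 0 < 1 + m))
        (mem_Ioi.2 (by linarith : 0 < 1 + m₀)) hlog
      linarith
    refine ⟨hmm, ?_⟩
    rwa [hmm, div_left_inj' (by linarith)] at h
  · have := curveG_lt (by linarith) (by linarith) t1 p0 h hU1 p2 hWle p4
    linarith

/-- On the edge `m = 0` no critical point lies below the curve. -/
lemma cert_edge (h0 : 0 < ε) (h1 : ε < 1 / 2) (hm : 0 ≤ m₀) (hd : 0 < d₀)
    (hmd : m₀ + d₀ < 1) {U : ℝ} (hU0 : 0 < U) (hU1 : U < 1)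
    (hlt : curveR (certTh ε m₀ d₀) (1 - 2 * ε) U < (1 - certTh ε m₀ d₀) * log 2)
    (hz : gradZ (certTh ε m₀ d₀) (1 - 2 * ε) U = certK ε m₀ d₀) : False := by
  obtain ⟨t0, t1⟩ := certTh_mem h0 h1 hm hd hmd
  obtain ⟨p0, p1, p2, p3, p4, p5⟩ := cert_point h0 h1 hm hd hmd
  have hR0 := certR_eq h0 h1 hm hd hmd
  have hk := certK_pos h0 h1 hm hd hmd
  have hg := certGam_nonneg h0 h1 hm hd hmd
  rw [certGam, tanGm_eq (by linarith) (by linarith) hd.le hmd (by linarith)] at hg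
  set θ := certTh ε m₀ d₀
  set l := 1 - 2 * ε with hl
  have hl0 : 0 ≤ l := by linarith
  have hl1 : l ≤ 1 := by linarith
  have hl2 : l ^ 2 ≤ 1 := by nlinarith
  have hr₀1 : d₀ / (1 - m₀) < 1 := by rw [div_lt_one (by linarith)]; linarith
  have hUr₀ : d₀ / (1 + m₀) ≤ d₀ / (1 - m₀) :=
    div_le_div_of_nonneg_left hd.le (by linarith) (by linarith)
  have hlogm : 0 ≤ log (1 + m₀) := log_nonneg (by linarith)
  have hlogsub : log (1 - m₀) ≤ 0 := log_nonpos (by linarith) (by linarith)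
  obtain ⟨Ue, hUe, hRe⟩ : ∃ x ∈ Icc (d₀ / (1 + m₀)) (d₀ / (1 - m₀)),
      curveR θ l x = (1 - θ) * log 2 := by
    refine intermediate_value_Icc hUr₀ ?_ ⟨?_, ?_⟩
    · exact fun x hx => (hasDerivAt_curveR hl2 (p0.le.trans hx.1)
        (hx.2.trans_lt hr₀1)).continuousAt.continuousWithinAt
    · rw [hR0]
      nlinarith [mul_nonneg (sub_nonneg.2 t1.le) hlogm]
    · nlinarith [mul_nonpos_of_nonneg_of_nonpos (sub_nonneg.2 t1.le) hlogsub]
  have hUe1 : Ue < 1 := hUe.2.trans_lt hr₀1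
  have hWe : curveW θ l Ue = 1 := by
    rw [curveW_eq (m := 0) t1 (by norm_num) (by simpa using hRe)]; norm_num
  have hGe : curveG θ l Ue ≤ 2 * certK ε m₀ d₀ := by
    rcases hUe.1.lt_or_eq with h | h
    · have := curveG_lt hl0 hl1 t1 p0 h hUe1 p2 hWe.le p4
      linarith
    · rw [← h, p5]
  have hGe' : curveG θ l Ue = 2 * gradZ θ l Ue := by rw [curveG, hWe, div_one]; ring
  have hUlt : U < Ue := by
    by_contra h
    push Not at h
    have := (curveR_strictMonoOn hl2 t1.le p0 hU1 p2).monotoneOn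
      ⟨hUe.1, h⟩ ⟨hUe.1.trans h, le_rfl⟩ h
    linarith
  have hp : 0 < gradZ' θ l U := by
    by_contra hc
    push Not at hc
    have := antitoneOn_of_hasDerivWithinAt_nonpos (f := gradZ θ l) (convex_Icc 0 U)
      (fun x hx => (hasDerivAt_gradZ hl0 hl1 hx.1
        (hx.2.trans_lt hU1)).continuousAt.continuousWithinAt)
      (fun x hx => (hasDerivAt_gradZ hl0 hl1 (interior_subset hx).1
        ((interior_subset hx).2.trans_lt hU1)).hasDerivWithinAt)
      (fun x hx => by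
        have hx := interior_subset hx
        by_contra h'
        push Not at h'
        linarith [gradZ'_pos_of_le hl2 t1.le hx.1 hx.2 hU1 h'])
      ⟨le_rfl, hU0.le⟩ ⟨hU0.le, le_rfl⟩ hU0.le
    rw [hz, show gradZ θ l 0 = 0 by simp [gradZ]] at this
    linarith
  have := strictMonoOn_of_hasDerivWithinAt_pos (f := gradZ θ l) (convex_Icc U Ue)
    (fun x hx => (hasDerivAt_gradZ hl0 hl1 (hU0.le.trans hx.1)
      (hx.2.trans_lt hUe1)).continuousAt.continuousWithinAt)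
    (fun x hx => (hasDerivAt_gradZ hl0 hl1 (hU0.le.trans (interior_subset hx).1)
      ((interior_subset hx).2.trans_lt hUe1)).hasDerivWithinAt)
    (fun x hx => hp.trans_le (gradZ'_pos_of_le hl2 t1.le hU0.le (interior_subset hx).1
      ((interior_subset hx).2.trans_lt hUe1) hp))
    ⟨le_rfl, hUlt.le⟩ ⟨hUlt.le, le_rfl⟩ hUlt
  linarith

lemma hasDerivAt_ray {θ l γ k z r : ℝ} (hl0 : 0 ≤ l) (hl : l ≤ 1) (hz0 : 0 < z) (hz : z ≤ 1)
    (hr0 : 0 ≤ r) (hr : r < 1) :
    HasDerivAt (fun r => (tanG θ l (1 - z) (z * r) + γ * z - k * (z * r)) / z)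
      (tanGd θ l (1 - z) (z * r) - k) r ∧
    HasDerivAt (fun z => (tanG θ l (1 - z) (z * r) + γ * z - k * (z * r)) / z)
      ((curveR θ l (z * r / (1 + (1 - z))) - (1 - θ) * (log 2 - log (1 + (1 - z)))) / z ^ 2)
      z := by
  have hzr : z * r < z := mul_lt_of_lt_one_right hz0 hr
  obtain ⟨A, B⟩ := hasDerivAt_tanG (θ := θ) hl0 hl hz0 hz hr0 hr
  constructor
  · refine (((B.add_const (γ * z)).sub
      (((hasDerivAt_id r).const_mul z).const_mul k)).div_const z).congr_deriv ?_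
    field_simp
  · have heul := tanG_euler (θ := θ) (m := 1 - z) (d := z * r) hl0 hl (by positivity)
      (by linarith) (by linarith)
    refine (((A.add ((hasDerivAt_id z).const_mul γ)).sub
      (((hasDerivAt_id z).mul_const r).const_mul k)).div (hasDerivAt_id z) hz0.ne').congr_deriv ?_
    simp only [id_eq, Pi.add_apply, Pi.sub_apply]
    congr 1
    linear_combination -heul

/-- The certificate on a ray from the corner. -/
lemma cert_ray (h0 : 0 < ε) (h1 : ε < 1 / 2) (hm : 0 ≤ m₀) (hd : 0 < d₀)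
    (hmd : m₀ + d₀ < 1) {z r : ℝ} (hz0 : 0 < z) (hz : z ≤ 1) (hr : r ∈ Icc (0 : ℝ) 1) :
    0 ≤ tanG (certTh ε m₀ d₀) (1 - 2 * ε) (1 - z) (z * r) + certGam ε m₀ d₀ * z -
      certK ε m₀ d₀ * (z * r) := by
  obtain ⟨t0, t1⟩ := certTh_mem h0 h1 hm hd hmd
  have hk := certK_pos h0 h1 hm hd hmd
  have hg := certGam_nonneg h0 h1 hm hd hmd
  have heq := cert_eq h0 h1 hm hd hmd
  have hlog : ∀ {z r : ℝ}, 0 < z → z ≤ 1 → r ∈ Icc (0 : ℝ) 1 →
      (1 - certTh ε m₀ d₀) * (ε * z * -log z) ≤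
        tanG (certTh ε m₀ d₀) (1 - 2 * ε) (1 - z) (z * r) :=
    fun hz0 hz hr => tanG_ge_log h0 h1 t0.le t1.le hz0 hz hr
  have hu := @cert_unique ε m₀ d₀ h0 h1 hm hd hmd
  have hed := @cert_edge ε m₀ d₀ h0 h1 hm hd hmd
  set θ := certTh ε m₀ d₀
  set γ := certGam ε m₀ d₀
  set k := certK ε m₀ d₀
  set l := 1 - 2 * ε with hldef
  set H : ℝ → ℝ → ℝ := fun z r => tanG θ l (1 - z) (z * r) + γ * z - k * (z * r) with hH
  change 0 ≤ H z r
  by_contra hneg
  push Not at hneg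
  -- near the corner the bound is automatic
  have hν : 0 < 1 - θ := sub_pos.2 t1
  set z₁ := exp (-(k / ((1 - θ) * ε))) with hz₁
  have hz₁0 : 0 < z₁ := exp_pos _
  have hz₁1 : z₁ < 1 := exp_lt_one_iff.2 (neg_lt_zero.2 (by positivity))
  have hsmall : ∀ z r : ℝ, 0 < z → z ≤ z₁ → r ∈ Icc (0 : ℝ) 1 → 0 ≤ H z r :=
    fun z r hz0 hz hr => by
    have a := hlog hz0 (hz.trans hz₁1.le) hr
    have b : k / ((1 - θ) * ε) ≤ -log z := by
      have := log_le_log hz0 hz
      rw [hz₁, log_exp] at this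
      linarith
    rw [div_le_iff₀ (by positivity)] at b
    have c := mul_le_mul_of_nonneg_left b hz0.le
    have d : k * (z * r) ≤ k * z :=
      mul_le_mul_of_nonneg_left (mul_le_of_le_one_right hz0.le hr.2) hk.le
    simp only [hH]
    nlinarith [mul_nonneg hg hz0.le]
  -- a negative minimum of `H / z`
  have hzlo : z₁ < z := lt_of_not_ge fun h => by linarith [hsmall z r hz0 h hr]
  have hcont : ContinuousOn (fun p : ℝ × ℝ => H p.1 p.2 / p.1)
      (Icc z₁ 1 ×ˢ Icc (0 : ℝ) 1) :=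
    ContinuousOn.div (by simp only [hH, tanG]; fun_prop) (by fun_prop)
      fun p hp => (hz₁0.trans_le hp.1.1).ne'
  obtain ⟨⟨Z, S⟩, ⟨hZ, hS⟩, hmin⟩ := (isCompact_Icc.prod isCompact_Icc).exists_isMinOn
    ⟨(z, r), ⟨hzlo.le, hz⟩, hr⟩ hcont
  have hval : H Z S / Z < 0 :=
    lt_of_le_of_lt (hmin (mk_mem_prod ⟨hzlo.le, hz⟩ hr)) (div_neg_of_neg_of_pos hneg hz0)
  simp only at hZ hS
  have hZ0 : 0 < Z := hz₁0.trans_le hZ.1
  have hHneg : H Z S < 0 := by
    by_contra h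
    linarith [div_nonneg (not_lt.1 h) hZ0.le]
  have hZlo : z₁ < Z := lt_of_not_ge fun h => by linarith [hsmall Z S hZ0 h hS]
  have hmin' := isMinOn_iff.1 hmin
  have hminR : IsMinOn (fun r => H Z r / Z) (Icc 0 1) S :=
    isMinOn_iff.2 fun r hr => by simpa only using hmin' (Z, r) (mk_mem_prod hZ hr)
  have hminZ : IsMinOn (fun z => H z S / z) (Icc z₁ 1) Z :=
    isMinOn_iff.2 fun z hz => by simpa only using hmin' (z, S) (mk_mem_prod hz hS)
  have hS0 : 0 < S := hS.1.lt_of_ne fun h => by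
    subst h
    have ha := hlog hZ0 hZ.2 ⟨le_rfl, zero_le_one⟩
    have hb : 0 ≤ ε * Z * -log Z :=
      mul_nonneg (by positivity) (neg_nonneg.2 (log_nonpos hZ0.le hZ.2))
    simp only [hH, mul_zero, sub_zero] at hHneg ha
    nlinarith [mul_nonneg hν.le hb, mul_nonneg hg hZ0.le]
  have hl0 : 0 ≤ l := by linarith
  have hl1 : l < 1 := by linarith
  have hS1 : S < 1 := hS.2.lt_of_ne fun h => by
    subst h
    obtain ⟨q, ⟨hq0, hq1⟩, hpos⟩ := exists_slope_pos k t0 hl0 hl1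
    have hmono : StrictMonoOn (fun r => H Z r / Z) (Icc q 1) :=
      strictMonoOn_of_hasDerivWithinAt_pos (convex_Icc q 1)
        (by simp only [hH, tanG]; fun_prop)
        (fun x hx => by
          rw [interior_Icc] at hx
          exact (hasDerivAt_ray hl0 hl1.le hZ0 hZ.2 (hq0.trans hx.1).le
            hx.2).1.hasDerivWithinAt)
        (fun x hx => by rw [interior_Icc] at hx; exact hpos Z x hZ0 hZ.2 hx)
    have a := hmono ⟨le_rfl, hq1.le⟩ ⟨hq1.le, le_rfl⟩ hq1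
    have b := isMinOn_iff.1 hminR q ⟨hq0.le, hq1.le⟩
    simp only at b a
    linarith
  obtain ⟨hdR, hdZ⟩ := hasDerivAt_ray (θ := θ) (γ := γ) (k := k) hl0 hl1.le hZ0 hZ.2 hS0.le hS1
  have hgd : tanGd θ l (1 - Z) (Z * S) = k := by
    have hloc : IsLocalMin (fun r => H Z r / Z) S :=
      hminR.isLocalMin (Icc_mem_nhds hS0 hS1)
    linarith [hloc.hasDerivAt_eq_zero hdR]
  have hZS : Z * S < Z := mul_lt_of_lt_one_right hZ0 hS1
  have huniq : curveR θ l (Z * S / (1 + (1 - Z))) = (1 - θ) * (log 2 - log (1 + (1 - Z))) →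
      False := fun hU => by
    obtain ⟨e1, e2⟩ := hu (m := 1 - Z) (d := Z * S) (by linarith [hZ.2]) (mul_pos hZ0 hS0)
      (by linarith) hU hgd
    simp only [hH] at hHneg
    rw [e1, e2, show Z = 1 - m₀ by linarith] at hHneg
    linarith
  rcases hZ.2.lt_or_eq with hlt | heq1
  · have hloc : IsLocalMin (fun z => H z S / z) Z :=
      hminZ.isLocalMin (Icc_mem_nhds hZlo hlt)
    have := hloc.hasDerivAt_eq_zero hdZ
    rw [div_eq_zero_iff] at this
    rcases this with h | h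
    · exact huniq (by linarith)
    · exact absurd h (by positivity)
  · -- the edge `m = 0`
    subst heq1
    norm_num at hdZ huniq
    have hle : curveR θ l (1 * S / 1) ≤ (1 - θ) * log 2 := by
      simp
      by_contra h
      push Not at h
      obtain ⟨x, hx, hx1⟩ := ((((hdZ.tendsto_slope.eventually
        (lt_mem_nhds (sub_pos.2 h)))).filter_mono (nhdsLT_le_nhdsNE 1)).and
        (Ioo_mem_nhdsLT hZlo)).exists
      rw [slope_def_field, div_pos_iff] at hx
      have := isMinOn_iff.1 hminZ x ⟨hx1.1.le, hx1.2.le⟩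
      simp only [hH] at this
      norm_num at this hx
      rcases hx with ⟨-, h'⟩ | ⟨h', -⟩
      · linarith [hx1.2]
      · linarith
    norm_num at hle
    rcases hle.lt_or_eq with hlt | he
    · refine hed hS0 hS1 hlt ?_
      rw [tanGd_eq hl0 hl1.le (by positivity) (by linarith) (by linarith)] at hgd
      norm_num at hgd
      linarith
    · exact huniq he

/-- The tangent certificate: a bound on the mixed entropy of every pair. -/
theorem tan_cert (h0 : 0 < ε) (h1 : ε < 1 / 2) (hm : 0 ≤ m₀) (hd : 0 < d₀)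
    (hmd : m₀ + d₀ < 1) {u v : ℝ} (hu : u ∈ Icc (0 : ℝ) 1) (hv : v ∈ Icc (0 : ℝ) 1) :
    certTh ε m₀ d₀ * avgEnt u v + certK ε m₀ d₀ * |u - v| ≤
      mixEnt ε u v + certGam ε m₀ d₀ * (u + v) := by
  have key := tanG_eq_ent (certTh ε m₀ d₀) ε u v
  have hg := certGam_nonneg h0 h1 hm hd hmd
  have habs : tanG (certTh ε m₀ d₀) (1 - 2 * ε) (1 - u - v) (v - u) =
      tanG (certTh ε m₀ d₀) (1 - 2 * ε) (1 - u - v) |u - v| := by
    rcases abs_cases (u - v) with ⟨h, -⟩ | ⟨h, -⟩ <;> rw [h]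
    · rw [← (tanG_neg _ _ _ (u - v)).2, neg_sub]
    · rw [neg_sub]
  rw [habs] at key
  rcases (add_nonneg hu.1 hv.1).eq_or_lt with hz | hz
  · have hu0 : u = 0 := by linarith [hu.1, hv.1]
    have hv0 : v = 0 := by linarith [hu.1, hv.1]
    simp [hu0, hv0, avgEnt, mixEnt]
  have hd1 : |u - v| ≤ u + v := abs_le.2 ⟨by linarith [hu.1], by linarith [hv.1]⟩
  have hd2 : |u - v| ≤ 2 - (u + v) := abs_le.2 ⟨by linarith [hv.2], by linarith [hu.2]⟩
  rcases le_total (u + v) 1 with hz1 | hz1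
  · have := cert_ray h0 h1 hm hd hmd hz hz1 (r := |u - v| / (u + v))
      ⟨div_nonneg (abs_nonneg _) hz.le, (div_le_one hz).2 hd1⟩
    rw [mul_div_cancel₀ _ hz.ne', show 1 - (u + v) = 1 - u - v by ring] at this
    linarith
  · rcases (by linarith [hu.2, hv.2] : 0 ≤ 2 - (u + v)).eq_or_lt with hz2 | hz2
    · have hu0 : u = 1 := by linarith [hu.2, hv.2]
      have hv0 : v = 1 := by linarith [hu.2, hv.2]
      simp [hu0, hv0, avgEnt, mixEnt]
      linarith
    have := cert_ray h0 h1 hm hd hmd hz2 (by linarith) (r := |u - v| / (2 - (u + v)))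
      ⟨div_nonneg (abs_nonneg _) hz2.le, (div_le_one hz2).2 hd2⟩
    rw [mul_div_cancel₀ _ hz2.ne', show 1 - (2 - (u + v)) = -(1 - u - v) by ring,
      (tanG_neg _ _ _ _).1] at this
    nlinarith

/-- The tangent certificate in signed affine form. -/
theorem tan_cert_affine (h0 : 0 < ε) (h1 : ε < 1 / 2) (hm : 0 ≤ m₀) (hd : 0 < d₀)
    (hmd : m₀ + d₀ < 1) {u v : ℝ} (hu : u ∈ Icc (0 : ℝ) 1) (hv : v ∈ Icc (0 : ℝ) 1) :
    certTh ε m₀ d₀ * avgEnt u v + (-certK ε m₀ d₀ - certGam ε m₀ d₀) * u +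
      (certK ε m₀ d₀ - certGam ε m₀ d₀) * v ≤ mixEnt ε u v := by
  have := tan_cert h0 h1 hm hd hmd hu hv
  have := mul_le_mul_of_nonneg_left (neg_le_abs (u - v)) (certK_pos h0 h1 hm hd hmd).le
  linarith

/-- The certificate is an equality at the pair `a ≤ b` defining it. -/
lemma tan_cert_eq {a b : ℝ} (h0 : 0 < ε) (h1 : ε < 1 / 2) (hab : a + b ≤ 1) (hlt : a < b)
    (ha : 0 < a) :
    certTh ε (1 - a - b) (b - a) * avgEnt a b +
        (-certK ε (1 - a - b) (b - a) - certGam ε (1 - a - b) (b - a)) * a +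
        (certK ε (1 - a - b) (b - a) - certGam ε (1 - a - b) (b - a)) * b = mixEnt ε a b := by
  have e := tanG_eq_ent (certTh ε (1 - a - b) (b - a)) ε a b
  have := cert_eq (m₀ := 1 - a - b) (d₀ := b - a) h0 h1 (by linarith) (by linarith) (by linarith)
  linarith

/-- For centred pairs the certificate is symmetric: its coefficient of the sum vanishes. -/
lemma certGam_zero (ε d : ℝ) : certGam ε 0 d = 0 := by
  have hn : ∀ x : ℝ, ath (-x) = -ath x := fun x => by
    unfold ath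
    rw [sub_neg_eq_add, ← sub_eq_add_neg]
    ring
  simp [certGam, tanGm, hn]

/-- The symmetric certificate. -/
theorem sym_cert {r : ℝ} (h0 : 0 < ε) (h1 : ε < 1 / 2) (hr : 0 < r) (hr1 : r < 1) {u v : ℝ}
    (hu : u ∈ Icc (0 : ℝ) 1) (hv : v ∈ Icc (0 : ℝ) 1) :
    certTh ε 0 r * avgEnt u v + certK ε 0 r * |u - v| ≤ mixEnt ε u v := by
  simpa [certGam_zero] using tan_cert (m₀ := 0) h0 h1 le_rfl hr (by linarith) hu hv

end Cert

end Vale.Agent.P322
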