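import Mathlib
import Vale.Agent.P322.Basic
import Vale.Agent.P322.Step

/-!
P322: a certificate at one noise level transfers to every smaller noise level.
-/

open Real Set Filter
open scoped Topology

namespace Vale.Agent.P322

/-- `log (2 cosh (ath x))`. -/
noncomputable def lgf (x : ℝ) : ℝ := log 2 - (log (1 + x) + log (1 - x)) / 2

/-- The entropy as a function of the mean, in the form `lgf x - x * ath x`. -/
noncomputable def etaf (x : ℝ) : ℝ := lgf x - x * ath x

/-- The ratio `lgf / ath`. -/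
noncomputable def uf (x : ℝ) : ℝ := lgf x / ath x

/-- Minus the logarithmic slope of `uf` in `log x`. -/
noncomputable def wf (x : ℝ) : ℝ := x * etaf x / (ath x * lgf x * (1 - x ^ 2))

lemma ath_pos {x : ℝ} (h0 : 0 < x) (h1 : x < 1) : 0 < ath x := by
  unfold ath
  have := log_lt_log (by linarith : (0 : ℝ) < 1 - x) (by linarith : 1 - x < 1 + x)
  linarith

lemma lgf_sub_ath {x : ℝ} (h0 : 0 ≤ x) :
    lgf x - ath x = log (1 + (1 - x) / (1 + x)) := by
  have h : 1 + (1 - x) / (1 + x) = 2 / (1 + x) := by field_simp; ring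
  rw [h, log_div (by norm_num) (by linarith), lgf, ath]
  ring

lemma lgf_ge {x : ℝ} (h0 : 0 ≤ x) (h1 : x < 1) : ath x < lgf x := by
  have : 0 < log (1 + (1 - x) / (1 + x)) :=
    log_pos (by linarith [div_pos (sub_pos.2 h1) (by linarith : 0 < 1 + x)])
  linarith [lgf_sub_ath (x := x) h0]

lemma lgf_pos {x : ℝ} (h0 : 0 < x) (h1 : x < 1) : 0 < lgf x :=
  lt_trans (ath_pos h0 h1) (lgf_ge h0.le h1)

lemma etaf_pos {x : ℝ} (h0 : 0 < x) (h1 : x < 1) : 0 < etaf x := by
  have := mul_le_of_le_one_left (ath_pos h0 h1).le h1.le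
  unfold etaf
  linarith [lgf_ge h0.le h1]

lemma etaf_eq {x : ℝ} (h0 : -1 < x) (h1 : x < 1) : etaf x = log 2 - phi x := by
  rw [phi, sub_sub_cancel, binEntropy_eq_negMulLog_add_negMulLog_one_sub, etaf, lgf, ath, negMulLog,
    negMulLog, show 1 - (1 - x) / 2 = (1 + x) / 2 by ring, log_div (by linarith) (by norm_num),
    log_div (by linarith) (by norm_num)]
  ring

lemma hasDerivAt_lgf {x : ℝ} (h0 : -1 < x) (h1 : x < 1) :
    HasDerivAt lgf (x / (1 - x ^ 2)) x := by
  have a := ((hasDerivAt_id x).const_add 1).log (by simp; linarith)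
  have b := ((hasDerivAt_id x).const_sub 1).log (by simp; linarith)
  refine (((a.add b).div_const 2).const_sub (log 2)).congr_deriv ?_
  simp only [id_eq]
  have : (1 : ℝ) + x ≠ 0 := by linarith
  have : (1 : ℝ) - x ≠ 0 := by linarith
  rw [show (1 : ℝ) - x ^ 2 = (1 + x) * (1 - x) by ring]
  field_simp
  ring

lemma hasDerivAt_etaf {x : ℝ} (h0 : -1 < x) (h1 : x < 1) : HasDerivAt etaf (-ath x) x := by
  refine ((hasDerivAt_lgf h0 h1).sub ((hasDerivAt_id x).mul (hasDerivAt_ath ⟨h0, h1⟩))).congr_deriv ?_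
  simp only [id_eq]
  ring

lemma hasDerivAt_uf {x : ℝ} (h0 : 0 < x) (h1 : x < 1) :
    HasDerivAt uf (-(uf x * wf x / x)) x := by
  have hA := ath_pos h0 h1
  have hG := lgf_pos h0 h1
  refine ((hasDerivAt_lgf (by linarith) h1).div (hasDerivAt_ath ⟨by linarith, h1⟩)
    hA.ne').congr_deriv ?_
  have : (1 : ℝ) - x ^ 2 ≠ 0 := by nlinarith
  simp only [uf, wf, etaf]
  field_simp
  ring

lemma poly_key {A : ℝ} (hA : 0 < A) :
    4 * A * (1 + 4 * A) / (3 + 6 * A + 8 * A ^ 2)
      ≤ A * (1 + 2 * A) ^ 2 / ((1 + A) * (1 + 2 * A + 2 * A ^ 2))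
        + A * (1 + 2 * A) / ((1 + A) * (1 + A + 2 * A ^ 2)) := by
  rw [div_add_div _ _ (by positivity) (by positivity), div_le_div_iff₀ (by positivity) (by positivity)]
  nlinarith [mul_pos hA hA, mul_pos (mul_pos hA hA) hA, mul_pos (mul_pos hA hA) (mul_pos hA hA),
    mul_pos (mul_pos (mul_pos hA hA) (mul_pos hA hA)) hA,
    mul_pos (mul_pos (mul_pos hA hA) hA) (mul_pos (mul_pos hA hA) hA),
    mul_pos (mul_pos (mul_pos hA hA) (mul_pos hA hA)) (mul_pos (mul_pos hA hA) hA)]

lemma slope_key {x : ℝ} (h0 : 0 < x) (h1 : x < 1) :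
    (1 + x ^ 2) / x - 1 / ath x ≤ ath x * (1 - x ^ 2) / etaf x + x / lgf x := by
  set A := ath x with hAdef
  have hA : 0 < A := ath_pos h0 h1
  set q := (1 - x) / (1 + x) with hq
  have hq0 : 0 < q := div_pos (by linarith) (by linarith)
  have hexp : exp (2 * A) = 1 / q := by
    rw [hAdef, ath, show 2 * ((log (1 + x) - log (1 - x)) / 2) = log (1 + x) - log (1 - x) by ring,
      exp_sub, exp_log (by linarith), exp_log (by linarith), hq, one_div_div]
  have hp : 1 + 2 * A ≤ 1 / q := by rw [← hexp]; linarith [add_one_le_exp (2 * A)]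
  have hqp : q ≤ 1 / (1 + 2 * A) := by
    rw [le_div_iff₀ (by positivity)]
    rw [le_div_iff₀ hq0] at hp
    linarith
  have hx : x = (1 - q) / (1 + q) := by rw [hq]; field_simp; ring
  have hq1 : q < 1 := by rw [hq, div_lt_one (by linarith)]; linarith
  have hlog : log (1 + q) ≤ q := by linarith [log_le_sub_one_of_pos (by linarith : 0 < 1 + q)]
  have hG : lgf x = A + log (1 + q) := by rw [hAdef, hq, ← lgf_sub_ath h0.le]; ring
  have hE : etaf x ≤ q * (1 + q + 2 * A) / (1 + q) := by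
    have e : etaf x = log (1 + q) + 2 * A * q / (1 + q) := by
      rw [etaf, hG, ← hAdef, hx]; field_simp; ring
    rw [e, show q * (1 + q + 2 * A) / (1 + q) = q + 2 * A * q / (1 + q) by field_simp]
    linarith
  have e1 : 4 * A / ((1 + q) * (1 + q + 2 * A)) ≤ A * (1 - x ^ 2) / etaf x := by
    have hnum : A * (1 - x ^ 2) = A * (4 * q / (1 + q) ^ 2) := by rw [hx]; field_simp; ring
    rw [hnum]
    refine le_trans (le_of_eq ?_) (div_le_div_of_nonneg_left (by positivity) (etaf_pos h0 h1) hE)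
    field_simp
  have e2 : (1 - q) / ((1 + q) * (A + q)) ≤ x / lgf x := by
    rw [← div_div, ← hx, hG]
    exact div_le_div_of_nonneg_left h0.le (by rw [← hG]; exact lgf_pos h0 h1) (by linarith)
  set t := 1 / (1 + 2 * A) with ht
  have ht0 : 0 < t := by positivity
  have ht1 : t < 1 := by rw [ht, div_lt_one (by positivity)]; linarith
  have e3 : 4 * A / ((1 + t) * (1 + t + 2 * A)) ≤ 4 * A / ((1 + q) * (1 + q + 2 * A)) := by
    gcongr
  have e4 : (1 - t) / ((1 + t) * (A + t)) ≤ (1 - q) / ((1 + q) * (A + q)) := by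
    gcongr
  have hexp4 : 1 + 4 * A + 8 * A ^ 2 + 32 / 3 * A ^ 3 ≤ 1 / q ^ 2 := by
    have h := sum_le_exp_of_nonneg (x := 4 * A) (by positivity) 4
    rw [show (4 : ℝ) * A = 2 * A + 2 * A by ring, exp_add, hexp] at h
    simp [Finset.sum_range_succ, Nat.factorial] at h
    have e : 1 / q ^ 2 = q⁻¹ * q⁻¹ := by rw [one_div, sq, mul_inv]
    rw [e]
    linarith
  have e5 : (1 + x ^ 2) / x - 1 / A ≤ 4 * A * (1 + 4 * A) / (3 + 6 * A + 8 * A ^ 2) := by
    have hl : (1 + x ^ 2) / x = 2 + 4 / (1 / q ^ 2 - 1) := by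
      have : (1 - q) ≠ 0 := by linarith
      have : (1 + q) ≠ 0 := by linarith
      have : (1 - q ^ 2) ≠ 0 := by nlinarith
      have : 1 / q ^ 2 - 1 = (1 - q ^ 2) / q ^ 2 := by field_simp
      rw [this, hx]
      field_simp
      ring
    have h4 : 4 / (1 / q ^ 2 - 1) ≤ 4 / (4 * A + 8 * A ^ 2 + 32 / 3 * A ^ 3) :=
      div_le_div_of_nonneg_left (by norm_num) (by positivity) (by linarith)
    rw [hl]
    refine le_trans (by linarith : 2 + 4 / (1 / q ^ 2 - 1) - 1 / A
      ≤ 2 + 4 / (4 * A + 8 * A ^ 2 + 32 / 3 * A ^ 3) - 1 / A) (le_of_eq ?_)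
    field_simp
    ring
  have h6 := poly_key hA
  have t1 : 4 * A / ((1 + t) * (1 + t + 2 * A))
      = A * (1 + 2 * A) ^ 2 / ((1 + A) * (1 + 2 * A + 2 * A ^ 2)) := by
    rw [ht]; field_simp; ring
  have t2 : (1 - t) / ((1 + t) * (A + t))
      = A * (1 + 2 * A) / ((1 + A) * (1 + A + 2 * A ^ 2)) := by
    rw [ht]; field_simp; ring
  linarith

lemma wf_antitoneOn : AntitoneOn wf (Ioo 0 1) := by
  set G : ℝ → ℝ := fun x => log x + log (etaf x) - log (ath x) - log (lgf x) - log (1 - x ^ 2) with hG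
  have hd : ∀ x ∈ Ioo (0 : ℝ) 1, HasDerivAt G
      (x⁻¹ + -ath x / etaf x - 1 / (1 - x ^ 2) / ath x - x / (1 - x ^ 2) / lgf x
        - -(2 * x) / (1 - x ^ 2)) x := by
    intro x hx
    obtain ⟨h0, h1⟩ := hx
    have hsq : HasDerivAt (fun y : ℝ => 1 - y ^ 2) (-(2 * x)) x := by
      simpa using (hasDerivAt_pow 2 x).const_sub 1
    exact ((((hasDerivAt_log h0.ne').add
      ((hasDerivAt_etaf (by linarith) h1).log (etaf_pos h0 h1).ne')).sub
      ((hasDerivAt_ath ⟨by linarith, h1⟩).log (ath_pos h0 h1).ne')).sub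
      ((hasDerivAt_lgf (by linarith) h1).log (lgf_pos h0 h1).ne')).sub
      (hsq.log (by nlinarith))
  have hGa : AntitoneOn G (Ioo 0 1) := by
    refine antitoneOn_of_hasDerivWithinAt_nonpos
      (f' := fun x => x⁻¹ + -ath x / etaf x - 1 / (1 - x ^ 2) / ath x - x / (1 - x ^ 2) / lgf x
        - -(2 * x) / (1 - x ^ 2)) (convex_Ioo 0 1)
      (fun x hx => (hd x hx).continuousAt.continuousWithinAt)
      (fun x hx => (hd x (interior_subset hx)).hasDerivWithinAt) fun x hx => ?_
    obtain ⟨h0, h1⟩ := interior_subset hx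
    have hs : 0 < 1 - x ^ 2 := by nlinarith
    have hA := ath_pos h0 h1
    have hE := etaf_pos h0 h1
    have hL := lgf_pos h0 h1
    have e : x⁻¹ + -ath x / etaf x - 1 / (1 - x ^ 2) / ath x - x / (1 - x ^ 2) / lgf x
        - -(2 * x) / (1 - x ^ 2)
        = (((1 + x ^ 2) / x - 1 / ath x) - (ath x * (1 - x ^ 2) / etaf x + x / lgf x))
          / (1 - x ^ 2) := by
      field_simp
      ring
    rw [e]
    exact div_nonpos_of_nonpos_of_nonneg (by linarith [slope_key h0 h1]) hs.le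
  have hW : ∀ x ∈ Ioo (0 : ℝ) 1, wf x = exp (G x) := by
    intro x hx
    obtain ⟨h0, h1⟩ := hx
    have hs : 0 < 1 - x ^ 2 := by nlinarith
    simp only [hG, wf, exp_sub, exp_add, exp_log h0, exp_log (etaf_pos h0 h1),
      exp_log (ath_pos h0 h1), exp_log (lgf_pos h0 h1), exp_log hs, div_div]
  intro x hx y hy hxy
  rw [hW x hx, hW y hy]
  exact exp_le_exp.2 (hGa hx hy hxy)

lemma uf_pos {x : ℝ} (h0 : 0 < x) (h1 : x < 1) : 0 < uf x :=
  div_pos (lgf_pos h0 h1) (ath_pos h0 h1)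

lemma uf_tendsto : Tendsto uf (𝓝[<] 1) (𝓝 1) := by
  have hhalf : (0 : ℝ) < ath (1 / 2) := ath_pos (by norm_num) (by norm_num)
  have hup : Tendsto (fun x : ℝ => 1 + (1 - x) / ath (1 / 2)) (𝓝[<] 1) (𝓝 1) := by
    have : Tendsto (fun x : ℝ => 1 + (1 - x) / ath (1 / 2)) (𝓝 1) (𝓝 (1 + (1 - 1) / ath (1 / 2))) :=
      ((continuous_const.add ((continuous_const.sub continuous_id).div_const _)).tendsto 1)
    simp at this
    simpa using this.mono_left nhdsWithin_le_nhds
  have hev : ∀ᶠ x in 𝓝[<] (1 : ℝ), x ∈ Ioo (1 / 2 : ℝ) 1 := Ioo_mem_nhdsLT (by norm_num)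
  refine tendsto_of_tendsto_of_tendsto_of_le_of_le' tendsto_const_nhds hup ?_ ?_
  · filter_upwards [hev] with x hx
    have h0 : 0 < x := by linarith [hx.1]
    rw [uf, le_div_iff₀ (ath_pos h0 hx.2), one_mul]
    exact (lgf_ge h0.le hx.2).le
  · filter_upwards [hev] with x hx
    have h0 : 0 < x := by linarith [hx.1]
    have hm : ath (1 / 2) ≤ ath x := by
      have a := log_le_log (by norm_num : (0 : ℝ) < 1 + 1 / 2) (by linarith [hx.1] : 1 + 1 / 2 ≤ 1 + x)
      have b := log_le_log (by linarith [hx.2] : (0 : ℝ) < 1 - x) (by linarith [hx.1] : 1 - x ≤ 1 - 1 / 2)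
      unfold ath
      linarith
    have hA := ath_pos h0 hx.2
    have hq : (1 - x) / (1 + x) ≤ 1 - x :=
      div_le_self (by linarith [hx.2]) (by linarith)
    have hq0 : 0 ≤ (1 - x) / (1 + x) := div_nonneg (by linarith [hx.2]) (by linarith)
    have hl : lgf x - ath x ≤ 1 - x := by
      rw [lgf_sub_ath h0.le]
      exact (log_le_sub_one_of_pos (by linarith)).trans (by linarith)
    rw [uf, show lgf x / ath x = 1 + (lgf x - ath x) / ath x by field_simp; ring]
    have := div_le_div₀ (by linarith [hx.2] : 0 ≤ 1 - x) hl hhalf hm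
    linarith

/-- Supermultiplicativity of `uf`. -/
lemma uf_mul_le {a b : ℝ} (ha : a ∈ Ioo (0 : ℝ) 1) (hb : b ∈ Ioo (0 : ℝ) 1) :
    uf a * uf b ≤ uf (a * b) := by
  set F : ℝ → ℝ := fun x => uf (x * b) / uf x with hF
  have hxb : ∀ x ∈ Ioo (0 : ℝ) 1, x * b ∈ Ioo (0 : ℝ) 1 := fun x hx =>
    ⟨mul_pos hx.1 hb.1, lt_trans (mul_lt_of_lt_one_right hx.1 hb.2) hx.2⟩
  have hd : ∀ x ∈ Ioo (0 : ℝ) 1, HasDerivAt F
      (uf (x * b) / uf x * ((wf x - wf (x * b)) / x)) x := by
    intro x hx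
    have hy := hxb x hx
    have := ((hasDerivAt_uf hy.1 hy.2).comp x ((hasDerivAt_id x).mul_const b)).div
      (hasDerivAt_uf hx.1 hx.2) (uf_pos hx.1 hx.2).ne'
    refine this.congr_deriv ?_
    have := (uf_pos hx.1 hx.2).ne'
    have := hx.1.ne'
    have := hb.1.ne'
    simp only [Function.comp, id, one_mul]
    field_simp
    ring
  have hanti : AntitoneOn F (Ioo 0 1) := by
    refine antitoneOn_of_hasDerivWithinAt_nonpos
      (f' := fun x => uf (x * b) / uf x * ((wf x - wf (x * b)) / x)) (convex_Ioo 0 1)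
      (fun x hx => (hd x hx).continuousAt.continuousWithinAt)
      (fun x hx => (hd x (interior_subset hx)).hasDerivWithinAt) fun x hx => ?_
    have hx := interior_subset hx
    have hy := hxb x hx
    have := wf_antitoneOn hy hx (mul_le_of_le_one_right hx.1.le hb.2.le)
    exact mul_nonpos_of_nonneg_of_nonpos (div_nonneg (uf_pos hy.1 hy.2).le (uf_pos hx.1 hx.2).le)
      (div_nonpos_of_nonpos_of_nonneg (by linarith) hx.1.le)
  have hlim : Tendsto F (𝓝[<] 1) (𝓝 (uf b)) := by
    have hc : Tendsto (fun x => uf (x * b)) (𝓝[<] 1) (𝓝 (uf b)) := by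
      have h1 : Tendsto (fun x : ℝ => x * b) (𝓝[<] 1) (𝓝 b) := by
        have : Tendsto (fun x : ℝ => x * b) (𝓝 1) (𝓝 (1 * b)) :=
          (continuous_id.mul continuous_const).tendsto 1
        rw [one_mul] at this
        exact this.mono_left nhdsWithin_le_nhds
      exact ((hasDerivAt_uf hb.1 hb.2).continuousAt.tendsto).comp h1
    have := hc.div uf_tendsto one_ne_zero
    rw [div_one] at this
    exact this
  have hle : uf b ≤ F a := by
    refine le_of_tendsto hlim ?_
    filter_upwards [Ioo_mem_nhdsLT ha.2] with x hx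
    exact hanti ha ⟨lt_trans ha.1 hx.1, hx.2⟩ hx.1.le
  rw [hF, le_div_iff₀ (uf_pos ha.1 ha.2)] at hle
  linarith

/-- A certificate at noise `ε₀` transfers to every smaller noise. -/
theorem cert_transfer {ε₀ ε θ k : ℝ} (he : 0 ≤ ε) (hee : ε ≤ ε₀) (he0 : 0 < ε₀)
    (he1 : ε₀ < 1 / 2) (hth1 : θ ≤ 1) (hc : Cert ε₀ θ k) :
    Cert ε θ (k / binEntropy ε₀ * binEntropy ε) := by
  have hH : 0 < binEntropy ε₀ := binEntropy_pos he0 (by linarith)
  have hk' : k / binEntropy ε₀ ≤ 1 := by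
    rw [div_le_one hH]
    have := hc 0 ⟨le_rfl, by norm_num⟩
    simpa using this
  set c := k / binEntropy ε₀ with hcdef
  set G : ℝ × ℝ → ℝ := fun p =>
    (log 2 - phi (p.1 * p.2)) - θ * (log 2 - phi p.2) - c * (log 2 - phi p.1) * p.2 with hG
  set K := Icc (1 - 2 * ε₀) 1 ×ˢ Icc (0 : ℝ) 1 with hK
  have hcont : ContinuousOn G K := by
    apply Continuous.continuousOn
    simp only [hG]
    fun_prop
  obtain ⟨⟨ρ, r⟩, hmem, hmin⟩ := (isCompact_Icc.prod isCompact_Icc).exists_isMinOn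
    ((nonempty_Icc.2 (by linarith)).prod (nonempty_Icc.2 zero_le_one)) hcont
  obtain ⟨hρ, hr⟩ := hmem
  simp only at hρ hr
  have hG0 : 0 ≤ G (ρ, r) := by
    rcases hr.1.eq_or_lt with h | hr0
    · simp only [hG, ← h]
      simp
      nlinarith [log_pos (show (1 : ℝ) < 2 by norm_num)]
    rcases hr.2.eq_or_lt with h | hr1
    · simp only [hG, h]
      simp
      have : 0 ≤ log 2 - phi ρ := by
        rw [phi, sub_sub_cancel]
        exact binEntropy_nonneg (by linarith [hρ.2]) (by linarith [hρ.1])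
      nlinarith [mul_nonneg (sub_nonneg.2 hk') this]
    rcases hρ.2.eq_or_lt with h | hρ1
    · simp only [hG, h]
      simp
      have : 0 ≤ log 2 - phi r := by
        rw [phi, sub_sub_cancel]
        exact binEntropy_nonneg (by linarith) (by linarith)
      nlinarith [mul_nonneg (sub_nonneg.2 hth1) this]
    rcases hρ.1.eq_or_lt with h | hρ0
    · have hd := hc ((1 - r) / 2) ⟨by linarith, by linarith⟩
      rw [binEntropy_eq_phi ((1 - r) / 2), binEntropy_eq_phi (ε₀ + (1 - 2 * ε₀) * ((1 - r) / 2))]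
        at hd
      have e : c * (log 2 - phi ρ) = k := by
        rw [← h, ← binEntropy_eq_phi, hcdef, div_mul_cancel₀ _ hH.ne']
      simp only [hG]
      rw [e, ← h]
      ring_nf at hd ⊢
      linarith
    have hρpos : 0 < ρ := by linarith
    have hp : ρ * r ∈ Ioo (0 : ℝ) 1 :=
      ⟨mul_pos hρpos hr0, lt_trans (mul_lt_of_lt_one_left hr0 hρ1) hr1⟩
    have hloc : IsLocalMin G (ρ, r) := hmin.isLocalMin (by
      exact prod_mem_nhds (Icc_mem_nhds hρ0 hρ1) (Icc_mem_nhds hr0 hr1))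
    have d1 : HasDerivAt (fun t => G (t, r)) (-(ath (ρ * r) * r) - c * (-ath ρ) * r) ρ := by
      have a := (((hasDerivAt_phi ⟨by linarith [hp.1], hp.2⟩).comp ρ
        ((hasDerivAt_id ρ).mul_const r)).const_sub (log 2)).sub_const (θ * (log 2 - phi r))
      have b := (((hasDerivAt_phi ⟨by linarith, hρ1⟩).const_sub (log 2)).const_mul c).mul_const r
      refine (a.sub b).congr_deriv ?_
      simp
    have d2 : HasDerivAt (fun t => G (ρ, t))
        (-(ath (ρ * r) * ρ) - θ * (-ath r) - c * (log 2 - phi ρ)) r := by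
      have a := ((hasDerivAt_phi ⟨by linarith [hp.1], hp.2⟩).comp r
        ((hasDerivAt_id r).const_mul ρ)).const_sub (log 2)
      have b := ((hasDerivAt_phi ⟨by linarith, hr1⟩).const_sub (log 2)).const_mul θ
      have e := (hasDerivAt_id r).const_mul (c * (log 2 - phi ρ))
      refine ((a.sub b).sub e).congr_deriv ?_
      simp
    have z1 := (hloc.comp_continuous (g := fun t => (t, r)) (b := ρ) (by fun_prop)).hasDerivAt_eq_zero d1
    have z2 := (hloc.comp_continuous (g := fun t => (ρ, t)) (b := r) (by fun_prop)).hasDerivAt_eq_zero d2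
    have hAρ := ath_pos hρpos hρ1
    have hAr := ath_pos hr0 hr1
    have hAp := ath_pos hp.1 hp.2
    have hcv : c * ath ρ = ath (ρ * r) := by
      have : r * (c * ath ρ - ath (ρ * r)) = 0 := by linear_combination z1
      linarith [(mul_eq_zero.1 this).resolve_left hr0.ne']
    have key := uf_mul_le ⟨hρpos, hρ1⟩ ⟨hr0, hr1⟩
    simp only [hG]
    rw [← etaf_eq (by linarith [hp.1]) hp.2, ← etaf_eq (by linarith) hr1,
      ← etaf_eq (by linarith) hρ1]
    rw [← etaf_eq (by linarith) hρ1] at z2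
    have hθA : θ * ath r = ath (ρ * r) * uf ρ := by
      have : c * etaf ρ = ath (ρ * r) * (etaf ρ / ath ρ) := by
        rw [← hcv]; field_simp
      have e : uf ρ = ρ + etaf ρ / ath ρ := by rw [uf, etaf]; field_simp; ring
      rw [e]; linear_combination z2 + this
    have hfin : etaf (ρ * r) - θ * etaf r - c * etaf ρ * r
        = ath (ρ * r) * (uf (ρ * r) - uf ρ * uf r) := by
      have e : ∀ x : ℝ, 0 < x → x < 1 → etaf x = ath x * uf x - x * ath x := by
        intro x h0 h1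
        rw [uf, etaf, mul_div_cancel₀ _ (ath_pos h0 h1).ne']
      rw [e _ hp.1 hp.2, e _ hr0 hr1, e _ hρpos hρ1]
      linear_combination -(uf r - r) * hθA - (uf ρ - ρ) * r * hcv
    rw [hfin]
    exact mul_nonneg hAp.le (by linarith)
  intro d hd
  have hpt := hmin (show (1 - 2 * ε, 1 - 2 * d) ∈ K from
    ⟨⟨by simp; linarith, by simp; linarith⟩, by simp; linarith [hd.2], by simp; linarith [hd.1]⟩)
  have : 0 ≤ G (1 - 2 * ε, 1 - 2 * d) := hG0.trans hpt
  simp only [hG] at this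
  rw [binEntropy_eq_phi d, binEntropy_eq_phi (ε + (1 - 2 * ε) * d), binEntropy_eq_phi ε,
    show 1 - 2 * (ε + (1 - 2 * ε) * d) = (1 - 2 * ε) * (1 - 2 * d) by ring]
  linarith

theorem transferProp : TransferProp := fun _ _ _ h0 h1 _ hθ1 _ hc =>
  cert_transfer h0 h1 (by norm_num) (by norm_num) hθ1 hc

end Vale.Agent.P322
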