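import Mathlib
import Vale.Agent.P322.Basic

/-!
P322: a certificate on symmetric pairs gives the two-point inequality for all pairs.
-/

open Real Set

namespace Vale.Agent.P322

lemma cert_phi {ε θ k M : ℝ} (hc : Cert ε θ k) (h0 : 0 ≤ M) (h1 : M ≤ 1) :
    k * M ≤ (1 - θ) * log 2 + θ * phi M - phi ((1 - 2 * ε) * M) := by
  have h := hc ((1 - M) / 2) ⟨by linarith, by linarith⟩
  rw [binEntropy_eq_phi ((1 - M) / 2), binEntropy_eq_phi (ε + _),
    show 1 - 2 * ((1 - M) / 2) = M by ring,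
    show 1 - 2 * (ε + (1 - 2 * ε) * ((1 - M) / 2)) = (1 - 2 * ε) * M by ring] at h
  linarith

lemma lam_mem {ε x : ℝ} (h0 : 0 ≤ ε) (h1 : ε ≤ 1 / 2) (hx0 : 0 ≤ x) (_hx1 : x < 1) :
    0 ≤ (1 - 2 * ε) * x ∧ (1 - 2 * ε) * x ≤ x :=
  ⟨mul_nonneg (by linarith) hx0, mul_le_of_le_one_left hx0 (by linarith)⟩

/-- The first derivative of `θ * phi x - phi (λ x)`. -/
noncomputable def defD1 (ε θ x : ℝ) : ℝ := θ * ath x - (1 - 2 * ε) * ath ((1 - 2 * ε) * x)

/-- The second derivative of `θ * phi x - phi (λ x)`. -/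
noncomputable def defD2 (ε θ x : ℝ) : ℝ :=
  θ / (1 - x ^ 2) - (1 - 2 * ε) ^ 2 / (1 - ((1 - 2 * ε) * x) ^ 2)

lemma hasDerivAt_def0 {ε θ x : ℝ} (h0 : 0 ≤ ε) (h1 : ε ≤ 1 / 2) (hx0 : 0 ≤ x) (hx1 : x < 1) :
    HasDerivAt (fun x => θ * phi x - phi ((1 - 2 * ε) * x)) (defD1 ε θ x) x := by
  obtain ⟨a, b⟩ := lam_mem h0 h1 hx0 hx1
  refine ((((hasDerivAt_phi ⟨by linarith, hx1⟩).const_mul θ).sub
    ((hasDerivAt_phi ⟨by linarith, by linarith⟩).comp x
      ((hasDerivAt_id' x).const_mul (1 - 2 * ε))))).congr_deriv ?_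
  simp only [defD1]; ring

lemma hasDerivAt_def1 {ε θ x : ℝ} (h0 : 0 ≤ ε) (h1 : ε ≤ 1 / 2) (hx0 : 0 ≤ x) (hx1 : x < 1) :
    HasDerivAt (defD1 ε θ) (defD2 ε θ x) x := by
  obtain ⟨a, b⟩ := lam_mem h0 h1 hx0 hx1
  refine ((((hasDerivAt_ath ⟨by linarith, hx1⟩).const_mul θ).sub
    (((hasDerivAt_ath ⟨by linarith, by linarith⟩).comp x
      ((hasDerivAt_id' x).const_mul (1 - 2 * ε))).const_mul (1 - 2 * ε)))).congr_deriv ?_
  simp only [defD2]; ring

lemma def_num_nonneg {ε θ x : ℝ} (h0 : 0 ≤ ε) (h1 : ε ≤ 1 / 2) (hθ : (1 - 2 * ε) ^ 4 ≤ θ)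
    (hx0 : 0 ≤ x) (hx1 : x < 1) :
    0 ≤ x ^ 2 * defD2 ε θ x - 2 * x * defD1 ε θ x +
      2 * (θ * phi x - phi ((1 - 2 * ε) * x)) := by
  have hd : ∀ y ∈ Icc 0 x, HasDerivAt (fun y => y ^ 2 * defD2 ε θ y - 2 * y * defD1 ε θ y +
      2 * (θ * phi y - phi ((1 - 2 * ε) * y)))
      (y ^ 2 * (2 * y * (θ / (1 - y ^ 2) ^ 2 -
        (1 - 2 * ε) ^ 4 / (1 - ((1 - 2 * ε) * y) ^ 2) ^ 2))) y := fun y hy => by
    have hy1 : y < 1 := hy.2.trans_lt hx1
    obtain ⟨a, b⟩ := lam_mem h0 h1 hy.1 hy1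
    have p1 : 1 - y ^ 2 ≠ 0 := by nlinarith [hy.1]
    have p2 : 1 - ((1 - 2 * ε) * y) ^ 2 ≠ 0 := by nlinarith
    have A := ((hasDerivAt_const y θ).div ((hasDerivAt_pow 2 y).const_sub 1) p1).sub
      ((hasDerivAt_const y ((1 - 2 * ε) ^ 2)).div
        (((((hasDerivAt_id' y).const_mul (1 - 2 * ε))).pow 2).const_sub 1) p2)
    refine ((((hasDerivAt_pow 2 y).mul A).sub (((hasDerivAt_id' y).const_mul 2).mul
      (hasDerivAt_def1 h0 h1 hy.1 hy1))).add
        ((hasDerivAt_def0 h0 h1 hy.1 hy1).const_mul 2)).congr_deriv ?_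
    simp only [defD2, Pi.sub_apply, Pi.div_apply, Pi.pow_apply]
    field_simp
    ring
  have := monotoneOn_of_hasDerivWithinAt_nonneg (convex_Icc 0 x)
    (fun y hy => (hd y hy).continuousAt.continuousWithinAt)
    (fun y hy => (hd y (interior_subset hy)).hasDerivWithinAt) (fun y hy => by
      obtain ⟨y0, yx⟩ := interior_subset hy
      obtain ⟨a, b⟩ := lam_mem h0 h1 y0 (yx.trans_lt hx1)
      have p1 : 0 < 1 - y ^ 2 := by nlinarith
      have : (1 - y ^ 2) ^ 2 ≤ (1 - ((1 - 2 * ε) * y) ^ 2) ^ 2 :=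
        pow_le_pow_left₀ p1.le (by nlinarith [pow_le_pow_left₀ a b 2]) 2
      have := div_le_div₀ (le_trans (by positivity) hθ) hθ (by positivity) this
      exact mul_nonneg (sq_nonneg y) (mul_nonneg (by linarith) (by linarith)))
    ⟨le_rfl, hx0⟩ ⟨hx0, le_rfl⟩ hx0
  simpa [defD1] using this

lemma convexOn_rate {ε θ a : ℝ} (h0 : 0 ≤ ε) (h1 : ε ≤ 1 / 2) (hθ : (1 - 2 * ε) ^ 4 ≤ θ)
    (ha : 0 < a) :
    ConvexOn ℝ (Icc a 1) (fun x => (θ * phi x - phi ((1 - 2 * ε) * x)) / x) := by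
  refine convexOn_of_hasDerivWithinAt2_nonneg (convex_Icc a 1) ?_
    (f' := fun x => (x * defD1 ε θ x - (θ * phi x - phi ((1 - 2 * ε) * x))) / x ^ 2)
    (f'' := fun x => (x ^ 2 * defD2 ε θ x - 2 * x * defD1 ε θ x +
      2 * (θ * phi x - phi ((1 - 2 * ε) * x))) / x ^ 3) ?_ ?_ ?_
  · exact ContinuousOn.div (by fun_prop) continuousOn_id fun x hx => (ha.trans_le hx.1).ne'
  · intro x hx
    rw [interior_Icc] at hx
    have x0 := ha.trans hx.1
    refine (((hasDerivAt_def0 h0 h1 x0.le hx.2).div (hasDerivAt_id' x) x0.ne').congr_deriv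
      ?_).hasDerivWithinAt
    ring
  · intro x hx
    rw [interior_Icc] at hx
    have x0 := ha.trans hx.1
    refine (((((hasDerivAt_id' x).mul (hasDerivAt_def1 h0 h1 x0.le hx.2)).sub
      (hasDerivAt_def0 h0 h1 x0.le hx.2)).div (hasDerivAt_pow 2 x)
        (pow_ne_zero 2 x0.ne')).congr_deriv ?_).hasDerivWithinAt
    simp only [Pi.sub_apply, Pi.mul_apply]
    field_simp
    ring
  · intro x hx
    rw [interior_Icc] at hx
    exact div_nonneg (def_num_nonneg h0 h1 hθ (ha.trans hx.1).le hx.2)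
      (pow_nonneg (ha.trans hx.1).le 3)

lemma midpoint_le {f : ℝ → ℝ} {D : Set ℝ} (hf : ConvexOn ℝ D f) {x y : ℝ} (hx : x ∈ D)
    (hy : y ∈ D) : 2 * f ((x + y) / 2) ≤ f x + f y := by
  have := hf.2 hx hy (show (0 : ℝ) ≤ 1 / 2 by norm_num) (show (0 : ℝ) ≤ 1 / 2 by norm_num)
    (by norm_num)
  simp only [smul_eq_mul] at this
  rw [show 1 / 2 * x + 1 / 2 * y = (x + y) / 2 by ring] at this
  linarith

/-- The two-point functional in the inverse coordinate. -/
noncomputable def invPart (ε θ S : ℝ) : ℝ :=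
  S * (θ * phi (1 / S) - phi ((1 - 2 * ε) * (1 / S))) - (1 - θ) * (S * log S)

lemma hasDerivAt_invPart {ε θ S : ℝ} (h0 : 0 ≤ ε) (h1 : ε ≤ 1 / 2) (hS : 1 < S) :
    HasDerivAt (invPart ε θ)
      (θ / 2 * log (1 - (1 / S) ^ 2) - log (1 - ((1 - 2 * ε) * (1 / S)) ^ 2) / 2 -
        (1 - θ) * (log S + 1)) S := by
  have hS0 : 0 < S := by linarith
  have r0 : 0 ≤ 1 / S := by positivity
  have r1 : 1 / S < 1 := by rw [div_lt_one hS0]; exact hS
  obtain ⟨a, b⟩ := lam_mem h0 h1 r0 r1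
  have A := (hasDerivAt_def0 (θ := θ) h0 h1 r0 r1).comp S
    ((hasDerivAt_const S (1 : ℝ)).div (hasDerivAt_id' S) hS0.ne')
  have := ((hasDerivAt_id' S).mul A).sub ((hasDerivAt_mul_log hS0.ne').const_mul (1 - θ))
  refine this.congr_deriv ?_
  have e : ∀ r : ℝ, -1 < r → r < 1 → phi r = r * ath r + log (1 - r ^ 2) / 2 := fun r l u => by
    rw [show 1 - r ^ 2 = (1 + r) * (1 - r) by ring, log_mul (by linarith) (by linarith), phi,
      binEntropy_eq_negMulLog_add_negMulLog_one_sub, negMulLog, negMulLog, ath,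
      show 1 - (1 - r) / 2 = (1 + r) / 2 by ring, log_div (by linarith) (by norm_num),
      log_div (by linarith) (by norm_num)]
    ring
  simp only [Function.comp_apply]
  rw [e (1 / S) (by linarith) r1, e ((1 - 2 * ε) * (1 / S)) (by linarith) (by linarith)]
  simp only [defD1]
  generalize log (1 - (1 / S) ^ 2) = A1
  generalize log (1 - ((1 - 2 * ε) * (1 / S)) ^ 2) = A2
  generalize ath ((1 - 2 * ε) * (1 / S)) = A3
  generalize ath (1 / S) = A4
  field_simp
  ring

lemma kappa_nonneg {ε θ r : ℝ} (h0 : 0 < ε) (h1 : ε ≤ 3 / 200) (hθ : 0 ≤ θ)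
    (hθ1 : θ ≤ (1 - 2 * ε) ^ 4) (hr0 : 0 ≤ r) (hr : r ^ 2 * (1 - θ * (1 - 2 * ε) ^ 2) ≤ 1 - θ)
    (_hr1 : r < 1) :
    0 ≤ (1 - θ) * log (1 + r) + θ / 2 * log (1 - r ^ 2) -
      log (1 - ((1 - 2 * ε) * r) ^ 2) / 2 := by
  set l := 1 - 2 * ε with hl
  have l0 : 97 / 100 ≤ l := by linarith
  have l1 : l < 1 := by linarith
  have hl2 : l ^ 2 < 1 := by nlinarith
  rcases hθ.eq_or_lt with rfl | hθ0
  · have : log (1 - (l * r) ^ 2) ≤ 0 :=
      log_nonpos (by nlinarith) (by linarith [sq_nonneg (l * r)])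
    have := log_nonneg (by linarith : (1 : ℝ) ≤ 1 + r)
    simp
    linarith
  have hθlt : θ < 1 := hθ1.trans_lt (pow_lt_one₀ (by linarith) l1 (by norm_num))
  have hD : 0 < 1 - θ * l ^ 2 := by nlinarith
  set R := √((1 - θ) / (1 - θ * l ^ 2)) with hR
  have R0 : 0 ≤ R := sqrt_nonneg _
  have R2 : R ^ 2 = (1 - θ) / (1 - θ * l ^ 2) :=
    sq_sqrt (div_nonneg (by linarith) hD.le)
  have R2' : R ^ 2 * (1 - θ * l ^ 2) = 1 - θ := by rw [R2]; exact div_mul_cancel₀ _ hD.ne'
  have R1 : R < 1 := by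
    by_contra hR1
    have := one_le_pow₀ (n := 2) (not_lt.1 hR1)
    have := mul_le_mul_of_nonneg_right this hD.le
    nlinarith [mul_pos hθ0 (by linarith : 0 < 1 - l ^ 2)]
  have hrR : r ≤ R := by
    rw [hR]
    exact le_sqrt_of_sq_le (by rwa [le_div_iff₀ hD])
  set K : ℝ → ℝ := fun x =>
    (1 - θ) * log (1 + x) + θ / 2 * log (1 - x ^ 2) - log (1 - (l * x) ^ 2) / 2 with hK
  have hpos : ∀ x, 0 ≤ x → x ≤ R → 0 < 1 - x ^ 2 ∧ 0 < 1 - (l * x) ^ 2 := fun x x0 xR => by
    have : 0 < 1 - x ^ 2 := by nlinarith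
    exact ⟨this, by nlinarith [mul_le_of_le_one_left x0 l1.le, mul_nonneg (by linarith : 0 ≤ l) x0]⟩
  have hd : ∀ x, 0 ≤ x → x ≤ R → HasDerivAt K
      (((1 - θ) * (1 - (l * x) ^ 2) - x * (1 - l ^ 2)) /
        ((1 - x ^ 2) * (1 - (l * x) ^ 2))) x := fun x x0 xR => by
    obtain ⟨p1, p2⟩ := hpos x x0 xR
    have p3 : 1 + x ≠ 0 := by linarith
    have := (((((hasDerivAt_id' x).const_add 1).log p3).const_mul (1 - θ)).add
      ((((hasDerivAt_pow 2 x).const_sub 1).log p1.ne').const_mul (θ / 2))).sub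
      (((((hasDerivAt_id' x).const_mul l).pow 2).const_sub 1).log p2.ne' |>.div_const 2)
    refine this.congr_deriv ?_
    simp only [Pi.pow_apply]
    generalize hP : 1 - (l * x) ^ 2 = P at p2 ⊢
    generalize hQ : 1 - x ^ 2 = Q at p1 ⊢
    have h1 := p1.ne'
    have h2 := p2.ne'
    field_simp
    subst P Q
    ring
  have hanti : ∀ x y, 0 ≤ x → x ≤ y → (1 - θ) * (1 - (l * y) ^ 2) - y * (1 - l ^ 2) ≤
      (1 - θ) * (1 - (l * x) ^ 2) - x * (1 - l ^ 2) := fun x y x0 xy => by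
    have := pow_le_pow_left₀ (mul_nonneg (by linarith : 0 ≤ l) x0)
      (mul_le_mul_of_nonneg_left xy (by linarith : 0 ≤ l)) 2
    nlinarith
  change 0 ≤ K r
  rcases le_total 0 ((1 - θ) * (1 - (l * r) ^ 2) - r * (1 - l ^ 2)) with hn | hn
  · have := monotoneOn_of_hasDerivWithinAt_nonneg (convex_Icc 0 r)
      (fun x hx => (hd x hx.1 (hx.2.trans hrR)).continuousAt.continuousWithinAt)
      (fun x hx => (hd x (interior_subset hx).1
        ((interior_subset hx).2.trans hrR)).hasDerivWithinAt)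
      (fun x hx => by
        obtain ⟨x0, xr⟩ := interior_subset hx
        obtain ⟨p1, p2⟩ := hpos x x0 (xr.trans hrR)
        exact div_nonneg (le_trans hn (hanti x r x0 xr)) (mul_nonneg p1.le p2.le))
      ⟨le_rfl, hr0⟩ ⟨hr0, le_rfl⟩ hr0
    simpa [hK] using this
  · have hmono := antitoneOn_of_hasDerivWithinAt_nonpos (convex_Icc r R)
      (fun x hx => (hd x (hr0.trans hx.1) hx.2).continuousAt.continuousWithinAt)
      (fun x hx => (hd x (hr0.trans (interior_subset hx).1)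
        (interior_subset hx).2).hasDerivWithinAt)
      (fun x hx => by
        obtain ⟨rx, xR⟩ := interior_subset hx
        obtain ⟨p1, p2⟩ := hpos x (hr0.trans rx) xR
        exact div_nonpos_of_nonpos_of_nonneg ((hanti r x hr0 rx).trans hn)
          (mul_nonneg p1.le p2.le))
      ⟨le_rfl, hrR⟩ ⟨hrR, le_rfl⟩ hrR
    refine le_trans ?_ hmono
    simp only [hK]
    have e1 : 1 - R ^ 2 = θ * (1 - l ^ 2) / (1 - θ * l ^ 2) := by
      rw [eq_div_iff hD.ne']; linear_combination -R2'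
    have e2 : 1 - (l * R) ^ 2 = (1 - l ^ 2) / (1 - θ * l ^ 2) := by
      rw [eq_div_iff hD.ne']; linear_combination -(l ^ 2) * R2'
    rw [e1, e2, log_div (mul_pos hθ0 (by linarith)).ne' hD.ne',
      log_mul hθ0.ne' (by linarith : (1 : ℝ) - l ^ 2 ≠ 0),
      log_div (by linarith : (1 : ℝ) - l ^ 2 ≠ 0) hD.ne']
    have hth : θ - 1 ≤ θ * log θ := by
      have := mul_le_mul_of_nonneg_left (one_sub_inv_le_log_of_pos hθ0) hθ0.le
      rwa [mul_sub, mul_one, mul_inv_cancel₀ hθ0.ne'] at this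
    have hlog : 1 ≤ log (1 - θ * l ^ 2) - log (1 - l ^ 2) := by
      rw [← log_div hD.ne' (by linarith), le_log_iff_exp_le (div_pos hD (by linarith)),
        le_div_iff₀ (by linarith)]
      have a1 := mul_le_mul_of_nonneg_right hθ1 (sq_nonneg l)
      have a2 : (97 / 100 : ℝ) ^ 2 ≤ l ^ 2 := pow_le_pow_left₀ (by norm_num) l0 2
      have a3 : (2.8 : ℝ) ≤ 1 + l ^ 2 + l ^ 4 := by nlinarith
      have a4 := mul_le_mul_of_nonneg_right (exp_one_lt_d9.le.trans
        (le_trans (by norm_num) a3)) (by linarith : 0 ≤ 1 - l ^ 2)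
      linarith
    have := mul_nonneg (by linarith : 0 ≤ 1 - θ) (log_nonneg (by linarith : (1 : ℝ) ≤ 1 + R))
    have := mul_le_mul_of_nonneg_left hlog (by linarith : 0 ≤ 1 - θ)
    linarith

lemma invPart_pair {ε θ k S T : ℝ} (h0 : 0 < ε) (h1 : ε ≤ 3 / 200) (hθ : 0 ≤ θ)
    (hθ1 : θ ≤ (1 - 2 * ε) ^ 4) (hc : Cert ε θ k) (hT : 1 ≤ T) (hTS : T ≤ S) :
    2 * k ≤ invPart ε θ S + invPart ε θ T + (1 - θ) * ((S + T) * log (S + T)) := by
  have hθlt : θ < 1 :=
    hθ1.trans_lt (pow_lt_one₀ (by linarith) (by linarith) (by norm_num))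
  set l := 1 - 2 * ε with hl
  have hl2 : l ^ 2 ≤ 1 := by nlinarith
  set B := √((1 - θ * l ^ 2) / (1 - θ)) with hB
  have hB2 : B ^ 2 = (1 - θ * l ^ 2) / (1 - θ) :=
    sq_sqrt (div_nonneg (by nlinarith) (by linarith))
  have hB1 : 1 ≤ B := by
    rw [hB, le_sqrt (by norm_num) (div_nonneg (by nlinarith) (by linarith)), one_pow,
      le_div_iff₀ (by linarith)]
    nlinarith
  have hcont : ContinuousOn (invPart ε θ) (Ici 1) := by
    have hne : ∀ x ∈ Ici (1 : ℝ), x ≠ 0 := fun x hx => (zero_lt_one.trans_le hx).ne'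
    have hinv : ContinuousOn (fun x : ℝ => 1 / x) (Ici 1) :=
      continuousOn_const.div continuousOn_id hne
    exact (continuousOn_id.mul ((continuousOn_const.mul (continuous_phi.comp_continuousOn hinv)).sub
      (continuous_phi.comp_continuousOn (continuousOn_const.mul hinv)))).sub
      (continuousOn_const.mul continuous_mul_log.continuousOn)
  have hdiag : ∀ M, 1 ≤ M →
      2 * k ≤ invPart ε θ M + invPart ε θ M + (1 - θ) * ((M + M) * log (M + M)) := fun M hM => by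
    have hM0 : 0 < M := by linarith
    have := mul_le_mul_of_nonneg_left
      (cert_phi hc (by positivity : 0 ≤ 1 / M) (by rw [div_le_one hM0]; exact hM)) hM0.le
    rw [show M * (k * (1 / M)) = k by field_simp] at this
    rw [invPart, show M + M = 2 * M by ring, log_mul two_ne_zero hM0.ne']
    linarith
  have hconv : ConvexOn ℝ (Icc 1 B) (invPart ε θ) := by
    refine convexOn_of_hasDerivWithinAt2_nonneg (convex_Icc 1 B)
      (hcont.mono Icc_subset_Ici_self)
      (f' := fun x => θ / 2 * log (1 - (1 / x) ^ 2) - log (1 - (l * (1 / x)) ^ 2) / 2 -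
        (1 - θ) * (log x + 1))
      (f'' := fun x => (θ / (x ^ 2 - 1) - l ^ 2 / (x ^ 2 - l ^ 2) - (1 - θ)) / x) ?_ ?_ ?_
    · intro x hx
      rw [interior_Icc] at hx
      exact (hasDerivAt_invPart h0.le (by linarith) hx.1).hasDerivWithinAt
    · intro x hx
      rw [interior_Icc] at hx
      have x0 : 0 < x := by linarith [hx.1]
      have hx1 : 1 / x < 1 := by rw [div_lt_one x0]; exact hx.1
      have hxp : 0 < 1 / x := by positivity
      have p1 : 1 - (1 / x) ^ 2 ≠ 0 := by nlinarith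
      have p2 : 1 - (l * (1 / x)) ^ 2 ≠ 0 := by
        nlinarith [mul_le_of_le_one_left hxp.le (by linarith : l ≤ 1),
          mul_nonneg (by linarith : 0 ≤ l) hxp.le]
      have q1 : x ^ 2 - 1 ≠ 0 := by nlinarith [hx.1]
      have q2 : x ^ 2 - l ^ 2 ≠ 0 := by nlinarith [hx.1]
      have D := (hasDerivAt_const x (1 : ℝ)).div (hasDerivAt_id' x) x0.ne'
      have := ((((((D.pow 2)).const_sub 1).log p1).const_mul (θ / 2)).sub
        (((((D.const_mul l).pow 2).const_sub 1).log p2).div_const 2)).sub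
        (((hasDerivAt_log x0.ne').add_const 1).const_mul (1 - θ))
      refine (this.congr_deriv ?_).hasDerivWithinAt
      simp only [Pi.pow_apply, Pi.div_apply]
      rw [show 1 - (1 / x) ^ 2 = (x ^ 2 - 1) / x ^ 2 by field_simp,
        show 1 - (l * (1 / x)) ^ 2 = (x ^ 2 - l ^ 2) / x ^ 2 by field_simp]
      generalize hP : x ^ 2 - 1 = P at q1 ⊢
      generalize hQ : x ^ 2 - l ^ 2 = Q at q2 ⊢
      have := x0.ne'
      push_cast
      field_simp
      subst P Q
      ring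
    · intro x hx
      rw [interior_Icc] at hx
      refine div_nonneg ?_ (by linarith [hx.1])
      have a : 0 < x ^ 2 - 1 := by nlinarith [hx.1]
      have b : 0 < x ^ 2 - l ^ 2 := by nlinarith
      have hxB : x ^ 2 * (1 - θ) ≤ 1 - θ * l ^ 2 := by
        have := pow_le_pow_left₀ (by linarith [hx.1]) hx.2.le 2
        rw [hB2, le_div_iff₀ (by linarith)] at this
        exact this
      have e : θ / (x ^ 2 - 1) - l ^ 2 / (x ^ 2 - l ^ 2) - (1 - θ) =
          x ^ 2 * (θ * (x ^ 2 - l ^ 2) - (x ^ 2 - 1)) / ((x ^ 2 - 1) * (x ^ 2 - l ^ 2)) := by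
        have := a.ne'
        have := b.ne'
        field_simp
        ring
      rw [e]
      exact div_nonneg (mul_nonneg (sq_nonneg x) (by linarith)) (mul_nonneg a.le b.le)
  have hboth : ∀ x y, x ∈ Icc 1 B → y ∈ Icc 1 B →
      2 * k ≤ invPart ε θ x + invPart ε θ y + (1 - θ) * ((x + y) * log (x + y)) := fun x y hx hy => by
    have := hdiag ((x + y) / 2) (by linarith [hx.1, hy.1])
    rw [show (x + y) / 2 + (x + y) / 2 = x + y by ring] at this
    linarith [midpoint_le hconv hx hy]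
  rcases le_total S B with hSB | hSB
  · exact hboth S T ⟨hT.trans hTS, hSB⟩ ⟨hT, hTS.trans hSB⟩
  set S0 := max B T with hS0
  have hmono : invPart ε θ S0 + invPart ε θ T + (1 - θ) * ((S0 + T) * log (S0 + T)) ≤
      invPart ε θ S + invPart ε θ T + (1 - θ) * ((S + T) * log (S + T)) := by
    refine monotoneOn_of_hasDerivWithinAt_nonneg
      (f := fun x => invPart ε θ x + invPart ε θ T + (1 - θ) * ((x + T) * log (x + T)))
      (f' := fun x => θ / 2 * log (1 - (1 / x) ^ 2) - log (1 - (l * (1 / x)) ^ 2) / 2 -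
        (1 - θ) * (log x + 1) + (1 - θ) * (log (x + T) + 1))
      (convex_Icc S0 S) ?_ ?_ ?_ ⟨le_rfl, max_le hSB hTS⟩ ⟨max_le hSB hTS, le_rfl⟩
      (max_le hSB hTS)
    · exact ((hcont.mono fun x hx => (hB1.trans (le_max_left B T)).trans hx.1).add
        continuousOn_const).add
        (continuousOn_const.mul (continuous_mul_log.comp (by fun_prop)).continuousOn)
    · intro x hx
      rw [interior_Icc] at hx
      have x1 : 1 < x := lt_of_le_of_lt (hB1.trans (le_max_left B T)) hx.1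
      refine ((((hasDerivAt_invPart h0.le (by linarith) x1).add_const (invPart ε θ T)).add
        (((hasDerivAt_mul_log (by linarith : x + T ≠ 0)).comp x
          ((hasDerivAt_id' x).add_const T)).const_mul (1 - θ))).congr_deriv
            ?_).hasDerivWithinAt
      ring
    · intro x hx
      rw [interior_Icc] at hx
      have hBx : B ≤ x := (le_max_left B T).trans hx.1.le
      have x1 : 1 < x := lt_of_le_of_lt (hB1.trans (le_max_left B T)) hx.1
      have x0 : 0 < x := by linarith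
      have r1 : 1 / x < 1 := by rw [div_lt_one x0]; exact x1
      have hr : (1 / x) ^ 2 * (1 - θ * l ^ 2) ≤ 1 - θ := by
        have := pow_le_pow_left₀ (by linarith) hBx 2
        rw [hB2, div_le_iff₀ (by linarith)] at this
        rw [div_pow, one_pow, div_mul_eq_mul_div, one_mul, div_le_iff₀ (by positivity)]
        linarith
      have := kappa_nonneg h0 h1 hθ hθ1 (by positivity) hr r1
      have hlog : log (1 + 1 / x) ≤ log (x + T) - log x := by
        rw [← log_div (by linarith) x0.ne', show (x + T) / x = 1 + T / x by field_simp]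
        refine log_le_log (by positivity) ?_
        have : 1 / x ≤ T / x := div_le_div_of_nonneg_right hT x0.le
        linarith
      have := mul_le_mul_of_nonneg_left hlog (by linarith : 0 ≤ 1 - θ)
      linarith
  refine le_trans ?_ hmono
  rcases le_total T B with hTB | hTB
  · rw [hS0, max_eq_left hTB]
    exact hboth B T ⟨hB1, le_rfl⟩ ⟨hT, hTB⟩
  · rw [hS0, max_eq_right hTB]
    exact hdiag T hT

lemma pair_core {ε θ k m r s : ℝ} (h0 : 0 < ε) (h1 : ε ≤ 3 / 200) (hθ : 0 ≤ θ) (hθ1 : θ ≤ 1)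
    (hc : Cert ε θ k) (hr : r ∈ Icc (0 : ℝ) 1) (hs : s ∈ Icc (0 : ℝ) 1) (hm : m ∈ Icc (0 : ℝ) 1)
    (hmr : m * r = (1 - m) * s) :
    k * (2 * (m * r)) ≤ (1 - θ) * binEntropy m + m * (θ * phi r - phi ((1 - 2 * ε) * r)) +
      (1 - m) * (θ * phi s - phi ((1 - 2 * ε) * s)) := by
  rcases eq_or_ne (m * r) 0 with he | he
  · have e1 : m * (θ * phi r - phi ((1 - 2 * ε) * r)) = 0 := by
      rcases mul_eq_zero.1 he with rfl | rfl <;> simp
    have e2 : (1 - m) * (θ * phi s - phi ((1 - 2 * ε) * s)) = 0 := by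
      rcases mul_eq_zero.1 (hmr.symm.trans he) with h | rfl
      · simp [h]
      · simp
    rw [he, e1, e2]
    simp
    exact mul_nonneg (sub_nonneg.2 hθ1) (binEntropy_nonneg hm.1 hm.2)
  have hm0 : 0 < m := hm.1.lt_of_ne' (left_ne_zero_of_mul he)
  have hr0 : 0 < r := hr.1.lt_of_ne' (right_ne_zero_of_mul he)
  have he' : (1 - m) * s ≠ 0 := hmr ▸ he
  have hm1 : 0 < 1 - m := (sub_nonneg.2 hm.2).lt_of_ne' (left_ne_zero_of_mul he')
  have hs0 : 0 < s := hs.1.lt_of_ne' (right_ne_zero_of_mul he')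
  set e := m * r with hedef
  have epos : 0 < e := mul_pos hm0 hr0
  have em : m = e * (1 / r) := by rw [hedef]; field_simp
  have em1 : 1 - m = e * (1 / s) := by rw [hmr]; field_simp
  rcases le_total ((1 - 2 * ε) ^ 4) θ with hbig | hsmall
  · have hZ := midpoint_le (convexOn_rate (θ := θ) h0.le (by linarith) hbig (lt_min hr0 hs0))
      (x := r) (y := s) ⟨min_le_left _ _, hr.2⟩ ⟨min_le_right _ _, hs.2⟩
    have hM : 0 < (r + s) / 2 := by linarith
    have hcM : k ≤ (θ * phi ((r + s) / 2) - phi ((1 - 2 * ε) * ((r + s) / 2))) / ((r + s) / 2) +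
        (1 - θ) * log 2 / ((r + s) / 2) := by
      rw [← add_div, le_div_iff₀ hM]
      linarith [cert_phi hc hM.le (by linarith [hr.2, hs.2])]
    have hh := mul_le_mul_of_nonneg_left (four_mul_le_binEntropy hm.1 hm.2) (sub_nonneg.2 hθ1)
    have hprod : 4 * m * (1 - m) = e * (2 / ((r + s) / 2)) := by
      have h' : (1 - m) * (r + s) = r := by
        linear_combination -hmr
      rw [hedef]
      field_simp
      linear_combination 4 * h'
    rw [hprod] at hh
    have a : m * (θ * phi r - phi ((1 - 2 * ε) * r)) =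
        e * ((θ * phi r - phi ((1 - 2 * ε) * r)) / r) := by rw [hedef]; field_simp
    have b : (1 - m) * (θ * phi s - phi ((1 - 2 * ε) * s)) =
        e * ((θ * phi s - phi ((1 - 2 * ε) * s)) / s) := by rw [hmr]; field_simp
    rw [a, b]
    have c1 := mul_le_mul_of_nonneg_left hZ epos.le
    have c2 := mul_le_mul_of_nonneg_left hcM (by positivity : 0 ≤ 2 * e)
    linear_combination c1 + c2 + hh
  · have hS : 1 ≤ 1 / r := by rw [le_div_iff₀ hr0]; linarith [hr.2]
    have hT : 1 ≤ 1 / s := by rw [le_div_iff₀ hs0]; linarith [hs.2]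
    have hW : 2 * k ≤ invPart ε θ (1 / r) + invPart ε θ (1 / s) +
        (1 - θ) * ((1 / r + 1 / s) * log (1 / r + 1 / s)) := by
      rcases le_total (1 / s) (1 / r) with h | h
      · exact invPart_pair h0 h1 hθ hsmall hc hT h
      · have := invPart_pair h0 h1 hθ hsmall hc hS h
        rw [add_comm (1 / s) (1 / r)] at this
        linarith
    have esum : 1 / r + 1 / s = 1 / e := by
      have : e * (1 / r + 1 / s) = 1 := by rw [mul_add, ← em, ← em1]; ring
      field_simp at this ⊢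
      linarith
    have hent : binEntropy m = -(e * (1 / r)) * (log e + log (1 / r)) -
        (e * (1 / s)) * (log e + log (1 / s)) := by
      rw [binEntropy_eq_negMulLog_add_negMulLog_one_sub, negMulLog, negMulLog, em1, em,
        log_mul epos.ne' (by positivity), log_mul epos.ne' (by positivity)]
      ring
    have := mul_le_mul_of_nonneg_left hW epos.le
    rw [esum, log_div one_ne_zero epos.ne', log_one] at this
    simp only [invPart, one_div_one_div] at this
    have e1 : e * (1 / r) + e * (1 / s) = 1 := by rw [← em, ← em1]; ring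
    have e2 : e * (1 / e) = 1 := by field_simp
    rw [hent, em1, em]
    linear_combination this + (1 - θ) * log e * (e1 - e2)

/-- A certificate bounds the mixed entropy of every pair. -/
theorem pair_cert {ε θ k u v : ℝ} (he : 0 ≤ ε) (he1 : ε ≤ 3 / 200) (hθ : 0 ≤ θ) (hθ1 : θ ≤ 1)
    (hc : Cert ε θ k) (hu : u ∈ Icc (0 : ℝ) 1) (hv : v ∈ Icc (0 : ℝ) 1) :
    θ * avgEnt u v + k * |u - v| ≤ mixEnt ε u v := by
  rcases he.eq_or_lt with rfl | h0
  · have hk := hc 0 (by norm_num)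
    simp at hk
    have hmix : mixEnt 0 u v = avgEnt u v := by simp [mixEnt, avgEnt]
    rw [hmix]
    have : 0 ≤ avgEnt u v := by
      unfold avgEnt
      linarith [binEntropy_nonneg hu.1 hu.2, binEntropy_nonneg hv.1 hv.2]
    nlinarith [mul_nonpos_of_nonpos_of_nonneg hk (abs_nonneg (u - v))]
  obtain ⟨r, s, hr, hs, hd, hrs, h3, h4⟩ := exists_split hu hv
  have := pair_core (m := (u + v) / 2) h0 he1 hθ hθ1 hc hr hs
    ⟨by linarith [hu.1, hv.1], by linarith [hu.2, hv.2]⟩ hrs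
  rw [h3, h4, hd]
  linarith

end Vale.Agent.P322
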