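import Mathlib
import Vale.Agent.P322.LowNoise
import Vale.Agent.P322.PairCert
import Vale.Agent.P322.Transfer
import Vale.Agent.P322.Mid.Band
import Vale.Agent.P322.Mid.BlockA
import Vale.Agent.P322.Mid.BlockB
import Vale.Agent.P322.Mid.BlockC

/-!
P322: the Courtade-Kumar inequality at every crossover, assembled from the regimes.

The range of noise levels is split at `3/200`, `1/20`, `2/25`, `21/200` and `1/2`; below `3/200`
the low-noise induction applies, elsewhere the induction with the bound `capBound κ ε`.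
-/

open Real Set

namespace Vale.Agent.P322

/-- The steps at high noise that complement the bands `bandC1`, ..., `bandC4`. -/
def HighProp : Prop :=
  ∀ ε a b : ℝ, ε < 1 / 2 → a ∈ Icc (0 : ℝ) 1 → b ∈ Icc (0 : ℝ) 1 →
    (7 / 50 ≤ ε ∨ (33 / 250 ≤ ε ∧ |a - b| ≤ 147 / 200) ∨ (1 / 8 ≤ ε ∧ |a - b| ≤ 129 / 200) ∨
      (23 / 200 ≤ ε ∧ |a - b| ≤ 101 / 200) ∨ (21 / 200 ≤ ε ∧ |a - b| ≤ 83 / 200)) →
    StepAt ε (capBound 1 ε) a b

/-- Steps at all pairs of means at noise levels in `[21/200, 1/2)`. -/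
lemma stepAt_high (H : HighProp) {ε a b : ℝ} (h0 : 21 / 200 ≤ ε) (h1 : ε < 1 / 2)
    (ha : a ∈ Icc (0 : ℝ) 1) (hb : b ∈ Icc (0 : ℝ) 1) : StepAt ε (capBound 1 ε) a b := by
  rcases le_total (7 / 50) ε with e | e4
  · exact H ε a b h1 ha hb (Or.inl e)
  rcases le_total (33 / 250) ε with e | e3
  · rcases le_total |a - b| (147 / 200) with d | d
    · exact H ε a b h1 ha hb (Or.inr (Or.inl ⟨e, d⟩))
    · exact Band.bandC4 e e4 ha hb d
  rcases le_total (1 / 8) ε with e | e2
  · rcases le_total |a - b| (129 / 200) with d | d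
    · exact H ε a b h1 ha hb (Or.inr (Or.inr (Or.inl ⟨e, d⟩)))
    · exact Band.bandC3 e e3 ha hb d
  rcases le_total (23 / 200) ε with e | e1
  · rcases le_total |a - b| (101 / 200) with d | d
    · exact H ε a b h1 ha hb (Or.inr (Or.inr (Or.inr (Or.inl ⟨e, d⟩))))
    · exact Band.bandC2 e e2 ha hb d
  rcases le_total |a - b| (83 / 200) with d | d
  · exact H ε a b h1 ha hb (Or.inr (Or.inr (Or.inr (Or.inr ⟨h0, d⟩))))
  · exact Band.bandC1 h0 e1 ha hb d

/-- Steps at all pairs give the inequality. -/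
lemma sub_condEntropy_le_of_steps {κ ε : ℝ} (hκ0 : 0 ≤ κ) (hκ1 : κ ≤ 1) (h0 : 0 ≤ ε)
    (h1 : ε ≤ 1 / 2) (hκ : (1 - κ * (4 * ε * (1 - ε))) * (log 2 - 1 / 2) ≤ (1 - 2 * ε) ^ 2 / 2)
    (h : ∀ a b, a ∈ Icc (0 : ℝ) 1 → b ∈ Icc (0 : ℝ) 1 → StepAt ε (capBound κ ε) a b)
    {n : ℕ} (f : (Fin n → Bool) → Bool) :
    binEntropy (trueProb f) - condEntropy ε f ≤ log 2 - binEntropy ε := by
  have hB := le_condEntropy_of_step h0 (by linarith) (B := capBound κ ε)
    (capBound_zero κ ε).le (capBound_one κ ε).le h n f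
  have hC : κ * (4 * ε * (1 - ε)) ≤ 1 :=
    mul_le_one₀ hκ1 (mul_nonneg (mul_nonneg (by norm_num) h0) (by linarith))
      (by nlinarith [sq_nonneg (1 - 2 * ε)])
  linarith [binEntropy_sub_le_capBound (by linarith) hκ h0 h1 (trueProb_mem f)]

/-- At crossover `1/2` the observation carries no information. -/
lemma condEntropy_half {n : ℕ} (f : (Fin n → Bool) → Bool) :
    condEntropy (1 / 2) f = binEntropy (trueProb f) := by
  have hk : ∀ x y : Fin n → Bool, kernel (1 / 2) x y = 1 / 2 ^ n := fun x y => by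
    rw [kernel, Finset.prod_eq_pow_card (b := (1 / 2 : ℝ)) fun i _ => by split <;> norm_num,
      Finset.card_univ, Fintype.card_fin, div_pow, one_pow]
  have hp : ∀ y, posterior (1 / 2) f y = trueProb f := fun y => by
    rw [posterior, trueProb, Finset.mul_sum]
    refine Finset.sum_congr rfl fun x _ => ?_
    rw [hk]
    cases f x <;> simp
  have hc : ((Finset.univ : Finset (Fin n → Bool)).card : ℝ) = 2 ^ n := by simp
  rw [condEntropy, Finset.sum_congr rfl fun y _ => congrArg binEntropy (hp y), Finset.sum_const,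
    nsmul_eq_mul, hc, ← mul_assoc, one_div_mul_cancel (pow_ne_zero n two_ne_zero), one_mul]

/-- The inequality at every crossover in `[0, 21/200]`. -/
theorem courtade_kumar_low {n : ℕ} (f : (Fin n → Bool) → Bool) {ε : ℝ}
    (h0 : 0 ≤ ε) (e : ε ≤ 21 / 200) :
    binEntropy (trueProb f) - condEntropy ε f ≤ log 2 - binEntropy ε := by
  have hL : log 2 - 1 / 2 ≤ 1 / 5 := by linarith [log_two_lt_d9]
  have hL0 : 0 ≤ log 2 - 1 / 2 := by linarith [log_two_gt_d9]
  have side : ∀ κ eb : ℝ, 0 ≤ κ → κ ≤ 1 → ε ≤ eb → eb ≤ 21 / 200 →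
      (1 - κ * (4 * ε * (1 - ε))) * (log 2 - 1 / 2) ≤ (1 - 2 * ε) ^ 2 / 2 := by
    intro κ eb hκ0 hκ1 e1 e2
    have hC : 0 ≤ 4 * ε * (1 - ε) := mul_nonneg (mul_nonneg (by norm_num) h0) (by linarith)
    have hs : (79 / 100 : ℝ) ^ 2 ≤ (1 - 2 * ε) ^ 2 :=
      pow_le_pow_left₀ (by norm_num) (by linarith) 2
    calc (1 - κ * (4 * ε * (1 - ε))) * (log 2 - 1 / 2) ≤ 1 * (1 / 5) :=
          mul_le_mul (by linarith [mul_nonneg hκ0 hC]) hL hL0 (by norm_num)
      _ ≤ _ := by norm_num at hs ⊢; linarith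
  have h1 : ε ≤ 1 / 2 := by linarith
  rcases le_total ε (3 / 200) with e' | e0
  · exact low_noise_of transferProp
      (fun _ _ _ _ _ a b c d e' g i => pair_cert a b c d e' g i) h0 e' f
  rcases le_total ε (1 / 20) with e' | e1
  · exact sub_condEntropy_le_of_steps (κ := 21 / 25) (by norm_num) (by norm_num) h0 h1
      (side _ _ (by norm_num) (by norm_num) e' (by norm_num))
      (fun a b ha hb => BlockA.stepAt_all e0 e' ha hb) f
  rcases le_total ε (2 / 25) with e' | e2
  · exact sub_condEntropy_le_of_steps (κ := 21 / 25) (by norm_num) (by norm_num) h0 h1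
      (side _ _ (by norm_num) (by norm_num) e' (by norm_num))
      (fun a b ha hb => BlockB.stepAt_all e1 e' ha hb) f
  exact sub_condEntropy_le_of_steps (κ := 41 / 50) (by norm_num) (by norm_num) h0 h1
      (side _ _ (by norm_num) (by norm_num) e le_rfl)
    (fun a b ha hb => BlockC.stepAt_all e2 e ha hb) f

/-- The inequality at every crossover in `[0, 1/2]`, given the steps at high noise. -/
theorem courtade_kumar_of (H : HighProp) {n : ℕ} (f : (Fin n → Bool) → Bool) {ε : ℝ}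
    (h0 : 0 ≤ ε) (h1 : ε ≤ 1 / 2) :
    binEntropy (trueProb f) - condEntropy ε f ≤ log 2 - binEntropy ε := by
  rcases h1.eq_or_lt with rfl | h1'
  · rw [condEntropy_half]
    simp [binEntropy_two_inv]
  rcases le_total ε (21 / 200) with e | e3
  · exact courtade_kumar_low f h0 e
  · refine sub_condEntropy_le_of_steps (κ := 1) zero_le_one le_rfl h0 h1 ?_
      (fun a b ha hb => stepAt_high H e3 h1' ha hb) f
    rw [show (1 : ℝ) - 1 * (4 * ε * (1 - ε)) = (1 - 2 * ε) ^ 2 by ring]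
    linarith [mul_le_mul_of_nonneg_left (by linarith [log_two_lt_d9] : log 2 - 1 / 2 ≤ 1 / 2)
      (sq_nonneg (1 - 2 * ε))]

end Vale.Agent.P322
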