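import Mathlib
import Vale.Agent.P322.Assembly
import Vale.Agent.P322.High.Steps

/-!
P322: the high-noise steps used by the assembly.
-/

open Real Set

namespace Vale.Agent.P322

/-- The steps at high noise. -/
theorem highProp : HighProp := by
  intro ε a b h1 ha hb h
  rcases h with e | ⟨e, d⟩ | ⟨e, d⟩ | ⟨e, d⟩ | ⟨e, d⟩
  · exact High.stepA e h1 ha hb
  · exact High.stepB4 e h1 ha hb d
  · exact High.stepB3 e h1 ha hb d
  · exact High.stepB2 e h1 ha hb d
  · exact High.stepB1 e h1 ha hb d

end Vale.Agent.P322
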